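import Vale.Agent.P031.FL

namespace Vale.Agent.P031

open Finset Real Filter

theorem Sv_ev (c : ℝ) : ∀ᶠ X : ℝ in atTop, 1 < X ∧ c ≤ log (log X) ∧ 12 ≤ log (log X) ∧
    18 * log (log X) ≤ log X ∧ c ≤ log X ∧ log (log X) ^ 3 ≤ log X := by
  have h1 : ∀ᶠ L : ℝ in atTop, c ≤ log L ∧ 12 ≤ log L ∧ 18 * log L ≤ L ∧ c ≤ L ∧
      log L ^ 3 ≤ L := by
    have h2 := (isLittleO_log_id_atTop.bound (show (0 : ℝ) < 1 / 18 by norm_num))
    have h3 := ((isLittleO_pow_log_id_atTop (n := 3)).bound (show (0 : ℝ) < 1 by norm_num))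
    filter_upwards [tendsto_log_atTop.eventually_ge_atTop c, tendsto_log_atTop.eventually_ge_atTop
      12, h2, h3, eventually_ge_atTop c, eventually_ge_atTop 0] with L a1 a2 a3 a4 a5 a6
    rw [id, Real.norm_of_nonneg a6] at a3 a4
    have := (le_abs_self _).trans a3
    have := (le_abs_self _).trans a4
    exact ⟨a1, a2, by linarith, a5, by linarith⟩
  filter_upwards [eventually_gt_atTop 1, tendsto_log_atTop.eventually h1] with X a1 a2
  exact ⟨a1, a2⟩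

theorem Sv_gen : ∀ᶠ X : ℝ in atTop, ∀ y A R : ℝ, 2 ≤ y → log y ≤ log X / log (log X) ^ 3 →
    X ≤ R → 0 ≤ A → ∀ S ⊆ PP y, ∀ B : ℕ → Finset ℕ, (∀ q ∈ S, B q ⊆ range q ∧ (B q).card ≤ 3) →
    ∀ T : Finset ℕ, (∀ r ∈ T, A < (r : ℝ) ∧ (r : ℝ) ≤ A + R ∧ ∀ q ∈ S, r % q ∉ B q) →
    (T.card : ℝ) ≤ R * ∏ q ∈ S, (1 - ((B q).card : ℝ) / q) + 2 * R / log X ^ 9 := by
  obtain ⟨C, hC⟩ := mertens
  filter_upwards [Sv_ev (3 * C)] with X ⟨hX, h1, h2, h3, _, _⟩ y A R hy hyX hR hA S hS B hB T hT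
  set L := log X with hL
  set l := log L with hl
  have hL0 : 0 < L := log_pos hX
  have hy0 : 0 < log y := log_pos (by linarith)
  have hl3 : 1 ≤ l ^ 3 := one_le_pow₀ (by linarith)
  have hyL : log y ≤ L := hyX.trans (div_le_self hL0.le hl3)
  have h := pure_sieve S (fun q hq => (mem_PP.1 (hS hq)).1) B hB y (by linarith)
    (fun q hq => (mem_PP.1 (hS hq)).2) A R hA (by linarith) ⌈10 * l⌉₊ T hT
  set k := ⌈10 * l⌉₊ with hk
  have hk1 : 10 * l ≤ k := Nat.le_ceil _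
  have hk2 : (k : ℝ) ≤ 11 * l := by
    have := Nat.ceil_lt_add_one (show 0 ≤ 10 * l by linarith)
    linarith
  have e9 : exp (-(9 * l)) = 1 / L ^ 9 := by
    rw [exp_neg, show 9 * l = (9 : ℕ) * l by norm_num, exp_nat_mul, hl, exp_log hL0, one_div]
  have hr0 : 0 ≤ rs S := sum_nonneg fun q _ => by positivity
  have hr : 3 * rs S ≤ 4 * l := by
    have a1 : rs S ≤ rs (PP y) := sum_le_sum_of_subset_of_nonneg hS fun q _ _ => by positivity
    have a2 := (abs_le.1 (hC y hy)).2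
    have a3 : log (log y) ≤ l := log_le_log hy0 hyL
    linarith
  have t1 : (3 * rs S) ^ (2 * k + 1) / (2 * k + 1).factorial ≤ 1 / L ^ 9 := by
    have a1 := Real.pow_div_factorial_le_exp (3 * rs S * exp 1) (by positivity) (2 * k + 1)
    rw [mul_pow, ← exp_nat_mul, mul_one, mul_div_right_comm, ← le_div_iff₀ (exp_pos _),
      ← exp_sub] at a1
    rw [← e9]
    refine a1.trans (exp_le_exp.2 ?_)
    have a2 := mul_le_mul hr exp_one_lt_d9.le (exp_pos 1).le (by linarith)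
    push_cast
    linarith
  have t2 : (4 * y) ^ (2 * k) ≤ R * (1 / L ^ 9) := by
    refine le_trans ?_ (mul_le_mul_of_nonneg_right hR (by positivity))
    rw [← e9, ← exp_log (show 0 < X by linarith), ← exp_add, ← hL,
      ← exp_log (show 0 < 4 * y by linarith), ← exp_nat_mul, exp_le_exp]
    have a1 : log (4 * y) ≤ 3 * log y := by
      rw [show 3 * log y = log (y ^ 3) by rw [log_pow]; norm_num]
      refine log_le_log (by linarith) ?_
      nlinarith [mul_nonneg (show 0 ≤ y by linarith) (show 0 ≤ y ^ 2 - 4 by nlinarith)]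
    have a2 : log y * l ^ 3 ≤ L := (le_div_iff₀ (by linarith)).1 hyX
    have a3 : 132 * l ≤ l ^ 3 := by nlinarith [mul_le_mul h2 h2 (by norm_num) (by linarith)]
    have a4 := mul_le_mul_of_nonneg_left a3 hy0.le
    have a5 := mul_le_mul hk2 a1 (log_nonneg (by linarith)) (by linarith)
    push_cast
    nlinarith
  have t3 := mul_le_mul_of_nonneg_left t1 (show 0 ≤ R by linarith)
  rw [← mul_div_assoc] at t3
  have e : 2 * R / L ^ 9 = R * (1 / L ^ 9) + R * (1 / L ^ 9) := by ring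
  linarith

theorem rough_card : ∀ᶠ X : ℝ in atTop, ∀ y R : ℝ, 2 ≤ y → log y ≤ log X / log (log X) ^ 3 →
    X ≤ R → ∀ T : Finset ℕ, (∀ r ∈ T, r ≠ 0 ∧ (r : ℝ) ≤ R ∧ Rough y r) →
    (T.card : ℝ) ≤ 2 * R * ∏ q ∈ PP y, (1 - 1 / (q : ℝ)) := by
  obtain ⟨c, hc, hP⟩ := prod_ge
  filter_upwards [Sv_gen, Sv_ev (2 / c)] with X hg ⟨hX, _, h2, h3, h4, _⟩ y R hy hyX hR T hT
  have h := hg y 0 R hy hyX hR le_rfl (PP y) Subset.rfl (fun _ => {0})
    (fun q hq => ⟨by simpa using (mem_PP.1 hq).1.pos, by simp⟩) T fun r hr => by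
      obtain ⟨a1, a2, a3⟩ := hT r hr
      refine ⟨by positivity, by linarith, fun q hq hq0 => ?_⟩
      exact absurd (a3 q (mem_PP.1 hq).1 (Nat.dvd_of_mod_eq_zero (mem_singleton.1 hq0)))
        (not_lt.2 (mem_PP.1 hq).2)
  simp only [card_singleton, Nat.cast_one] at h
  have hL1 : 1 ≤ log X := by linarith
  have hy0 : 0 < log y := log_pos (by linarith)
  have hyL : log y ≤ log X := hyX.trans (div_le_self (by linarith) (one_le_pow₀ (by linarith)))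
  have a1 : 2 / log X ^ 9 ≤ c / log y := by
    rw [div_le_div_iff₀ (by positivity) hy0]
    have b1 : log X ^ 2 ≤ log X ^ 9 := pow_le_pow_right₀ hL1 (by norm_num)
    have b2 : 2 ≤ log X * c := (div_le_iff₀ hc).1 h4
    nlinarith [mul_le_mul_of_nonneg_left b1 hc.le]
  have a2 := mul_le_mul_of_nonneg_left (a1.trans (hP y hy)) (show 0 ≤ R by linarith)
  have e : 2 * R / log X ^ 9 = R * (2 / log X ^ 9) := by ring
  linarith

theorem Sv_root {q a : ℕ} (hq : q.Prime) (ha : ¬ q ∣ a) : ∃ m < q, q ∣ a * m + 1 := by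
  obtain ⟨m, h1, h2⟩ := Nat.exists_mul_mod_eq_of_coprime (q - 1)
    ((Nat.Prime.coprime_iff_not_dvd hq).2 ha).symm hq.ne_zero
  refine ⟨m, h1, ?_⟩
  have h3 : a * m + 1 ≡ q - 1 + 1 [MOD q] := Nat.ModEq.add_right 1 h2
  rw [Nat.sub_add_cancel hq.one_le] at h3
  exact (Nat.modEq_zero_iff_dvd).1 (h3.trans (Nat.modEq_zero_iff_dvd.2 dvd_rfl))

theorem Sv_loglog {N : ℝ} (hN : 16 ≤ N) : 1 ≤ log (log N) := by
  have h1 : exp 1 ≤ log N := by
    have := log_le_log (by norm_num) hN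
    rw [show (16 : ℝ) = 2 ^ 4 by norm_num, log_pow] at this
    have := exp_one_lt_d9
    have := log_two_gt_d9
    push_cast at *
    linarith
  simpa using log_le_log (exp_pos 1) h1

theorem Sv_main (C' : ℝ) : ∃ C : ℝ, ∀ᶠ X : ℝ in atTop, ∀ (y1 y2 A R N : ℝ) (M D : Finset ℕ),
    2 ≤ y1 → y1 ≤ y2 → log y2 ≤ log X / log (log X) ^ 3 → X ≤ R → 0 ≤ A → 16 ≤ N → M.card ≤ 2 →
    rs D ≤ 3 * (log (log (log N)) + C') →
    (∀ q, q.Prime → q ∉ D → ∀ a ∈ M, ¬ q ∣ a ∧ ∀ b ∈ M, a ≡ b [MOD q] → a = b) →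
    ∀ T : Finset ℕ, (∀ r ∈ T, A < (r : ℝ) ∧ (r : ℝ) ≤ A + R ∧ Rough y1 r ∧
      ∀ a ∈ M, Rough y2 (a * r + 1)) →
    (T.card : ℝ) ≤ C * R * log (log N) ^ 9 / (log y1 * log y2 ^ M.card) := by
  obtain ⟨C, hC⟩ := mertens
  have hC0 : 0 ≤ C := (abs_nonneg _).trans (hC 2 le_rfl)
  refine ⟨exp (3 * C + 9 * C') + 2, ?_⟩
  filter_upwards [Sv_gen, Sv_ev 0] with X hg ⟨hX, _, h2, h3, _, _⟩ y1 y2 A R N M D hy1 hy12 hyX hR
    hA hN hM hD hq T hT
  have hρ : ∀ q a : ℕ, ∃ m, q.Prime → ¬ q ∣ a → m < q ∧ q ∣ a * m + 1 := fun q a => by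
    by_cases h : q.Prime ∧ ¬ q ∣ a
    · obtain ⟨m, hm⟩ := Sv_root h.1 h.2
      exact ⟨m, fun _ _ => hm⟩
    · exact ⟨0, fun a b => absurd ⟨a, b⟩ h⟩
  choose ρ hρ using hρ
  let B : ℕ → Finset ℕ := fun q => (if (q : ℝ) ≤ y1 then {0} else ∅) ∪ M.image (ρ q)
  have hS : ∀ q ∈ PP y2 \ D, q.Prime ∧ ∀ a ∈ M, (ρ q a < q ∧ q ∣ a * ρ q a + 1) ∧
      ∀ b ∈ M, a ≡ b [MOD q] → a = b := fun q h => by
    have h1 := (mem_PP.1 (mem_sdiff.1 h).1).1
    exact ⟨h1, fun a ha => ⟨hρ q a h1 (hq q h1 (mem_sdiff.1 h).2 a ha).1,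
      (hq q h1 (mem_sdiff.1 h).2 a ha).2⟩⟩
  have hB : ∀ q ∈ PP y2 \ D, (B q).card = (if (q : ℝ) ≤ y1 then 1 else 0) + M.card := by
    intro q h
    obtain ⟨h1, h4⟩ := hS q h
    have h0 : ∀ a ∈ M, ¬ q ∣ ρ q a := fun a ha hd =>
      h1.one_lt.ne' (Nat.dvd_one.1 ((Nat.dvd_add_right (hd.mul_left a)).1 (h4 a ha).1.2))
    rw [card_union_of_disjoint, card_image_of_injOn]
    · split_ifs <;> simp
    · intro a ha b hb e
      refine (h4 a ha).2 b hb (Nat.ModEq.cancel_right_of_coprime (c := ρ q a)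
        ((Nat.Prime.coprime_iff_not_dvd h1).2 (h0 a ha)) (Nat.ModEq.add_right_cancel' 1 ?_))
      refine ((Nat.modEq_zero_iff_dvd).2 (h4 a ha).1.2).trans ((Nat.modEq_zero_iff_dvd).2 ?_).symm
      rw [e]; exact (h4 b hb).1.2
    · split_ifs
      · rw [disjoint_singleton_left, mem_image]
        rintro ⟨a, ha, e⟩
        exact h0 a ha (e ▸ dvd_zero q)
      · simp
  have hBr : ∀ q ∈ PP y2 \ D, B q ⊆ range q ∧ (B q).card ≤ 3 := fun q h => by
    refine ⟨union_subset ?_ fun r hr => ?_, by rw [hB q h]; split_ifs <;> omega⟩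
    · split_ifs
      · simpa using (hS q h).1.pos
      · simp
    · obtain ⟨a, ha, rfl⟩ := mem_image.1 hr
      exact mem_range.2 ((hS q h).2 a ha).1.1
  have h := hg y2 A R (by linarith) hyX hR hA (PP y2 \ D) sdiff_subset B hBr T fun r hr => by
    obtain ⟨a1, a2, a3, a4⟩ := hT r hr
    refine ⟨a1, a2, fun q hq hm => ?_⟩
    rcases mem_union.1 hm with hm | hm
    · split_ifs at hm with h5
      · exact absurd (a3 q (hS q hq).1 (Nat.dvd_of_mod_eq_zero (mem_singleton.1 hm))) (not_lt.2 h5)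
      · simp at hm
    · obtain ⟨a, ha, e⟩ := mem_image.1 hm
      refine absurd (a4 a ha q (hS q hq).1 ?_) (not_lt.2 (mem_PP.1 (mem_sdiff.1 hq).1).2)
      have h6 : a * r + 1 ≡ a * ρ q a + 1 [MOD q] := by
        rw [e]; exact ((Nat.mod_modEq r q).symm.mul_left a).add_right 1
      exact Nat.modEq_zero_iff_dvd.1 (h6.trans (Nat.modEq_zero_iff_dvd.2 ((hS q hq).2 a ha).1.2))
  have hM' : (M.card : ℝ) ≤ 2 := by exact_mod_cast hM
  have hl1 : 0 < log y1 := log_pos (by linarith)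
  have hl12 : log y1 ≤ log y2 := log_le_log (by linarith) hy12
  have hl2 : 0 < log y2 := by linarith
  have hN1 := Sv_loglog hN
  have p1 : ∏ q ∈ PP y2 \ D, (1 - ((B q).card : ℝ) / q) ≤
      exp (-∑ q ∈ PP y2 \ D, ((B q).card : ℝ) / q) := by
    rw [← sum_neg_distrib, exp_sum]
    refine prod_le_prod (fun q hq => sub_nonneg.2 (div_le_one_of_le₀ ?_ (Nat.cast_nonneg _)))
      fun q _ => one_sub_le_exp_neg _
    exact_mod_cast (card_le_card (hBr q hq).1).trans (card_range q).le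
  have p2 : rs (PP y1) + M.card * rs (PP y2) ≤
      ∑ q ∈ PP y2 \ D, ((B q).card : ℝ) / q + 3 * rs D := by
    have e1 : rs (PP y1) = ∑ q ∈ PP y2, if (q : ℝ) ≤ y1 then (1 : ℝ) / q else 0 := by
      rw [← sum_filter, rs]
      congr 1
      ext q
      simp only [mem_filter, mem_PP]
      exact ⟨fun h => ⟨⟨h.1, h.2.trans hy12⟩, h.2⟩, fun h => ⟨h.1.1, h.2⟩⟩
    rw [e1, rs, mul_sum, ← sum_add_distrib, ← sum_sdiff (inter_subset_left (s₂ := D)),
      sdiff_inter_self_left]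
    refine add_le_add (sum_le_sum fun q hq => le_of_eq ?_) ?_
    · rw [hB q hq]
      split_ifs <;> push_cast <;> ring
    · rw [rs, mul_sum]
      refine le_trans (sum_le_sum fun q _ => ?_)
        (sum_le_sum_of_subset_of_nonneg inter_subset_right fun q _ _ => by positivity)
      have := mul_le_mul_of_nonneg_right hM' (show (0 : ℝ) ≤ 1 / q by positivity)
      have : (0 : ℝ) ≤ 1 / q := by positivity
      split_ifs <;> linarith
  have p3 : exp (-∑ q ∈ PP y2 \ D, ((B q).card : ℝ) / q) ≤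
      exp (3 * C + 9 * C') * log (log N) ^ 9 / (log y1 * log y2 ^ M.card) := by
    rw [← exp_log (show 0 < log (log N) by linarith), ← exp_log hl1, ← exp_log hl2,
      ← exp_nat_mul, ← exp_nat_mul, ← exp_add, ← exp_add, ← exp_sub, exp_le_exp]
    have a1 := (abs_le.1 (hC y1 hy1)).1
    have a2 := mul_le_mul_of_nonneg_left (abs_le.1 (hC y2 (by linarith))).1
      (Nat.cast_nonneg (α := ℝ) M.card)
    have a3 := mul_le_mul_of_nonneg_right hM' hC0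
    push_cast
    linarith
  have p4 : 2 / log X ^ 9 ≤ 2 * log (log N) ^ 9 / (log y1 * log y2 ^ M.card) := by
    have hL1 : 1 ≤ log X := by linarith
    have hyL : log y2 ≤ log X := hyX.trans (div_le_self (by linarith) (one_le_pow₀ (by linarith)))
    have a1 : log y1 * log y2 ^ M.card ≤ log X ^ 9 := by
      refine (mul_le_mul (hl12.trans hyL) (pow_le_pow_left₀ hl2.le hyL _) (by positivity)
        (by linarith)).trans ?_
      rw [← pow_succ']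
      exact pow_le_pow_right₀ hL1 (by omega)
    have a2 : 1 ≤ log (log N) ^ 9 := one_le_pow₀ hN1
    exact div_le_div₀ (by positivity) (by linarith) (by positivity) a1
  have hR0 : 0 ≤ R := by linarith
  have q1 := mul_le_mul_of_nonneg_left (p1.trans p3) hR0
  have q2 := mul_le_mul_of_nonneg_left p4 hR0
  have e : 2 * R / log X ^ 9 = R * (2 / log X ^ 9) := by ring
  rw [e] at h
  exact (h.trans (add_le_add q1 q2)).trans (le_of_eq (by ring))

theorem Sv_rs : ∃ C : ℝ, ∀ N : ℝ, 16 ≤ N → ∀ a b c : ℕ, a ≠ 0 → b ≠ 0 → c ≠ 0 → (a : ℝ) ≤ N →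
    (b : ℝ) ≤ N → (c : ℝ) ≤ N →
    rs (a.primeFactors ∪ b.primeFactors ∪ c.primeFactors) ≤ 3 * (log (log (log N)) + C) := by
  obtain ⟨C, hC⟩ := rs_primeFactors
  refine ⟨C, fun N hN a b c ha hb hc ha' hb' hc' => ?_⟩
  have hu : ∀ S T : Finset ℕ, rs (S ∪ T) ≤ rs S + rs T := fun S T => by
    have := sum_union_inter (s₁ := S) (s₂ := T) (f := fun q : ℕ => (1 : ℝ) / q)
    have : 0 ≤ ∑ q ∈ S ∩ T, (1 : ℝ) / q := sum_nonneg fun q _ => by positivity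
    simp only [rs]
    linarith
  have := hu (a.primeFactors ∪ b.primeFactors) c.primeFactors
  have := hu a.primeFactors b.primeFactors
  have := hC N hN a ha ha'
  have := hC N hN b hb hb'
  have := hC N hN c hc hc'
  linarith

theorem sieve2 : ∃ C : ℝ, ∀ᶠ X : ℝ in atTop, ∀ (y1 y2 A R N : ℝ) (a : ℕ), 2 ≤ y1 → y1 ≤ y2 →
    log y2 ≤ log X / log (log X) ^ 3 → X ≤ R → 0 ≤ A → 16 ≤ N → a ≠ 0 → (a : ℝ) ≤ N →
    ∀ T : Finset ℕ, (∀ r ∈ T, A < (r : ℝ) ∧ (r : ℝ) ≤ A + R ∧ Rough y1 r ∧ Rough y2 (a * r + 1)) →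
    (T.card : ℝ) ≤ C * R * log (log N) ^ 9 / (log y1 * log y2) := by
  obtain ⟨C', hC'⟩ := Sv_rs
  obtain ⟨C, hC⟩ := Sv_main C'
  refine ⟨C, hC.mono fun X h y1 y2 A R N a h1 h2 h3 h4 h5 h6 ha haN T hT => ?_⟩
  simpa using h y1 y2 A R N {a} _ h1 h2 h3 h4 h5 h6 (by simp) (hC' N h6 a a a ha ha ha haN haN haN)
    (fun q hq hD => by simpa [hq, ha, eq_comm] using hD) T (by simpa using hT)

theorem sieve3 : ∃ C : ℝ, ∀ᶠ X : ℝ in atTop, ∀ (y1 y2 A R N : ℝ) (a b : ℕ), 2 ≤ y1 → y1 ≤ y2 →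
    log y2 ≤ log X / log (log X) ^ 3 → X ≤ R → 0 ≤ A → 16 ≤ N → a ≠ 0 → b ≠ 0 → a ≠ b →
    (a : ℝ) ≤ N → (b : ℝ) ≤ N →
    ∀ T : Finset ℕ, (∀ r ∈ T, A < (r : ℝ) ∧ (r : ℝ) ≤ A + R ∧ Rough y1 r ∧
      Rough y2 (a * r + 1) ∧ Rough y2 (b * r + 1)) →
    (T.card : ℝ) ≤ C * R * log (log N) ^ 9 / (log y1 * log y2 ^ 2) := by
  obtain ⟨C', hC'⟩ := Sv_rs
  obtain ⟨C, hC⟩ := Sv_main C'
  refine ⟨C, hC.mono fun X h y1 y2 A R N a b h1 h2 h3 h4 h5 h6 ha hb hab haN hbN T hT => ?_⟩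
  have hc : ((b : ℤ) - a).natAbs ≠ 0 := by omega
  have hcN : ((((b : ℤ) - a).natAbs : ℕ) : ℝ) ≤ N := by
    rcases le_total a b with e | e
    · exact le_trans (Nat.cast_le.2 (by omega)) hbN
    · exact le_trans (Nat.cast_le.2 (by omega)) haN
  have := h y1 y2 A R N {a, b} _ h1 h2 h3 h4 h5 h6 card_le_two
    (hC' N h6 a b _ ha hb hc haN hbN hcN) (fun q hq hD => by
      simp only [mem_union, Nat.mem_primeFactors, hq, true_and, ne_eq, ha, hb, hc, not_false_eq_true,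
        and_true, not_or] at hD
      have h7 : ¬ a ≡ b [MOD q] := fun e => hD.2 (Int.natCast_dvd.1 e.dvd)
      have h8 : ¬ b ≡ a [MOD q] := fun e => h7 e.symm
      simp [hD.1.1, hD.1.2, h7, h8]) T (by simpa using hT)
  rwa [card_pair hab] at this

theorem Sv_blocks {z K : ℝ} (hz : 0 < z) (P : ℕ → Prop)
    (h : ∀ A, z ≤ A → ∀ T : Finset ℕ, (∀ r ∈ T, A < (r : ℝ) ∧ (r : ℝ) ≤ A + A ∧ P r) →
      (T.card : ℝ) ≤ K * A) (J : ℕ) (T : Finset ℕ)
    (hT : ∀ r ∈ T, z < (r : ℝ) ∧ (r : ℝ) ≤ z * 2 ^ J ∧ P r) : ∑ r ∈ T, (1 : ℝ) / r ≤ J * K := by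
  induction J generalizing T with
  | zero =>
    rw [eq_empty_of_forall_notMem (s := T) fun r hr => by
      have := hT r hr; rw [pow_zero, mul_one] at this; linarith]
    simp
  | succ J ih =>
    rw [← sum_filter_add_sum_filter_not T fun r => (r : ℝ) ≤ z * 2 ^ J, Nat.cast_add_one, add_mul,
      one_mul]
    refine add_le_add (ih _ fun r hr => ?_) ?_
    · obtain ⟨h1, h2⟩ := mem_filter.1 hr
      exact ⟨(hT r h1).1, h2, (hT r h1).2.2⟩
    · have hA : 0 < z * 2 ^ J := by positivity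
      have h3 := h (z * 2 ^ J) (le_mul_of_one_le_right hz.le (one_le_pow₀ one_le_two))
        (T.filter fun r => ¬ (r : ℝ) ≤ z * 2 ^ J) fun r hr => by
          obtain ⟨h1, h2⟩ := mem_filter.1 hr
          exact ⟨not_le.1 h2, (hT r h1).2.1.trans (le_of_eq (by ring)), (hT r h1).2.2⟩
      refine (sum_le_card_nsmul _ _ (1 / (z * 2 ^ J)) fun r hr =>
        one_div_le_one_div_of_le hA (not_le.1 (mem_filter.1 hr).2).le).trans ?_
      rwa [nsmul_eq_mul, mul_one_div, div_le_iff₀ hA]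

theorem Sv_blocks' {z Z K : ℝ} (hz : 1 ≤ z) (hZ : 1 ≤ log Z) (P : ℕ → Prop)
    (h : ∀ A, z ≤ A → ∀ T : Finset ℕ, (∀ r ∈ T, A < (r : ℝ) ∧ (r : ℝ) ≤ A + A ∧ P r) →
      (T.card : ℝ) ≤ K * A) (T : Finset ℕ)
    (hT : ∀ r ∈ T, z < (r : ℝ) ∧ (r : ℝ) ≤ Z ∧ P r) : ∑ r ∈ T, (1 : ℝ) / r ≤ 3 * log Z * K := by
  have hK : 0 ≤ K := by
    have := h z le_rfl ∅ (by simp)
    rw [card_empty, Nat.cast_zero] at this
    exact nonneg_of_mul_nonneg_left this (by linarith)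
  have h2 := log_two_gt_d9
  refine (Sv_blocks (by linarith) P h ⌈2 * log Z⌉₊ T fun r hr => ⟨(hT r hr).1, ?_,
    (hT r hr).2.2⟩).trans (mul_le_mul_of_nonneg_right ?_ hK)
  · have hZ0 : 0 < Z := by linarith [(hT r hr).1, (hT r hr).2.1]
    refine (hT r hr).2.1.trans (le_trans ?_ (le_mul_of_one_le_left (by positivity) hz))
    rw [← log_le_log_iff hZ0 (by positivity), log_pow]
    nlinarith [Nat.le_ceil (2 * log Z)]
  · have := Nat.ceil_lt_add_one (show 0 ≤ 2 * log Z by linarith)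
    linarith

theorem Sv_y : ∀ᶠ z : ℝ in atTop, 1 ≤ z ∧ 1 ≤ log z ∧ 1 ≤ log (log z) ∧ ∃ y, 2 ≤ y ∧ y ≤ z ∧
    log y = log z / log (log z) ^ 3 := by
  filter_upwards [Sv_ev 1] with z ⟨h1, h2, _, _, h3, h4⟩
  have h5 : 1 ≤ log (log z) ^ 3 := one_le_pow₀ h2
  refine ⟨h1.le, h3, h2, exp (log z / log (log z) ^ 3), ?_, ?_, log_exp _⟩
  · have := add_one_le_exp (log z / log (log z) ^ 3)
    have : 1 ≤ log z / log (log z) ^ 3 := (one_le_div (by linarith)).2 h4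
    linarith
  · rw [← le_log_iff_exp_le (by linarith)]
    exact div_le_self (by linarith) h5

theorem Sv_rough {y z : ℝ} (hy : y ≤ z) {a r : ℕ} (ha : a ≠ 0) (hr : z < r)
    (hp : (a * r + 1).Prime) : Rough y (a * r + 1) := by
  refine rough_of_prime hp (hy.trans_lt (hr.trans_le ?_))
  exact_mod_cast (Nat.le_mul_of_pos_left r (Nat.pos_of_ne_zero ha)).trans (Nat.le_succ _)

theorem recip2 : ∃ C : ℝ, ∀ᶠ z : ℝ in atTop, ∀ (Z N : ℝ) (a : ℕ), z ≤ Z → 16 ≤ N → a ≠ 0 →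
    (a : ℝ) ≤ N → ∀ T : Finset ℕ,
    (∀ h ∈ T, z < (h : ℝ) ∧ (h : ℝ) ≤ Z ∧ Rough z h ∧ (a * h + 1).Prime) →
    ∑ h ∈ T, (1 : ℝ) / h ≤ C * log (log N) ^ 9 * log (log z) ^ 9 * log Z / log z ^ 2 := by
  obtain ⟨C, hC⟩ := sieve2
  refine ⟨3 * |C|, ?_⟩
  filter_upwards [hC, Sv_y] with z h ⟨h1, h2, h3, y, hy, hyz, hl⟩ Z N a hZ hN ha haN T hT
  have hN1 := Sv_loglog hN
  refine (Sv_blocks' (K := |C| * log (log N) ^ 9 * log (log z) ^ 9 / log z ^ 2) h1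
    (h2.trans (log_le_log (by linarith) hZ)) _ (fun A hA T hT => ?_) T hT).trans
    (le_of_eq (by ring))
  refine (h y y A A N a hy le_rfl hl.le hA (by linarith) hN ha haN T fun r hr => ?_).trans ?_
  · obtain ⟨a1, a2, a3, a4⟩ := hT r hr
    exact ⟨a1, a2, a3.mono hyz, Sv_rough hyz ha (hA.trans_lt a1) a4⟩
  · have e : C * A * log (log N) ^ 9 / (log y * log y) =
        C * log (log N) ^ 9 * log (log z) ^ 6 / log z ^ 2 * A := by
      rw [hl]; field_simp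
    rw [e]
    have : 0 ≤ A := by linarith
    gcongr
    · exact le_abs_self C
    · norm_num

theorem recip3 : ∃ C : ℝ, ∀ᶠ z : ℝ in atTop, ∀ (Z N : ℝ) (a b : ℕ), z ≤ Z → 16 ≤ N → a ≠ 0 →
    b ≠ 0 → a ≠ b → (a : ℝ) ≤ N → (b : ℝ) ≤ N → ∀ T : Finset ℕ,
    (∀ h ∈ T, z < (h : ℝ) ∧ (h : ℝ) ≤ Z ∧ Rough z h ∧ (a * h + 1).Prime ∧ (b * h + 1).Prime) →
    ∑ h ∈ T, (1 : ℝ) / h ≤ C * log (log N) ^ 9 * log (log z) ^ 9 * log Z / log z ^ 3 := by
  obtain ⟨C, hC⟩ := sieve3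
  refine ⟨3 * C, ?_⟩
  filter_upwards [hC, Sv_y] with z h ⟨h1, h2, h3, y, hy, hyz, hl⟩ Z N a b hZ hN ha hb hab haN hbN
    T hT
  refine (Sv_blocks' (K := C * log (log N) ^ 9 * log (log z) ^ 9 / log z ^ 3) h1
    (h2.trans (log_le_log (by linarith) hZ)) _ (fun A hA T hT => ?_) T hT).trans
    (le_of_eq (by ring))
  refine (h y y A A N a b hy le_rfl hl.le hA (by linarith) hN ha hb hab haN hbN T
    fun r hr => ?_).trans (le_of_eq ?_)
  · obtain ⟨a1, a2, a3, a4, a5⟩ := hT r hr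
    exact ⟨a1, a2, a3.mono hyz, Sv_rough hyz ha (hA.trans_lt a1) a4,
      Sv_rough hyz hb (hA.trans_lt a1) a5⟩
  · rw [hl]; field_simp

end Vale.Agent.P031
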