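import Vale.Agent.P031.D

namespace Vale.Agent.P031

open Finset Real Filter

theorem mer_logfact (N : ℕ) : log (N.factorial : ℝ) =
    ∑ p ∈ Nat.primesLE N, (N.factorial.factorization p : ℝ) * log p := by
  rw [Real.log_nat_eq_sum_factorization]
  refine Finsupp.sum_of_support_subset _ (fun p hp => ?_) (fun (p t : ℕ) => (t : ℝ) * log p)
    (by simp)
  rw [Nat.support_factorization, Nat.mem_primeFactors] at hp
  exact Nat.mem_primesLE.2 ⟨hp.1.dvd_factorial.1 hp.2.1, hp.1⟩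

/-- the first Mertens sum -/
noncomputable def merA (N : ℕ) : ℝ := ∑ p ∈ Nat.primesLE N, log p / p

theorem merA_le {N : ℕ} (hN : 1 ≤ N) : merA N ≤ log N + log 4 := by
  have h0 : (0 : ℝ) < N := Nat.cast_pos.2 hN
  have h1 : log (N.factorial : ℝ) ≤ N * log N := by
    rw [← Real.log_pow]
    exact Real.log_le_log (Nat.cast_pos.2 N.factorial_pos) (by exact_mod_cast N.factorial_le_pow)
  have h2 : ∑ p ∈ Nat.primesLE N, (N * (log p / p) - log p) ≤ log (N.factorial : ℝ) := by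
    rw [mer_logfact]
    refine sum_le_sum fun p hp => ?_
    have pp := Nat.prime_of_mem_primesLE hp
    have e1 : N / p ≤ N.factorial.factorization p := by
      rw [Nat.factorization_factorial pp (b := Nat.log p N + 2) (by omega)]
      have := single_le_sum (f := fun i => N / p ^ i) (s := Ico 1 (Nat.log p N + 2))
        (fun _ _ => Nat.zero_le _) (a := 1) (by simp)
      simpa using this
    have e2 : (N : ℝ) / p < ((N / p : ℕ) : ℝ) + 1 := by
      rw [← Nat.floor_div_eq_div (K := ℝ)]; exact Nat.lt_floor_add_one _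
    have e3 : ((N / p : ℕ) : ℝ) ≤ N.factorial.factorization p := by exact_mod_cast e1
    have e4 := mul_le_mul_of_nonneg_right (show (N : ℝ) / p - 1 ≤ N.factorial.factorization p by
      linarith) (Real.log_natCast_nonneg p)
    calc _ = ((N : ℝ) / p - 1) * log p := by ring
      _ ≤ _ := e4
  rw [sum_sub_distrib, ← mul_sum, ← Chebyshev.theta_eq_sum_primesLE_log] at h2
  have h3 := Chebyshev.theta_le_log4_mul_x h0.le
  refine le_of_mul_le_mul_left ?_ h0
  unfold merA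
  linarith

theorem merA_ge : ∃ C : ℝ, ∀ N : ℕ, 1 ≤ N → log N - C ≤ merA N := by
  have hs : Summable fun n : ℕ => (n : ℝ) ^ (-(3 / 2) : ℝ) := Real.summable_nat_rpow.2 (by norm_num)
  refine ⟨1 + 4 * ∑' n : ℕ, (n : ℝ) ^ (-(3 / 2) : ℝ), fun N hN => ?_⟩
  have h0 : (0 : ℝ) < N := Nat.cast_pos.2 hN
  have h1 : N * log N - N ≤ log (N.factorial : ℝ) := by
    have := Real.log_le_log (by positivity) (Real.pow_div_factorial_le_exp (x := N) h0.le N)
    rw [Real.log_exp, Real.log_div (by positivity) (by positivity), Real.log_pow] at this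
    linarith
  have h2 : log (N.factorial : ℝ) ≤
      ∑ p ∈ Nat.primesLE N, N * (log p / p + 4 * (p : ℝ) ^ (-(3 / 2) : ℝ)) := by
    rw [mer_logfact]
    refine sum_le_sum fun p hp => ?_
    have pp := Nat.prime_of_mem_primesLE hp
    have p2 : (2 : ℝ) ≤ p := by exact_mod_cast pp.two_le
    have p0 : (0 : ℝ) < p := by linarith
    have e1 : (N.factorial.factorization p : ℝ) ≤ N / (p - 1) := by
      refine (Nat.cast_le.2 (Nat.factorization_factorial_le_div_pred pp N)).trans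
        (Nat.cast_div_le.trans (le_of_eq ?_))
      rw [Nat.cast_sub pp.one_le, Nat.cast_one]
    have e2 : 1 / ((p : ℝ) - 1) ≤ 1 / p + 2 / p ^ 2 := by
      rw [div_add_div _ _ p0.ne' (by positivity), div_le_div_iff₀ (by linarith) (by positivity)]
      nlinarith [mul_nonneg (mul_nonneg p0.le p0.le) (sub_nonneg.2 p2), sq_nonneg (p : ℝ)]
    have e3 : log p ≤ (p : ℝ) ^ (1 / 2 : ℝ) / (1 / 2) := Real.log_le_rpow_div p0.le (by norm_num)
    have e4 : (p : ℝ) ^ (-(3 / 2) : ℝ) = (p : ℝ) ^ (1 / 2 : ℝ) / p ^ 2 := by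
      rw [← Real.rpow_natCast, ← Real.rpow_sub p0]; norm_num
    have l0 := Real.log_natCast_nonneg p
    have e5 : 2 / (p : ℝ) ^ 2 * log p ≤ 4 * (p : ℝ) ^ (-(3 / 2) : ℝ) := by
      rw [e4]
      calc _ ≤ 2 / (p : ℝ) ^ 2 * ((p : ℝ) ^ (1 / 2 : ℝ) / (1 / 2)) :=
            mul_le_mul_of_nonneg_left e3 (by positivity)
        _ = _ := by ring
    calc _ ≤ N / ((p : ℝ) - 1) * log p := mul_le_mul_of_nonneg_right e1 l0
      _ = N * (1 / ((p : ℝ) - 1) * log p) := by ring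
      _ ≤ N * ((1 / p + 2 / p ^ 2) * log p) :=
          mul_le_mul_of_nonneg_left (mul_le_mul_of_nonneg_right e2 l0) h0.le
      _ ≤ _ := mul_le_mul_of_nonneg_left (by rw [add_mul, one_div_mul_eq_div]; linarith) h0.le
  rw [← mul_sum, sum_add_distrib, ← mul_sum] at h2
  have h3 := hs.sum_le_tsum (Nat.primesLE N) fun n _ => Real.rpow_nonneg (Nat.cast_nonneg n) _
  have h4 := mul_le_mul_of_nonneg_left h3 h0.le
  refine le_of_mul_le_mul_left ?_ h0
  unfold merA
  linarith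

theorem mer_step {n : ℕ} (hn : 2 ≤ n) :
    rs (Nat.primesLE (n + 1)) - merA (n + 1) / log ((n + 1 : ℕ) : ℝ) =
      rs (Nat.primesLE n) - merA n / log n + merA n * (1 / log n - 1 / log ((n + 1 : ℕ) : ℝ)) := by
  have h1 : log ((n + 1 : ℕ) : ℝ) ≠ 0 := (Real.log_pos (by exact_mod_cast (by omega))).ne'
  unfold rs merA
  rw [Nat.primesLE_succ]
  split_ifs
  · rw [sum_insert (Nat.notMem_primesLE n), sum_insert (Nat.notMem_primesLE n)]
    have : log ((n + 1 : ℕ) : ℝ) / ((n + 1 : ℕ) : ℝ) / log ((n + 1 : ℕ) : ℝ) =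
        1 / ((n + 1 : ℕ) : ℝ) := by field_simp
    rw [add_div, this]; ring
  · ring

theorem mer_nat : ∃ C : ℝ, ∀ N : ℕ, 2 ≤ N → |rs (Nat.primesLE N) - log (log N)| ≤ C := by
  obtain ⟨C0, hC0⟩ := merA_ge
  obtain ⟨C, C0le, hC⟩ : ∃ C : ℝ, 0 ≤ C ∧ ∀ N : ℕ, 1 ≤ N → log N - C ≤ merA N ∧ merA N ≤ log N + C :=
    ⟨max C0 (log 4), le_max_of_le_right (Real.log_nonneg (by norm_num)), fun N hN =>
      ⟨by linarith [hC0 N hN, le_max_left C0 (log 4)],
        by linarith [merA_le hN, le_max_right C0 (log 4)]⟩⟩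
  obtain ⟨D, hD⟩ : ∃ D : ℕ → ℝ, ∀ n, D n = rs (Nat.primesLE n) - merA n / log n - log (log n) :=
    ⟨_, fun _ => rfl⟩
  have lp : ∀ n : ℕ, 2 ≤ n → 1 / 2 < log n := fun n hn => by
    have := Real.log_le_log two_pos (show (2 : ℝ) ≤ n by exact_mod_cast hn)
    linarith [Real.log_two_gt_d9]
  have key : ∀ N : ℕ, 2 ≤ N → D N + C / log N ≤ D 2 + C / log (2 : ℕ) ∧
      D 2 - (C + 1) / log (2 : ℕ) ≤ D N - (C + 1) / log N := by
    intro N hN
    induction N, hN using Nat.le_induction with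
    | base => exact ⟨le_rfl, le_rfl⟩
    | succ n hn ih =>
      have s := mer_step hn
      have a0 : 0 < log (n : ℝ) := by linarith [lp n hn]
      have n0 : (0 : ℝ) < n := Nat.cast_pos.2 (by omega)
      have ab : log (n : ℝ) ≤ log ((n + 1 : ℕ) : ℝ) := Real.log_le_log n0 (by push_cast; linarith)
      have ba : log ((n + 1 : ℕ) : ℝ) ≤ log (n : ℝ) + 1 := by
        have e1 := Real.log_le_sub_one_of_pos (show 0 < ((n + 1 : ℕ) : ℝ) / n by positivity)
        rw [Real.log_div (by positivity) n0.ne'] at e1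
        have e2 : ((n + 1 : ℕ) : ℝ) / n ≤ 2 := by
          rw [div_le_iff₀ n0]; push_cast
          have : (1 : ℝ) ≤ n := by exact_mod_cast (by omega)
          linarith
        linarith
      obtain ⟨c1, c2⟩ := hC n (by omega)
      rw [hD (n + 1), s]
      rw [hD n] at ih
      generalize log ((n + 1 : ℕ) : ℝ) = b at *
      generalize log (n : ℝ) = a at *
      have b0 : 0 < b := by linarith
      have w0 : 0 ≤ 1 / a - 1 / b := sub_nonneg.2 (one_div_le_one_div_of_le a0 ab)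
      have u1 := mul_le_mul_of_nonneg_right c2 w0
      have u2 := mul_le_mul_of_nonneg_right (show b - (C + 1) ≤ merA n by linarith) w0
      have v1 := Real.log_le_sub_one_of_pos (div_pos a0 b0)
      have v2 := Real.log_le_sub_one_of_pos (div_pos b0 a0)
      rw [Real.log_div a0.ne' b0.ne'] at v1
      rw [Real.log_div b0.ne' a0.ne'] at v2
      have x1 : (a + C) * (1 / a - 1 / b) = 1 - a / b + C / a - C / b := by field_simp; ring
      have x2 : (b - (C + 1)) * (1 / a - 1 / b) = b / a - 1 - (C + 1) / a + (C + 1) / b := by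
        field_simp; ring
      exact ⟨by linarith [ih.1], by linarith [ih.2]⟩
  refine ⟨|D 2| + (C + 1) / log (2 : ℕ) + 1 + 2 * C, fun N hN => ?_⟩
  obtain ⟨k1, k2⟩ := key N hN
  obtain ⟨c1, c2⟩ := hC N (by omega)
  have l0 := lp N hN
  have l1 : 0 < log N := by linarith
  have l2 : 0 < log ((2 : ℕ) : ℝ) := lt_trans (by norm_num) (lp 2 le_rfl)
  have y1 : merA N / log N ≤ 1 + 2 * C := by
    rw [div_le_iff₀ l1]; nlinarith
  have y2 : -(1 + 2 * C) ≤ merA N / log N := by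
    rw [le_div_iff₀ l1]; nlinarith
  have z1 : 0 ≤ C / log N := by positivity
  have z2 : 0 ≤ (C + 1) / log N := by positivity
  have z3 : C / log ((2 : ℕ) : ℝ) ≤ (C + 1) / log ((2 : ℕ) : ℝ) := by gcongr; linarith
  rw [hD N] at k1 k2
  exact abs_le.2 ⟨by linarith [neg_abs_le (D 2)], by linarith [le_abs_self (D 2)]⟩

theorem mertens : ∃ C : ℝ, ∀ y : ℝ, 2 ≤ y → |rs (PP y) - log (log y)| ≤ C := by
  obtain ⟨C, hC⟩ := mer_nat
  refine ⟨C + 1, fun y hy => ?_⟩
  have hN : 2 ≤ ⌊y⌋₊ := Nat.le_floor (by exact_mod_cast hy)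
  have h := abs_le.1 (hC _ hN)
  have n2 : (2 : ℝ) ≤ ⌊y⌋₊ := by exact_mod_cast hN
  have l0 : 0 < log (⌊y⌋₊ : ℝ) := Real.log_pos (by linarith)
  have a1 : log (⌊y⌋₊ : ℝ) ≤ log y := Real.log_le_log (by linarith) (Nat.floor_le (by linarith))
  have a2 : log y ≤ 2 * log (⌊y⌋₊ : ℝ) := by
    have := Real.log_le_log (by linarith) (show y ≤ (⌊y⌋₊ : ℝ) ^ 2 by
      nlinarith [Nat.lt_floor_add_one y])
    rwa [Real.log_pow] at this
  have b1 := Real.log_le_log l0 a1
  have b2 := Real.log_le_log (by linarith) a2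
  rw [Real.log_mul two_ne_zero l0.ne'] at b2
  unfold PP
  exact abs_le.2 ⟨by linarith [Real.log_two_lt_d9, h.1], by linarith [h.2]⟩

theorem sum_inv_sq_le (S : Finset ℕ) (hS : ∀ q ∈ S, q.Prime) : ∑ q ∈ S, 1 / (q : ℝ) ^ 2 ≤ 1 := by
  have h1 : S ⊆ Ioc 1 (S.sup id + 1) := fun q hq =>
    mem_Ioc.2 ⟨(hS q hq).one_lt, (le_sup (f := id) hq).trans (Nat.le_succ _)⟩
  have h2 := sum_Ioc_inv_sq_le_sub (α := ℝ) (k := 1) (n := S.sup id + 1) one_ne_zero (by omega)
  have h3 : (0 : ℝ) ≤ ((S.sup id + 1 : ℕ) : ℝ)⁻¹ := by positivity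
  simp only [one_div]
  refine (sum_le_sum_of_subset_of_nonneg h1 fun _ _ _ => by positivity).trans ?_
  rw [Nat.cast_one, inv_one] at h2
  linarith

theorem mer_two_pow_le {n : ℕ} (hn : n ≠ 0) : 2 ^ om n ≤ n :=
  (pow_card_le_prod _ id 2 fun _ hp => (Nat.prime_of_mem_primeFactors hp).two_le).trans
    (Nat.le_of_dvd (Nat.pos_of_ne_zero hn) (Nat.prod_primeFactors_dvd n))

theorem rs_primeFactors : ∃ C : ℝ, ∀ N : ℝ, 16 ≤ N → ∀ n : ℕ, n ≠ 0 → (n : ℝ) ≤ N →
    rs n.primeFactors ≤ log (log (log N)) + C := by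
  obtain ⟨C, hC⟩ := mertens
  refine ⟨C + 2, fun N hN n hn hnN => ?_⟩
  have l2 : 2 ≤ log N := by
    have := Real.log_le_log (by norm_num) hN
    rw [show (16 : ℝ) = 2 ^ 4 by norm_num, Real.log_pow] at this
    push_cast at this
    linarith [Real.log_two_gt_d9]
  have h1 := (abs_le.1 (hC _ l2)).2
  have h2 : (om n : ℝ) ≤ 2 * log N := by
    have e1 : (2 : ℝ) ^ om n ≤ N := le_trans (by exact_mod_cast mer_two_pow_le hn) hnN
    have e2 := Real.log_le_log (by positivity) e1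
    rw [Real.log_pow] at e2
    nlinarith [Real.log_two_gt_d9, Nat.cast_nonneg (α := ℝ) (om n)]
  unfold rs at *
  rw [← sum_filter_add_sum_filter_not n.primeFactors fun q : ℕ => (q : ℝ) ≤ log N]
  have h3 : ∑ q ∈ n.primeFactors.filter (fun q : ℕ => (q : ℝ) ≤ log N), (1 : ℝ) / q ≤
      ∑ q ∈ PP (log N), (1 : ℝ) / q :=
    sum_le_sum_of_subset_of_nonneg (fun q hq => mem_PP.2
      ⟨Nat.prime_of_mem_primeFactors (mem_filter.1 hq).1, (mem_filter.1 hq).2⟩)
      fun _ _ _ => by positivity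
  have h4 : ∑ q ∈ n.primeFactors.filter (fun q : ℕ => ¬(q : ℝ) ≤ log N), (1 : ℝ) / q ≤ 2 := by
    refine (sum_le_card_nsmul _ _ (1 / log N) fun q hq => one_div_le_one_div_of_le (by linarith)
      (not_le.1 (mem_filter.1 hq).2).le).trans ?_
    have : ((n.primeFactors.filter (fun q : ℕ => ¬(q : ℝ) ≤ log N)).card : ℝ) ≤ om n := by
      exact_mod_cast card_filter_le _ _
    rw [nsmul_eq_mul, mul_one_div, div_le_iff₀ (by linarith)]
    linarith
  linarith

theorem mer_exp_le {u : ℝ} (h0 : 0 ≤ u) (h1 : u ≤ 1 / 2) : exp (-(u + 2 * u ^ 2)) ≤ 1 - u := by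
  have e1 := Real.add_one_le_exp (u + 2 * u ^ 2)
  rw [Real.exp_neg, inv_le_iff_one_le_mul₀ (Real.exp_pos _)]
  have e2 := mul_le_mul_of_nonneg_left e1 (show 0 ≤ 1 - u by linarith)
  nlinarith [mul_nonneg (sq_nonneg u) (show 0 ≤ 1 - 2 * u by linarith)]

theorem mer_three_le {y : ℝ} {q : ℕ} (hq : q ∈ (PP y).erase 2) : (3 : ℝ) ≤ q := by
  have h1 := mem_erase.1 hq
  have := (mem_PP.1 h1.2).1.two_le
  exact_mod_cast (by omega : 3 ≤ q)

theorem mer_lower (S : Finset ℕ) (hS : ∀ q ∈ S, q.Prime) (u : ℕ → ℝ)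
    (hu : ∀ q ∈ S, 0 ≤ u q ∧ u q ≤ 1 / 2 ∧ u q ≤ 1 / q + 2 * (1 / (q : ℝ) ^ 2)) :
    exp (-(rs S + 10)) ≤ ∏ q ∈ S, (1 - u q) := by
  have h1 := sum_inv_sq_le S hS
  calc _ ≤ exp (∑ q ∈ S, -(1 / (q : ℝ) + 10 * (1 / (q : ℝ) ^ 2))) := by
        rw [sum_neg_distrib, sum_add_distrib, ← mul_sum]
        exact Real.exp_le_exp.2 (by unfold rs; linarith)
    _ ≤ _ := by
        rw [Real.exp_sum]
        refine prod_le_prod (fun _ _ => (Real.exp_pos _).le) fun q hq => ?_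
        obtain ⟨a0, a1, a2⟩ := hu q hq
        refine le_trans (Real.exp_le_exp.2 ?_) (mer_exp_le a0 a1)
        have q2 : (2 : ℝ) ≤ q := by exact_mod_cast (hS q hq).two_le
        have e1 : 1 / (q : ℝ) ≤ 1 / 2 := one_div_le_one_div_of_le two_pos q2
        have e0 : 0 < 1 / (q : ℝ) := by positivity
        rw [← one_div_pow] at a2 ⊢
        generalize 1 / (q : ℝ) = w at *
        have e2 : u q ≤ 2 * w := by nlinarith
        have e3 := pow_le_pow_left₀ a0 e2 2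
        linarith

theorem mer_upper (S : Finset ℕ) (u : ℕ → ℝ) (hu : ∀ q ∈ S, u q ≤ 1 ∧ 1 / (q : ℝ) ≤ u q) :
    ∏ q ∈ S, (1 - u q) ≤ exp (-rs S) := by
  rw [rs, ← sum_neg_distrib, Real.exp_sum]
  refine prod_le_prod (fun q hq => sub_nonneg.2 (hu q hq).1) fun q hq => ?_
  linarith [Real.add_one_le_exp (-(1 / (q : ℝ))), (hu q hq).2]

theorem mer_exp_loglog {y : ℝ} (hy : 2 ≤ y) (c : ℝ) : exp (-(log (log y)) + c) = exp c / log y := by
  rw [Real.exp_add, Real.exp_neg, Real.exp_log (Real.log_pos (by linarith))]; ring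

theorem mer_rs_erase {y : ℝ} (hy : 2 ≤ y) : rs ((PP y).erase 2) = rs (PP y) - 1 / 2 := by
  have := add_sum_erase (PP y) (fun q : ℕ => (1 : ℝ) / q) (a := 2)
    (mem_PP.2 ⟨Nat.prime_two, by exact_mod_cast hy⟩)
  unfold rs
  push_cast at this
  linarith

theorem Py_ge : ∃ c : ℝ, 0 < c ∧ ∀ y : ℝ, 2 ≤ y → c / log y ≤ Py y := by
  obtain ⟨C, hC⟩ := mertens
  refine ⟨exp (-(C + 10)), Real.exp_pos _, fun y hy => ?_⟩
  rw [← mer_exp_loglog hy]
  refine le_trans (Real.exp_le_exp.2 ?_) (mer_lower _ (fun q hq => (mem_PP.1 (mem_of_mem_erase hq)).1)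
    (fun q => 1 / ((q : ℝ) - 1)) fun q hq => ?_)
  · rw [mer_rs_erase hy]; linarith [(abs_le.1 (hC y hy)).2]
  · have q3 := mer_three_le hq
    have p0 : (0 : ℝ) < q := by linarith
    refine ⟨one_div_nonneg.2 (by linarith), one_div_le_one_div_of_le two_pos (by linarith), ?_⟩
    rw [mul_one_div, div_add_div _ _ p0.ne' (by positivity),
      div_le_div_iff₀ (by linarith) (by positivity)]
    nlinarith [mul_nonneg (mul_nonneg p0.le p0.le) (sub_nonneg.2 q3), sq_nonneg (q : ℝ)]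

theorem Py_le : ∃ C : ℝ, ∀ y : ℝ, 2 ≤ y → Py y ≤ C / log y := by
  obtain ⟨C, hC⟩ := mertens
  refine ⟨exp (C + 1 / 2), fun y hy => ?_⟩
  rw [← mer_exp_loglog hy]
  refine (mer_upper _ (fun q => 1 / ((q : ℝ) - 1)) fun q hq => ?_).trans (Real.exp_le_exp.2 ?_)
  · have q3 := mer_three_le hq
    exact ⟨(div_le_one (by linarith)).2 (by linarith),
      one_div_le_one_div_of_le (by linarith) (by linarith)⟩
  · rw [mer_rs_erase hy]; linarith [(abs_le.1 (hC y hy)).1]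

theorem prod_ge : ∃ c : ℝ, 0 < c ∧ ∀ y : ℝ, 2 ≤ y → c / log y ≤ ∏ q ∈ PP y, (1 - 1 / (q : ℝ)) := by
  obtain ⟨C, hC⟩ := mertens
  refine ⟨exp (-(C + 10)), Real.exp_pos _, fun y hy => ?_⟩
  rw [← mer_exp_loglog hy]
  refine le_trans (Real.exp_le_exp.2 ?_) (mer_lower _ (fun q hq => (mem_PP.1 hq).1)
    (fun q => 1 / (q : ℝ)) fun q hq => ?_)
  · linarith [(abs_le.1 (hC y hy)).2]
  · have q2 : (2 : ℝ) ≤ q := by exact_mod_cast (mem_PP.1 hq).1.two_le
    exact ⟨by positivity, one_div_le_one_div_of_le two_pos q2,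
      le_add_of_nonneg_right (by positivity)⟩

theorem prod_le : ∃ C : ℝ, ∀ y : ℝ, 2 ≤ y → ∏ q ∈ PP y, (1 - 1 / (q : ℝ)) ≤ C / log y := by
  obtain ⟨C, hC⟩ := mertens
  refine ⟨exp C, fun y hy => ?_⟩
  rw [← mer_exp_loglog hy]
  refine (mer_upper _ (fun q => 1 / (q : ℝ)) fun q hq => ?_).trans (Real.exp_le_exp.2 ?_)
  · have q2 : (2 : ℝ) ≤ q := by exact_mod_cast (mem_PP.1 hq).1.two_le
    exact ⟨(div_le_one (by linarith)).2 (by linarith), le_rfl⟩
  · linarith [(abs_le.1 (hC y hy)).1]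

theorem mer_fac {y : ℝ} {q : ℕ} (hq : q ∈ (PP y).erase 2) :
    0 ≤ 1 - 1 / ((q : ℝ) - 1) ∧ 1 - 1 / ((q : ℝ) - 1) ≤ 1 := by
  have q3 := mer_three_le hq
  exact ⟨sub_nonneg.2 ((div_le_one (by linarith)).2 (by linarith)),
    sub_le_self _ (one_div_nonneg.2 (by linarith))⟩

theorem nu_ge (y : ℝ) {d : ℕ} (hd : d ≠ 0) : Py y / (2 * d) ≤ nu y d := by
  rw [nu, Py, div_eq_mul_one_div, mul_comm]
  exact mul_le_mul_of_nonneg_left (prod_le_prod_of_subset_of_le_one (filter_subset _ _)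
    (fun q hq => (mer_fac hq).1) fun q hq _ => (mer_fac hq).2) (by positivity)

theorem nu_le (y : ℝ) {d : ℕ} (hd : d ≠ 0) :
    nu y d ≤ Py y / (2 * d) * exp (3 * rs d.primeFactors) := by
  rw [nu, div_eq_mul_one_div (Py y), mul_comm (Py y), mul_assoc, Py]
  refine mul_le_mul_of_nonneg_left ?_ (by positivity)
  rw [← prod_filter_not_mul_prod_filter ((PP y).erase 2) fun q => q ∣ d, mul_assoc]
  refine le_mul_of_one_le_right (prod_nonneg fun q hq => (mer_fac (mem_filter.1 hq).1).1) ?_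
  have h1 : ∏ q ∈ ((PP y).erase 2).filter (fun q => q ∣ d), exp (3 * (1 / (q : ℝ))) ≤
      exp (3 * rs d.primeFactors) := by
    rw [← Real.exp_sum, ← mul_sum]
    refine Real.exp_le_exp.2 (mul_le_mul_of_nonneg_left (sum_le_sum_of_subset_of_nonneg
      (fun q hq => ?_) fun _ _ _ => by positivity) (by norm_num))
    exact Nat.mem_primeFactors.2 ⟨(mem_PP.1 (mem_of_mem_erase (mem_filter.1 hq).1)).1,
      (mem_filter.1 hq).2, hd⟩
  refine le_trans ?_ (mul_le_mul_of_nonneg_left h1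
    (prod_nonneg fun q hq => (mer_fac (mem_filter.1 hq).1).1))
  rw [← prod_mul_distrib]
  refine one_le_prod fun q hq => ?_
  have q3 := mer_three_le (mem_filter.1 hq).1
  refine le_trans ?_ (mul_le_mul_of_nonneg_left (Real.add_one_le_exp _)
    (mer_fac (mem_filter.1 hq).1).1)
  have p0 : (0 : ℝ) < q := by linarith
  have p1 : (0 : ℝ) < q - 1 := by linarith
  rw [← sub_nonneg]
  have : (1 - 1 / ((q : ℝ) - 1)) * (3 * (1 / (q : ℝ)) + 1) - 1 = 2 * (q - 3) / (q * (q - 1)) := by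
    field_simp; ring
  rw [this]
  exact div_nonneg (by linarith) (by positivity)

theorem nu_le_inv (y : ℝ) (d : ℕ) : nu y d ≤ 1 / (2 * d) := by
  exact mul_le_of_le_one_right (by positivity) (prod_le_one
    (fun q hq => (mer_fac (mem_filter.1 hq).1).1) fun q hq => (mer_fac (mem_filter.1 hq).1).2)

/-- divisor-type bound -/
theorem two_pow_om_le {η : ℝ} (hη : 0 < η) :
    ∃ C : ℝ, ∀ n : ℕ, n ≠ 0 → (2 : ℝ) ^ om n ≤ C * (n : ℝ) ^ η := by
  obtain ⟨K, hK⟩ : ∃ K : ℕ, (2 : ℝ) ^ η⁻¹ ≤ K := exists_nat_ge _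
  refine ⟨2 ^ K, fun n hn => ?_⟩
  have h1 : (2 : ℝ) ^ om n ≤
      ∏ p ∈ n.primeFactors, ((if p < K then (2 : ℝ) else 1) * (p : ℝ) ^ η) := by
    rw [om, ← prod_const]
    refine prod_le_prod (fun _ _ => zero_le_two) fun p hp => ?_
    have p1 : (1 : ℝ) ≤ p := by exact_mod_cast (Nat.prime_of_mem_primeFactors hp).one_le
    split_ifs with h
    · linarith [Real.one_le_rpow p1 hη.le]
    · have := Real.rpow_le_rpow (by positivity) (hK.trans (Nat.cast_le.2 (not_lt.1 h))) hη.le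
      rwa [Real.rpow_inv_rpow zero_le_two hη.ne', ← one_mul ((p : ℝ) ^ η)] at this
  refine h1.trans ?_
  rw [prod_mul_distrib, Real.finset_prod_rpow _ _ (fun _ _ => Nat.cast_nonneg _)]
  refine mul_le_mul ?_ (Real.rpow_le_rpow (by positivity) ?_ hη.le) (by positivity) (by positivity)
  · rw [prod_ite, prod_const_one, mul_one, prod_const]
    refine pow_le_pow_right₀ one_le_two ?_
    exact (card_le_card fun p hp => mem_range.2 (mem_filter.1 hp).2).trans (card_range K).le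
  · rw [← Nat.cast_prod]
    exact Nat.cast_le.2 (Nat.le_of_dvd (Nat.pos_of_ne_zero hn) (Nat.prod_primeFactors_dvd n))

end Vale.Agent.P031
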