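import Vale.Agent.P031.EulA

namespace Vale.Agent.P031

open Finset Real Filter

/-- truncated inclusion-exclusion sum -/
noncomputable def FLtr (S : Finset ℕ) (u : ℕ → ℝ) (m : ℕ) : ℝ :=
  ∑ U ∈ S.powerset, if U.card ≤ m then (-1) ^ U.card * ∏ q ∈ U, u q else 0

theorem FLtr_zero (S : Finset ℕ) (u : ℕ → ℝ) : FLtr S u 0 = 1 := by
  rw [FLtr, sum_eq_single ∅ (fun U _ hU => by simp [hU]) (by simp)]
  simp

theorem FLtr_empty (u : ℕ → ℝ) (m : ℕ) : FLtr ∅ u m = 1 := by simp [FLtr]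

theorem FLtr_insert {S : Finset ℕ} {a : ℕ} (ha : a ∉ S) (u : ℕ → ℝ) (m : ℕ) :
    FLtr (insert a S) u (m + 1) = FLtr S u (m + 1) - u a * FLtr S u m := by
  rw [FLtr, sum_powerset_insert ha, FLtr, FLtr, mul_sum, sub_eq_add_neg, ← sum_neg_distrib]
  congr 1
  refine sum_congr rfl fun U hU => ?_
  have h : a ∉ U := fun h => ha (mem_powerset.1 hU h)
  rw [card_insert_of_notMem h, prod_insert h]
  by_cases h2 : U.card ≤ m
  · rw [if_pos h2, if_pos (by omega)]; ring
  · rw [if_neg h2, if_neg (by omega)]; ring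

theorem FLtr_succ (S : Finset ℕ) (u : ℕ → ℝ) (m : ℕ) : FLtr S u (m + 1) =
    FLtr S u m + (-1) ^ (m + 1) * ∑ U ∈ powersetCard (m + 1) S, ∏ q ∈ U, u q := by
  rw [powersetCard_eq_filter, sum_filter, mul_sum, FLtr, FLtr, ← sum_add_distrib]
  refine sum_congr rfl fun U _ => ?_
  rcases lt_trichotomy U.card (m + 1) with h | h | h
  · rw [if_pos h.le, if_pos (by omega), if_neg h.ne]; ring
  · rw [if_pos h.le, if_neg (by omega), if_pos h, h]; ring
  · rw [if_neg (by omega), if_neg (by omega), if_neg h.ne']; ring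

theorem FL_bonf (S : Finset ℕ) (u : ℕ → ℝ) (hu : ∀ q ∈ S, 0 ≤ u q ∧ u q ≤ 1) (m : ℕ) :
    0 ≤ (-1) ^ m * (FLtr S u m - ∏ q ∈ S, (1 - u q)) := by
  induction S using Finset.induction_on generalizing m with
  | empty => simp [FLtr_empty]
  | insert a S ha ih =>
    have ih' := ih fun q hq => hu q (mem_insert_of_mem hq)
    cases m with
    | zero =>
      rw [FLtr_zero, pow_zero, one_mul, sub_nonneg]
      exact prod_le_one (fun q hq => sub_nonneg.2 (hu q hq).2)
        fun q hq => sub_le_self _ (hu q hq).1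
    | succ m =>
      have h1 := ih' (m + 1)
      have h2 := mul_nonneg (hu a (mem_insert_self a S)).1 (ih' m)
      rw [FLtr_insert ha, prod_insert ha]
      rw [pow_succ] at h1 ⊢
      nlinarith

theorem FL_err (S : Finset ℕ) (m : ℕ) : FLtr S (fun _ => -3) m ≤ (1 + 3 * S.card) ^ m := by
  induction S using Finset.induction_on generalizing m with
  | empty => simp [FLtr_empty]
  | insert a S ha ih =>
    cases m with
    | zero => simp [FLtr_zero]
    | succ m =>
      have h1 := ih (m + 1)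
      have h2 := ih m
      have h3 : (1 + 3 * (S.card : ℝ)) ^ m ≤ (1 + 3 * (S.card + 1)) ^ m :=
        pow_le_pow_left₀ (by positivity) (by linarith) m
      have h4 := mul_le_mul_of_nonneg_right h3 (show (0 : ℝ) ≤ 1 + 3 * (S.card + 1) by positivity)
      rw [FLtr_insert ha, card_insert_of_notMem ha, Nat.cast_add_one]
      rw [pow_succ] at h1 ⊢
      nlinarith

theorem FL_count {A R : ℝ} (hA : 0 ≤ A) (hR : 0 ≤ R) {m : ℕ} (hm : 0 < m) (c : ℕ) :
    |(((Ioc ⌊A⌋₊ ⌊A + R⌋₊).filter fun r => r ≡ c [MOD m]).card : ℝ) - R / m| ≤ 1 := by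
  have key : ∀ x : ℝ, 0 ≤ x → ⌊((⌊x⌋₊ : ℚ) - c) / (m : ℚ)⌋ = ⌊(x - c) / m⌋ := fun x hx => by
    rw [Int.floor_div_natCast, Int.floor_div_natCast, Int.floor_sub_natCast,
      Int.floor_sub_natCast, Int.floor_natCast, Int.natCast_floor_eq_floor hx]
  have h := Nat.Ioc_filter_modEq_card ⌊A⌋₊ ⌊A + R⌋₊ hm c
  rw [key A hA, key (A + R) (by linarith)] at h
  have e : (A + R - c) / m = (A - c) / m + R / m := by ring
  have h0 : 0 ≤ R / m := by positivity
  rw [e, max_eq_left (sub_nonneg.2 (Int.floor_le_floor (by linarith)))] at h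
  have h' := congrArg (Int.cast : ℤ → ℝ) h
  push_cast at h'
  rw [h', abs_le]
  have := Int.floor_le ((A - c) / m + R / m)
  have := Int.lt_floor_add_one ((A - c) / m + R / m)
  have := Int.floor_le ((A - c) / m)
  have := Int.lt_floor_add_one ((A - c) / m)
  constructor <;> linarith

theorem FL_crt {A R : ℝ} (hA : 0 ≤ A) (hR : 0 ≤ R) (B : ℕ → Finset ℕ) (U : Finset ℕ)
    (hU : ∀ q ∈ U, q.Prime) (hB : ∀ q ∈ U, B q ⊆ range q ∧ (B q).card ≤ 3) {m : ℕ} (hm : 0 < m)
    (hc : ∀ q ∈ U, m.Coprime q) (c : ℕ) :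
    |∑ r ∈ (Ioc ⌊A⌋₊ ⌊A + R⌋₊).filter (fun r => r ≡ c [MOD m]),
      ∏ q ∈ U, (if r % q ∈ B q then (1 : ℝ) else 0) - R / m * ∏ q ∈ U, ((B q).card : ℝ) / q| ≤
      3 ^ U.card := by
  induction U using Finset.induction_on generalizing m c with
  | empty => simpa using FL_count hA hR hm c
  | insert a U ha ih =>
    have hp := hU a (mem_insert_self a U)
    have hco := hc a (mem_insert_self a U)
    have hBa := hB a (mem_insert_self a U)
    have ih' := fun c => ih (fun q hq => hU q (mem_insert_of_mem hq))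
      (fun q hq => hB q (mem_insert_of_mem hq)) (Nat.mul_pos hm hp.pos)
      (fun q hq => Nat.Coprime.mul_left (hc q (mem_insert_of_mem hq))
        ((Nat.coprime_primes hp (hU q (mem_insert_of_mem hq))).2 fun e => ha (e ▸ hq))) c
    have e1 : ∑ r ∈ (Ioc ⌊A⌋₊ ⌊A + R⌋₊).filter (fun r => r ≡ c [MOD m]),
        ∏ q ∈ insert a U, (if r % q ∈ B q then (1 : ℝ) else 0) =
        ∑ b ∈ B a, ∑ r ∈ (Ioc ⌊A⌋₊ ⌊A + R⌋₊).filter
          (fun r => r ≡ (Nat.chineseRemainder hco c b : ℕ) [MOD m * a]),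
          ∏ q ∈ U, (if r % q ∈ B q then (1 : ℝ) else 0) := by
      simp only [sum_filter]
      rw [sum_comm]
      refine sum_congr rfl fun r _ => ?_
      have e2 : ∀ b ∈ B a, (r ≡ (Nat.chineseRemainder hco c b : ℕ) [MOD m * a] ↔
          r ≡ c [MOD m] ∧ r % a = b) := fun b hb => by
        obtain ⟨h1, h2⟩ := (Nat.chineseRemainder hco c b).2
        have hb' := Nat.mod_eq_of_lt (mem_range.1 (hBa.1 hb))
        rw [← Nat.modEq_and_modEq_iff_modEq_mul hco]
        refine and_congr ⟨fun h => h.trans h1, fun h => h.trans h1.symm⟩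
          ⟨fun h => ?_, fun h => ?_⟩
        · exact Eq.trans (h.trans h2) hb'
        · exact Nat.ModEq.trans (Eq.trans h hb'.symm) h2.symm
      rw [sum_congr rfl fun b hb => if_congr (e2 b hb) rfl rfl, prod_insert ha]
      by_cases h : r ≡ c [MOD m] <;> simp [h]
    have e3 : R / m * ∏ q ∈ insert a U, ((B q).card : ℝ) / q =
        ∑ b ∈ B a, R / (m * a : ℕ) * ∏ q ∈ U, ((B q).card : ℝ) / q := by
      rw [sum_const, nsmul_eq_mul, prod_insert ha, Nat.cast_mul]
      ring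
    rw [e1, e3, ← sum_sub_distrib, card_insert_of_notMem ha, pow_succ']
    refine (abs_sum_le_sum_abs _ _).trans ((sum_le_sum fun b _ => ih' _).trans ?_)
    rw [sum_const, nsmul_eq_mul]
    exact mul_le_mul_of_nonneg_right (by exact_mod_cast hBa.2) (by positivity)

/-- Brun's pure sieve (Bonferroni inequalities) -/
theorem pure_sieve (S : Finset ℕ) (hS : ∀ q ∈ S, q.Prime) (B : ℕ → Finset ℕ)
    (hB : ∀ q ∈ S, B q ⊆ range q ∧ (B q).card ≤ 3) (y : ℝ) (hy1 : 1 ≤ y)
    (hy : ∀ q ∈ S, (q : ℝ) ≤ y) (A R : ℝ) (hA : 0 ≤ A) (hR : 0 ≤ R) (k : ℕ) (T : Finset ℕ)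
    (hT : ∀ r ∈ T, A < (r : ℝ) ∧ (r : ℝ) ≤ A + R ∧ ∀ q ∈ S, r % q ∉ B q) :
    (T.card : ℝ) ≤ R * ∏ q ∈ S, (1 - ((B q).card : ℝ) / q)
      + R * (3 * rs S) ^ (2 * k + 1) / (2 * k + 1).factorial + (4 * y) ^ (2 * k) := by
  set I := Ioc ⌊A⌋₊ ⌊A + R⌋₊ with hI
  let ind : ℕ → ℕ → ℝ := fun r q => if r % q ∈ B q then 1 else 0
  let u : ℕ → ℝ := fun q => ((B q).card : ℝ) / q
  have hind : ∀ r q, 0 ≤ ind r q ∧ ind r q ≤ 1 := fun r q => by
    simp only [ind]; split_ifs <;> norm_num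
  have hu : ∀ q ∈ S, 0 ≤ u q ∧ u q ≤ 1 := fun q hq => by
    refine ⟨by positivity, div_le_one_of_le₀ ?_ (Nat.cast_nonneg _)⟩
    exact_mod_cast (card_le_card (hB q hq).1).trans (card_range q).le
  have h1 : ∀ r, ∏ q ∈ S, (1 - ind r q) ≤ FLtr S (ind r) (2 * k) := fun r => by
    have := FL_bonf S (ind r) (fun q _ => hind r q) (2 * k)
    rwa [pow_mul, neg_one_sq, one_pow, one_mul, sub_nonneg] at this
  have h2 : (T.card : ℝ) ≤ ∑ r ∈ I, FLtr S (ind r) (2 * k) := by
    have hTI : T ⊆ I := fun r hr =>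
      mem_Ioc.2 ⟨(Nat.floor_lt hA).2 (hT r hr).1, Nat.le_floor (hT r hr).2.1⟩
    refine le_trans ?_ (sum_le_sum_of_subset_of_nonneg hTI fun r _ _ =>
      (prod_nonneg fun q _ => sub_nonneg.2 (hind r q).2).trans (h1 r))
    rw [card_eq_sum_ones, Nat.cast_sum]
    refine sum_le_sum fun r hr => le_trans (le_of_eq ?_) (h1 r)
    rw [Nat.cast_one, prod_eq_one fun q hq => ?_]
    simp only [ind, if_neg ((hT r hr).2.2 q hq), sub_zero]
  have h3 : ∑ r ∈ I, FLtr S (ind r) (2 * k) ≤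
      R * FLtr S u (2 * k) + FLtr S (fun _ => -3) (2 * k) := by
    simp only [FLtr]
    rw [sum_comm, mul_sum, ← sum_add_distrib]
    refine sum_le_sum fun U hU => ?_
    have hUS := mem_powerset.1 hU
    by_cases h : U.card ≤ 2 * k
    · simp only [if_pos h]
      have h4 := FL_crt hA hR B U (fun q hq => hS q (hUS hq)) (fun q hq => hB q (hUS hq))
        Nat.one_pos (fun q _ => Nat.coprime_one_left q) 0
      rw [filter_true_of_mem fun r _ => Nat.modEq_one, Nat.cast_one, div_one] at h4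
      rw [← mul_sum, prod_const, ← mul_pow, show (-1 : ℝ) * -3 = 3 by norm_num, mul_left_comm,
        ← sub_le_iff_le_add', ← mul_sub]
      refine (le_abs_self _).trans ?_
      rw [abs_mul, abs_pow, abs_neg, abs_one, one_pow, one_mul]
      exact h4
    · simp [h]
  have h4 : FLtr S u (2 * k) ≤ ∏ q ∈ S, (1 - u q) +
      (3 * rs S) ^ (2 * k + 1) / (2 * k + 1).factorial := by
    have h5 := FL_bonf S u hu (2 * k + 1)
    rw [FLtr_succ, pow_succ, pow_mul, neg_one_sq, one_pow] at h5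
    have h6 := esymm_le S u (fun q hq => (hu q hq).1) (2 * k + 1)
    have h7 : ∑ q ∈ S, u q ≤ 3 * rs S := by
      rw [rs, mul_sum]
      refine sum_le_sum fun q hq => ?_
      rw [mul_one_div]
      exact div_le_div_of_nonneg_right (by exact_mod_cast (hB q hq).2) (Nat.cast_nonneg _)
    have h8 := h6.trans (pow_le_pow_left₀ (sum_nonneg fun q hq => (hu q hq).1) h7 _)
    rw [← le_div_iff₀' (by exact_mod_cast Nat.factorial_pos _)] at h8
    linarith
  have h5 : FLtr S (fun _ => -3) (2 * k) ≤ (4 * y) ^ (2 * k) := by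
    refine (FL_err S _).trans (pow_le_pow_left₀ (by positivity) ?_ _)
    have : S ⊆ Icc 1 ⌊y⌋₊ := fun q hq => mem_Icc.2 ⟨(hS q hq).one_le, Nat.le_floor (hy q hq)⟩
    have h6 : (S.card : ℝ) ≤ ⌊y⌋₊ := by exact_mod_cast (card_le_card this).trans (by simp)
    have := Nat.floor_le (show 0 ≤ y by linarith)
    linarith
  have h6 := mul_le_mul_of_nonneg_left h4 hR
  rw [mul_add, ← mul_div_assoc] at h6
  linarith

end Vale.Agent.P031
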