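import Vale.Agent.P031.Mer

namespace Vale.Agent.P031

open Finset Real Filter

theorem Over.subset {S : Finset ℕ} {d : ℕ} (h : Over S d) : d.primeFactors ⊆ S := fun q hq =>
  h.2 q (Nat.prime_of_mem_primeFactors hq) (Nat.dvd_of_mem_primeFactors hq)

theorem Over.fac_zero {S : Finset ℕ} {d q : ℕ} (h : Over S d) (hq : q ∉ S) :
    d.factorization q = 0 := by
  by_contra hc
  exact hq (h.subset (by rwa [← Nat.support_factorization, Finsupp.mem_support_iff]))

theorem Over.eq_prod {S : Finset ℕ} {d : ℕ} (h : Over S d) :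
    (d : ℝ) = ∏ q ∈ S, (q : ℝ) ^ d.factorization q := by
  conv_lhs => rw [← Nat.factorization_prod_pow_eq_self h.1]
  rw [Finsupp.prod_of_support_subset _ (s := S) h.subset _ (by simp)]
  push_cast; rfl

theorem Over.Om_eq {S : Finset ℕ} {d : ℕ} (h : Over S d) : Om d = ∑ q ∈ S, d.factorization q := by
  rw [Om, ArithmeticFunction.cardFactors_eq_sum_factorization,
    Finsupp.sum_of_support_subset _ (s := S) h.subset _ (by simp)]

/-- finite sums of multiplicative-type weights are bounded by the Euler product -/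
theorem euler_le (S : Finset ℕ) (hS : ∀ q ∈ S, q.Prime) (a : ℕ → ℕ → ℝ) (ha : ∀ q j, 0 ≤ a q j)
    (b : ℕ → ℝ) (hb : ∀ q ∈ S, ∀ J, ∑ j ∈ range J, a q j ≤ b q)
    (T : Finset ℕ) (hT : ∀ d ∈ T, Over S d) :
    ∑ d ∈ T, ∏ q ∈ S, a q (d.factorization q) ≤ ∏ q ∈ S, b q := by
  classical
  have h1 : ∏ q : S, ∑ j ∈ range (T.sup id + 1), a q j ≤ ∏ q ∈ S, b q := by
    rw [prod_coe_sort S fun q => ∑ j ∈ range (T.sup id + 1), a q j]
    exact prod_le_prod (fun q _ => sum_nonneg fun j _ => ha q j) fun q hq => hb q hq _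
  refine le_trans ?_ h1
  rw [prod_univ_sum]
  have inj : Set.InjOn (fun (d : ℕ) (q : S) => d.factorization q) T := by
    intro d hd d' hd' h
    refine Nat.eq_of_factorization_eq (hT d hd).1 (hT d' hd').1 fun q => ?_
    by_cases hq : q ∈ S
    · exact congrFun h ⟨q, hq⟩
    · rw [(hT d hd).fac_zero hq, (hT d' hd').fac_zero hq]
  calc _ = ∑ d ∈ T, ∏ q : S, a q (d.factorization q) :=
        sum_congr rfl fun d _ => (prod_coe_sort S fun q => a q (d.factorization q)).symm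
    _ = ∑ f ∈ T.image fun (d : ℕ) (q : S) => d.factorization q, ∏ q : S, a q (f q) :=
        (sum_image (f := fun f : S → ℕ => ∏ q : S, a q (f q)) inj).symm
    _ ≤ _ := by
        refine sum_le_sum_of_subset_of_nonneg (fun f hf => ?_)
          fun f _ _ => prod_nonneg fun q _ => ha _ _
        obtain ⟨d, hd, rfl⟩ := mem_image.1 hf
        refine Fintype.mem_piFinset.2 fun q => mem_range.2 ?_
        exact (Nat.factorization_lt _ (hT d hd).1).trans_le
          ((le_sup (f := id) hd).trans (Nat.le_succ _))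

theorem eul_geom {u : ℝ} (h0 : 0 ≤ u) (h1 : u < 1) (J : ℕ) : ∑ j ∈ range J, u ^ j ≤ (1 - u)⁻¹ :=
  sum_le_hasSum _ (fun _ _ => pow_nonneg h0 _) (hasSum_geometric_of_lt_one h0 h1)

theorem eul_inv_le {u : ℝ} (h0 : 0 ≤ u) (h1 : u ≤ 3 / 4) : (1 - u)⁻¹ ≤ exp (u + 4 * u ^ 2) := by
  have e1 := Real.add_one_le_exp (u + 4 * u ^ 2)
  rw [inv_le_iff_one_le_mul₀ (by linarith)]
  have e2 := mul_le_mul_of_nonneg_left e1 (show 0 ≤ 1 - u by linarith)
  nlinarith [mul_nonneg (sq_nonneg u) (show 0 ≤ 3 - 4 * u by linarith)]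

theorem eul_prod_exp (S : Finset ℕ) (hS : ∀ q ∈ S, q.Prime) (a : ℝ) {c : ℝ} (hc : 0 ≤ c) :
    ∏ q ∈ S, exp (a * (1 / (q : ℝ)) + c * (1 / (q : ℝ) ^ 2)) ≤ exp (a * rs S + c) := by
  rw [← Real.exp_sum, sum_add_distrib, ← mul_sum, ← mul_sum]
  have := mul_le_mul_of_nonneg_left (sum_inv_sq_le S hS) hc
  exact Real.exp_le_exp.2 (by unfold rs; linarith)

theorem eul_exp_rs : ∃ C : ℝ, 0 < C ∧ ∀ y : ℝ, 2 ≤ y → ∀ (m : ℕ) (c : ℝ),
    exp (m * rs (PP y) + c) ≤ exp c * C ^ m * log y ^ m := by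
  obtain ⟨C, hC⟩ := mertens
  refine ⟨exp C, Real.exp_pos _, fun y hy m c => ?_⟩
  have h1 : exp (rs (PP y)) ≤ exp C * log y := by
    rw [← Real.exp_log (Real.log_pos (show 1 < y by linarith)), ← Real.exp_add]
    exact Real.exp_le_exp.2 (by linarith [(abs_le.1 (hC y hy)).2])
  rw [Real.exp_add, Real.exp_nat_mul, mul_assoc, ← mul_pow, mul_comm]
  exact mul_le_mul_of_nonneg_left (pow_le_pow_left₀ (Real.exp_pos _).le h1 m) (Real.exp_pos _).le

theorem sum_pow_Om_div_le (S : Finset ℕ) (hS : ∀ q ∈ S, q.Prime) {l : ℝ} (hl : 0 ≤ l)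
    (hlq : ∀ q ∈ S, l ≤ 3 / 4 * q) (T : Finset ℕ) (hT : ∀ d ∈ T, Over S d) :
    ∑ d ∈ T, l ^ Om d / d ≤ exp (l * rs S + 4 * l ^ 2) := by
  have h1 := euler_le S hS (fun q j => (l / q) ^ j) (fun q j => by positivity)
    (fun q => exp (l * (1 / (q : ℝ)) + 4 * l ^ 2 * (1 / (q : ℝ) ^ 2))) (fun q hq J => ?_) T hT
  · refine le_trans (le_of_eq (sum_congr rfl fun d hd => ?_))
      (h1.trans (eul_prod_exp S hS l (by positivity)))
    simp only [div_pow]
    rw [prod_div_distrib, ← (hT d hd).eq_prod, prod_pow_eq_pow_sum, (hT d hd).Om_eq]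
  · have q0 : (0 : ℝ) < q := Nat.cast_pos.2 (hS q hq).pos
    have u1 : l / q ≤ 3 / 4 := by rw [div_le_iff₀ q0]; exact hlq q hq
    refine (eul_geom (by positivity) (by linarith) J).trans
      ((eul_inv_le (by positivity) u1).trans (le_of_eq ?_))
    congr 1; ring

theorem sum_inv_smooth : ∃ C : ℝ, ∀ y : ℝ, 2 ≤ y → ∀ T : Finset ℕ, (∀ d ∈ T, Smooth y d) →
    ∑ d ∈ T, (1 : ℝ) / d ≤ C * log y := by
  obtain ⟨C, -, hC⟩ := eul_exp_rs
  refine ⟨exp 4 * C, fun y hy T hT => ?_⟩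
  have h1 := sum_pow_Om_div_le (PP y) (fun q hq => (mem_PP.1 hq).1) zero_le_one (fun q hq => by
    have : (2 : ℝ) ≤ q := by exact_mod_cast (mem_PP.1 hq).1.two_le
    linarith) T fun d hd => smooth_iff_over.1 (hT d hd)
  have h2 := hC y hy 1 4
  simp only [one_pow, mul_one, Nat.cast_one, pow_one] at h1 h2
  exact h1.trans h2

theorem eul_tot (S : Finset ℕ) (hS : ∀ q ∈ S, q.Prime) {m : ℝ} (hm : 0 ≤ m) (T : Finset ℕ)
    (hT : ∀ d ∈ T, Over S d) : ∑ d ∈ T, m ^ om d / Nat.totient d ≤ exp (m * rs S + 8 * m) := by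
  have h1 := euler_le S hS
    (fun q j => if j = 0 then 1 else m / ((q : ℝ) ^ (j - 1) * ((q - 1 : ℕ) : ℝ)))
    (fun q j => by split_ifs <;> positivity)
    (fun q => exp (m * (1 / (q : ℝ)) + 8 * m * (1 / (q : ℝ) ^ 2))) (fun q hq J => ?_) T hT
  · refine le_trans (le_of_eq (sum_congr rfl fun d hd => ?_))
      (h1.trans (eul_prod_exp S hS m (by positivity)))
    rw [← prod_subset (hT d hd).subset fun q _ hq => if_pos (by
      rwa [← Nat.support_factorization, Finsupp.notMem_support_iff] at hq),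
      Nat.totient_eq_prod_factorization (hT d hd).1, om, ← prod_const, Finsupp.prod,
      Nat.support_factorization, Nat.cast_prod, ← prod_div_distrib]
    refine prod_congr rfl fun q hq => ?_
    rw [if_neg (by rwa [← Nat.support_factorization, Finsupp.mem_support_iff] at hq)]
    push_cast; rfl
  · have q2 : (2 : ℝ) ≤ q := by exact_mod_cast (hS q hq).two_le
    have q0 : (0 : ℝ) < q := by linarith
    have q1 : (0 : ℝ) < q - 1 := by linarith
    refine le_trans ?_ (Real.add_one_le_exp _)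
    rcases J with _ | J
    · rw [sum_range_zero]; positivity
    rw [sum_range_succ', if_pos rfl, Nat.cast_sub (hS q hq).one_le, Nat.cast_one]
    have e1 : ∑ j ∈ range J, (if j + 1 = 0 then 1 else m / ((q : ℝ) ^ (j + 1 - 1) * (q - 1))) =
        m / (q - 1) * ∑ j ∈ range J, (1 / (q : ℝ)) ^ j := by
      rw [mul_sum]
      refine sum_congr rfl fun j _ => ?_
      rw [if_neg (Nat.succ_ne_zero j), Nat.add_sub_cancel, one_div_pow]
      field_simp
    have e2 := eul_geom (u := 1 / (q : ℝ)) (by positivity) ((div_lt_one q0).2 (by linarith)) J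
    have e3 : 1 / ((q : ℝ) - 1) * (1 - 1 / (q : ℝ))⁻¹ ≤ 1 / q + 8 * (1 / (q : ℝ) ^ 2) := by
      have a1 : 1 / ((q : ℝ) - 1) * (1 - 1 / (q : ℝ))⁻¹ = q / (q - 1) ^ 2 := by field_simp
      have a2 : 1 / (q : ℝ) + 8 * (1 / (q : ℝ) ^ 2) = (q + 8) / q ^ 2 := by field_simp
      rw [a1, a2, div_le_div_iff₀ (by positivity) (by positivity)]
      nlinarith [mul_nonneg (sub_nonneg.2 q2) (sub_nonneg.2 q2)]
    have e4 := mul_le_mul_of_nonneg_left e2 (div_nonneg hm q1.le)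
    have e5 := mul_le_mul_of_nonneg_left e3 hm
    rw [e1]
    rw [← mul_assoc, mul_one_div] at e5
    linarith

theorem sum_inv_totient_smooth : ∃ C : ℝ, ∀ y : ℝ, 2 ≤ y → ∀ T : Finset ℕ,
    (∀ d ∈ T, Smooth y d) → ∑ d ∈ T, (1 : ℝ) / Nat.totient d ≤ C * log y := by
  obtain ⟨C, -, hC⟩ := eul_exp_rs
  refine ⟨exp 8 * C, fun y hy T hT => ?_⟩
  have h1 := eul_tot (PP y) (fun q hq => (mem_PP.1 hq).1) zero_le_one T
    fun d hd => smooth_iff_over.1 (hT d hd)
  have h2 := hC y hy 1 8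
  simp only [one_pow, mul_one, Nat.cast_one, pow_one] at h1 h2
  exact h1.trans h2

theorem sum_four_pow_om_div : ∃ C : ℝ, ∀ y : ℝ, 2 ≤ y → ∀ T : Finset ℕ, (∀ d ∈ T, Smooth y d) →
    ∑ d ∈ T, (4 : ℝ) ^ om d / Nat.totient d ≤ C * log y ^ 16 := by
  obtain ⟨C, C0, hC⟩ := eul_exp_rs
  refine ⟨exp (8 * 4) * C ^ 4 * 2 ^ 12, fun y hy T hT => ?_⟩
  have h1 := eul_tot (PP y) (fun q hq => (mem_PP.1 hq).1) (m := 4) (by norm_num) T
    fun d hd => smooth_iff_over.1 (hT d hd)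
  have h2 := hC y hy 4 (8 * 4)
  have l1 : 1 ≤ 2 * log y := by
    linarith [Real.log_le_log two_pos hy, Real.log_two_gt_d9]
  have h3 : log y ^ 4 ≤ 2 ^ 12 * log y ^ 16 := by
    have := mul_le_mul_of_nonneg_left (one_le_pow₀ (n := 12) l1) (show 0 ≤ log y ^ 4 by positivity)
    linarith [show log y ^ 4 * (2 * log y) ^ 12 = 2 ^ 12 * log y ^ 16 by ring]
  push_cast at h2
  refine h1.trans (h2.trans ?_)
  rw [mul_assoc _ (2 ^ 12 : ℝ)]
  exact mul_le_mul_of_nonneg_left h3 (by positivity)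

/-- Rankin's bound for large smooth numbers -/
theorem smooth_tail : ∃ C : ℝ, ∀ y Y : ℝ, 8 ≤ y → 1 ≤ Y → ∀ T : Finset ℕ,
    (∀ d ∈ T, Smooth y d ∧ Y < d) →
    ∑ d ∈ T, (1 : ℝ) / d ≤ C * log y ^ 12 * exp (-(log Y / log y)) := by
  obtain ⟨C, C0, hC⟩ := eul_exp_rs
  refine ⟨exp 36 * C ^ 3, fun y Y hy hY T hT => ?_⟩
  have l2 : 2 ≤ log y := by
    have := Real.log_le_log (by norm_num) hy
    rw [show (8 : ℝ) = 2 ^ 3 by norm_num, Real.log_pow] at this
    push_cast at this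
    linarith [Real.log_two_gt_d9]
  obtain ⟨η, hη⟩ : ∃ η, η = (log y)⁻¹ := ⟨_, rfl⟩
  have η0 : 0 < η := by rw [hη]; positivity
  have η1 : η ≤ 1 / 2 := by rw [hη, one_div]; exact inv_anti₀ two_pos l2
  have h1 := euler_le (PP y) (fun q hq => (mem_PP.1 hq).1) (fun q j => ((q : ℝ) ^ η / q) ^ j)
    (fun q j => by positivity)
    (fun q => exp (3 * (1 / (q : ℝ)) + 36 * (1 / (q : ℝ) ^ 2))) (fun q hq J => ?_) T
    fun d hd => smooth_iff_over.1 (hT d hd).1
  · have h2 := hC y (by linarith) 3 36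
    push_cast at h2
    have h3 := h1.trans ((eul_prod_exp _ (fun q hq => (mem_PP.1 hq).1) 3 (by norm_num)).trans h2)
    have h4 : log y ^ 3 ≤ log y ^ 12 := pow_le_pow_right₀ (by linarith) (by norm_num)
    have h5 := h3.trans (mul_le_mul_of_nonneg_left h4 (by positivity))
    refine le_trans ?_ (mul_le_mul_of_nonneg_right h5 (Real.exp_pos _).le)
    rw [sum_mul]
    refine sum_le_sum fun d hd => ?_
    have o := smooth_iff_over.1 (hT d hd).1
    have Y0 : 0 < Y := by linarith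
    have d0 : (0 : ℝ) < d := Y0.trans (hT d hd).2
    have e1 : ∏ q ∈ PP y, ((q : ℝ) ^ η / q) ^ d.factorization q = (d : ℝ) ^ η / d := by
      simp only [div_pow]
      rw [prod_div_distrib, ← o.eq_prod]
      congr 1
      conv_rhs => rw [o.eq_prod, ← Real.finset_prod_rpow _ _ (fun _ _ => by positivity)]
      exact prod_congr rfl fun q _ => Real.rpow_pow_comm (Nat.cast_nonneg q) _ _
    have e2 : exp (-(log Y / log y)) = (Y ^ η)⁻¹ := by
      rw [Real.rpow_def_of_pos Y0, Real.exp_neg, hη, div_eq_mul_inv]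
    rw [e1, e2, div_mul_eq_mul_div, ← div_eq_mul_inv]
    refine div_le_div_of_nonneg_right ((one_le_div (by positivity)).2 ?_) d0.le
    exact Real.rpow_le_rpow Y0.le (hT d hd).2.le η0.le
  · have q2 : (2 : ℝ) ≤ q := by exact_mod_cast (mem_PP.1 hq).1.two_le
    have q0 : (0 : ℝ) < q := by linarith
    have a1 : (q : ℝ) ^ η ≤ 3 := by
      refine (Real.rpow_le_rpow q0.le (mem_PP.1 hq).2 η0.le).trans ?_
      rw [Real.rpow_def_of_pos (by linarith), hη, mul_inv_cancel₀ (by linarith)]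
      linarith [Real.exp_one_lt_d9]
    have a2 : (q : ℝ) ^ η ≤ 3 / 4 * q := by
      have b1 : ((q : ℝ) ^ η) ^ 2 ≤ q := by
        rw [← Real.rpow_natCast, ← Real.rpow_mul q0.le]
        conv_rhs => rw [← Real.rpow_one (q : ℝ)]
        exact Real.rpow_le_rpow_of_exponent_le (by linarith) (by push_cast; linarith)
      exact (sq_le_sq₀ (by positivity) (by positivity)).1 (by nlinarith)
    have u1 : (q : ℝ) ^ η / q ≤ 3 / 4 := by rwa [div_le_iff₀ q0]
    have u2 : (q : ℝ) ^ η / q ≤ 3 * (1 / q) := by rw [mul_one_div]; gcongr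
    refine (eul_geom (by positivity) (by linarith) J).trans
      ((eul_inv_le (by positivity) u1).trans (Real.exp_le_exp.2 ?_))
    have u3 := pow_le_pow_left₀ (by positivity) u2 2
    rw [mul_pow, one_div_pow] at u3
    linarith

theorem eul_card_mul {X : ℝ} (hX : 0 ≤ X) (s : ℕ) (T : Finset ℕ)
    (hT : ∀ v ∈ T, v ≠ 0 ∧ (v : ℝ) ≤ X ∧ s ∣ v) : (T.card : ℝ) ≤ X / s := by
  have h1 : T.card ≤ ⌊X⌋₊ / s := by
    rw [← Nat.Ioc_filter_dvd_card_eq_div]
    exact card_le_card fun v hv => mem_filter.2 ⟨mem_Ioc.2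
      ⟨Nat.pos_of_ne_zero (hT v hv).1, Nat.le_floor (hT v hv).2.1⟩, (hT v hv).2.2⟩
  exact (Nat.cast_le.2 h1).trans (Nat.cast_div_le.trans
    (div_le_div_of_nonneg_right (Nat.floor_le hX) (Nat.cast_nonneg s)))

theorem card_sm_gt : ∃ C : ℝ, ∀ y Y X : ℝ, 8 ≤ y → 1 ≤ Y → 0 ≤ X → ∀ T : Finset ℕ,
    (∀ v ∈ T, v ≠ 0 ∧ (v : ℝ) ≤ X ∧ Y < sm y v) →
    (T.card : ℝ) ≤ C * X * log y ^ 12 * exp (-(log Y / log y)) := by
  obtain ⟨C, hC⟩ := smooth_tail
  refine ⟨C, fun y Y X hy hY hX T hT => ?_⟩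
  have h1 := hC y Y hy hY (T.image (sm y)) fun s hs => by
    obtain ⟨v, hv, rfl⟩ := mem_image.1 hs
    exact ⟨sm_smooth y v, (hT v hv).2.2⟩
  have h2 : (T.card : ℝ) ≤ X * ∑ s ∈ T.image (sm y), (1 : ℝ) / s := by
    rw [card_eq_sum_card_image (sm y) T, Nat.cast_sum, mul_sum]
    refine sum_le_sum fun s _ => ?_
    rw [mul_one_div]
    refine eul_card_mul hX s _ fun v hv => ?_
    obtain ⟨a, rfl⟩ := mem_filter.1 hv
    exact ⟨(hT v a).1, (hT v a).2.1, sm_dvd y (hT v a).1⟩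
  have h3 := mul_le_mul_of_nonneg_left h1 hX
  linarith

/-- Rankin-type mean value of `l ^ Ω_S(v)` -/
theorem sum_pow_OmS_le (S : Finset ℕ) (hS : ∀ q ∈ S, q.Prime) {l : ℝ} (hl : 1 ≤ l)
    (hlq : ∀ q ∈ S, l ≤ 3 / 4 * q) (N : ℕ) :
    ∑ v ∈ Icc 1 N, l ^ OmS S v ≤ N * exp ((l - 1) * rs S + 4 * l ^ 2) := by
  classical
  obtain ⟨g, hg⟩ : ∃ g : ℕ → ℝ, ∀ j, g j = if j = 0 then 1 else (l - 1) * l ^ (j - 1) :=
    ⟨_, fun _ => rfl⟩
  have g0 : ∀ j, 0 ≤ g j := fun j => by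
    rw [hg]
    split_ifs
    · exact zero_le_one
    · exact mul_nonneg (by linarith) (by positivity)
  have gz : g 0 = 1 := by rw [hg, if_pos rfl]
  have gs : ∀ j, g (j + 1) = (l - 1) * l ^ j := fun j => by
    rw [hg, if_neg (Nat.succ_ne_zero j), Nat.add_sub_cancel]
  have g1 : ∀ a, ∑ j ∈ range (a + 1), g j = l ^ a := fun a => by
    induction a with
    | zero => simp [gz]
    | succ a ih => rw [sum_range_succ, ih, gs]; ring
  have h1 : ∀ v ∈ Icc 1 N, l ^ OmS S v ≤ ∑ f ∈ Fintype.piFinset fun _ : S => range (N + 1),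
      (∏ q : S, g (f q)) * if (∏ q : S, (q : ℕ) ^ f q) ∣ v then 1 else 0 := by
    intro v hv
    have v0 : v ≠ 0 := by have := (mem_Icc.1 hv).1; omega
    have e1 : l ^ OmS S v = ∏ q : S, ∑ j ∈ range (v.factorization q + 1), g j := by
      rw [OmS, ← prod_pow_eq_pow_sum, prod_coe_sort S fun q => ∑ j ∈ range (v.factorization q + 1), g j]
      exact prod_congr rfl fun q _ => (g1 _).symm
    rw [e1, prod_univ_sum]
    simp only [mul_ite, mul_one, mul_zero]
    rw [← sum_filter]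
    refine sum_le_sum_of_subset_of_nonneg (fun f hf => ?_) fun f _ _ => prod_nonneg fun q _ => g0 _
    have hf' := fun q => Nat.lt_succ_iff.1 (mem_range.1 (Fintype.mem_piFinset.1 hf q))
    refine mem_filter.2 ⟨Fintype.mem_piFinset.2 fun q => mem_range.2 ?_, ?_⟩
    · have := Nat.factorization_lt (q : ℕ) v0
      have := hf' q
      have := (mem_Icc.1 hv).2
      omega
    · refine Finset.prod_dvd_of_isRelPrime (fun q _ q' _ hne => ?_)
        fun q _ => ((hS q q.2).pow_dvd_iff_le_factorization v0).2 (hf' q)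
      exact Nat.coprime_iff_isRelPrime.1 (Nat.Coprime.pow _ _
        ((Nat.coprime_primes (hS q q.2) (hS q' q'.2)).2 fun e => hne (Subtype.ext e)))
  have h2 : ∑ v ∈ Icc 1 N, l ^ OmS S v ≤
      N * ∏ q : S, ∑ j ∈ range (N + 1), g j * (1 / ((q : ℕ) : ℝ)) ^ j := by
    refine (sum_le_sum h1).trans ?_
    rw [sum_comm, prod_univ_sum, mul_sum]
    refine sum_le_sum fun f _ => ?_
    rw [← mul_sum, prod_mul_distrib, mul_left_comm]
    refine mul_le_mul_of_nonneg_left ?_ (prod_nonneg fun q _ => g0 _)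
    rw [sum_boole]
    refine (eul_card_mul (Nat.cast_nonneg N) (∏ q : S, (q : ℕ) ^ f q) _ fun v hv => ?_).trans
      (le_of_eq ?_)
    · obtain ⟨a, b⟩ := mem_filter.1 hv
      exact ⟨by have := (mem_Icc.1 a).1; omega, Nat.cast_le.2 (mem_Icc.1 a).2, b⟩
    · simp only [one_div_pow]
      rw [prod_div_distrib, prod_const_one, mul_one_div]
      push_cast; rfl
  refine h2.trans (mul_le_mul_of_nonneg_left ?_ (Nat.cast_nonneg N))
  rw [prod_coe_sort S fun q => ∑ j ∈ range (N + 1), g j * (1 / (q : ℝ)) ^ j]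
  refine le_trans (prod_le_prod (fun q _ => sum_nonneg fun j _ => mul_nonneg (g0 j)
    (by positivity)) fun q hq => ?_) (eul_prod_exp S hS (l - 1) (by positivity))
  have q0 : (0 : ℝ) < q := Nat.cast_pos.2 (hS q hq).pos
  have w0 : 0 < 1 / (q : ℝ) := by positivity
  have u1 : l * (1 / q) ≤ 3 / 4 := by rw [mul_one_div, div_le_iff₀ q0]; exact hlq q hq
  rw [← one_div_pow]
  generalize 1 / (q : ℝ) = w at *
  have u0 : 0 ≤ l * w := by positivity
  have e1 : ∑ j ∈ range (N + 1), g j * w ^ j = (l - 1) * w * ∑ j ∈ range N, (l * w) ^ j + 1 := by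
    rw [sum_range_succ', gz, mul_sum]
    congr 1
    · exact sum_congr rfl fun j _ => by rw [gs]; ring
    · simp
  have e2 := mul_le_mul_of_nonneg_left (eul_geom u0 (by linarith) N)
    (mul_nonneg (sub_nonneg.2 hl) w0.le)
  have e3 : (l - 1) * w * (1 - l * w)⁻¹ + 1 = (1 - w) * (1 - l * w)⁻¹ := by
    have : 1 - l * w ≠ 0 := by linarith
    field_simp; ring
  have e4 : (1 - w) * (1 - l * w)⁻¹ ≤ exp (-w) * exp (l * w + 4 * (l * w) ^ 2) :=
    mul_le_mul (by linarith [Real.add_one_le_exp (-w)]) (eul_inv_le u0 u1)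
      (inv_nonneg.2 (by linarith)) (Real.exp_pos _).le
  rw [← Real.exp_add] at e4
  rw [e1, show (l - 1) * w + 4 * l ^ 2 * w ^ 2 = -w + (l * w + 4 * (l * w) ^ 2) by ring]
  linarith

theorem esymm_le {ι : Type} [DecidableEq ι] (S : Finset ι) (f : ι → ℝ) (hf : ∀ q ∈ S, 0 ≤ f q)
    (k : ℕ) :
    (k.factorial : ℝ) * ∑ Q ∈ powersetCard k S, ∏ q ∈ Q, f q ≤ (∑ q ∈ S, f q) ^ k := by
  induction S using Finset.induction_on generalizing k with
  | empty =>
    rcases k with _ | k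
    · simp
    · rw [powersetCard_eq_empty.2 (by simp)]; simp
  | insert x S hx ih =>
    rcases k with _ | k
    · simp
    have hf' : ∀ q ∈ S, 0 ≤ f q := fun q hq => hf q (mem_insert_of_mem hq)
    have fx := hf x (mem_insert_self _ _)
    have disj : Disjoint (powersetCard (k + 1) S) ((powersetCard k S).image (insert x)) := by
      refine disjoint_left.2 fun Q h1 h2 => ?_
      obtain ⟨Q', -, rfl⟩ := mem_image.1 h2
      exact hx ((mem_powersetCard.1 h1).1 (mem_insert_self _ _))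
    have nm : ∀ Q ∈ powersetCard k S, x ∉ Q := fun Q hQ h => hx ((mem_powersetCard.1 hQ).1 h)
    rw [powersetCard_succ_insert hx, sum_union disj, sum_image fun Q h1 Q' h2 e => by
      rw [← erase_insert (nm Q h1), e, erase_insert (nm Q' h2)],
      sum_congr rfl fun Q hQ => prod_insert (nm Q hQ), ← mul_sum, sum_insert hx]
    have s0 : 0 ≤ ∑ q ∈ S, f q := sum_nonneg hf'
    have a1 := ih hf' (k + 1)
    have a2 := mul_le_mul_of_nonneg_left (ih hf' k) (show 0 ≤ ((k + 1 : ℕ) : ℝ) * f x by positivity)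
    have a3 := pow_add_mul_le_add_pow s0 (show 0 ≤ 2 * ∑ q ∈ S, f q + f x by positivity) (k + 1)
    rw [Nat.add_sub_cancel] at a3
    rw [add_comm (f x), mul_add]
    have e : (((k + 1).factorial : ℕ) : ℝ) = ((k + 1 : ℕ) : ℝ) * k.factorial := by
      rw [Nat.factorial_succ, Nat.cast_mul]
    rw [e] at a1 ⊢
    linarith

end Vale.Agent.P031
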