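import Vale.Agent.P031.D

namespace Vale.Agent.P031

open Finset Real Filter Topology MeasureTheory FourierTransform
open scoped ContDiff

theorem Four_iter (n : ℕ) :
    iteratedDeriv n (fun v : ℝ => ((exp v : ℝ) : ℂ)) = fun v => ((exp v : ℝ) : ℂ) := by
  induction n with
  | zero => rfl
  | succ n ih =>
    rw [iteratedDeriv_succ, ih]
    funext v
    exact (Real.hasDerivAt_exp v).ofReal_comp.deriv

theorem Four_two_le {v : ℝ} (hv : 1 ≤ v) : 2 ≤ exp v := by linarith [add_one_le_exp v]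

theorem exists_cut {ε : ℝ} (h0 : 0 < ε) (h1 : ε ≤ 1) : ∃ W : ℝ → ℝ, Cut ε W := by
  let W : ℝ → ℝ := fun u => 1 - smoothTransition ((u - 1) / ε)
  have hone : ∀ u, u ≤ 1 → W u = 1 := fun u hu => by
    simp only [W]
    rw [smoothTransition.zero_of_nonpos (div_nonpos_of_nonpos_of_nonneg (by linarith) h0.le),
      sub_zero]
  have hzero : ∀ u, 1 + ε ≤ u → W u = 0 := fun u hu => by
    simp only [W]
    rw [smoothTransition.one_of_one_le (by rw [le_div_iff₀ h0]; linarith), sub_self]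
  let f : ℝ → ℂ := fun v => ((exp v * W (exp v) : ℝ) : ℂ)
  have hf : ContDiff ℝ ∞ f := by
    refine Complex.ofRealCLM.contDiff.comp (contDiff_exp.mul (contDiff_const.sub ?_))
    exact smoothTransition.contDiff.comp ((contDiff_exp.sub contDiff_const).div_const ε)
  refine ⟨W, fun u v huv => ?_, hone, hzero, h1, ⟨f, hf, fun k n => ?_⟩, fun v => rfl⟩
  · exact sub_le_sub_left (smoothTransition.monotone (by gcongr)) 1
  have hc : Continuous fun x : ℝ => ‖x‖ ^ k * ‖iteratedFDeriv ℝ n f x‖ :=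
    (continuous_norm.pow k).mul (hf.continuous_iteratedFDeriv (by exact_mod_cast le_top)).norm
  obtain ⟨B, hB⟩ := (isCompact_Icc (a := (0 : ℝ)) (b := 1)).bddAbove_image hc.continuousOn
  refine ⟨max B k.factorial, fun x => ?_⟩
  rcases lt_or_ge x 0 with hx | hx
  · have h2 : f =ᶠ[𝓝 x] fun v : ℝ => ((exp v : ℝ) : ℂ) := by
      filter_upwards [Iio_mem_nhds hx] with v hv
      simp only [f]
      rw [hone _ (exp_le_one_iff.2 (le_of_lt hv)), mul_one]
    rw [(h2.iteratedFDeriv ℝ n).eq_of_nhds, norm_iteratedFDeriv_eq_norm_iteratedDeriv, Four_iter,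
      Complex.norm_real, norm_of_nonneg (exp_pos x).le, Real.norm_eq_abs, abs_of_neg hx]
    refine le_max_of_le_right ?_
    have h3 := pow_div_factorial_le_exp (-x) (by linarith) k
    rw [div_le_iff₀ (by positivity), exp_neg] at h3
    have h4 := mul_le_mul_of_nonneg_right h3 (exp_pos x).le
    rwa [mul_right_comm, inv_mul_cancel₀ (exp_pos x).ne', one_mul] at h4
  rcases le_or_gt x 1 with hx1 | hx1
  · exact le_max_of_le_left (hB ⟨x, ⟨hx, hx1⟩, rfl⟩)
  · have h2 : f =ᶠ[𝓝 x] fun _ => 0 := by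
      filter_upwards [Ioi_mem_nhds hx1] with v hv
      simp only [f]
      rw [hzero _ (by linarith [Four_two_le (le_of_lt hv)]), mul_zero, Complex.ofReal_zero]
    rw [(h2.iteratedFDeriv ℝ n).eq_of_nhds, iteratedFDeriv_fun_zero]
    simp

theorem Cut.nonneg {ε : ℝ} {W : ℝ → ℝ} (hW : Cut ε W) (u : ℝ) : 0 ≤ W u := by
  rw [← hW.zero (max u (1 + ε)) (le_max_right _ _)]
  exact hW.anti (le_max_left _ _)

theorem Cut.le {ε : ℝ} {W : ℝ → ℝ} (hW : Cut ε W) (u : ℝ) : W u ≤ 1 := by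
  rw [← hW.one (min u 1) (min_le_right _ _)]
  exact hW.anti (min_le_left _ _)

theorem Cut.sch' {ε : ℝ} {W : ℝ → ℝ} (hW : Cut ε W) : ∃ h : SchwartzMap ℝ ℂ,
    (∀ v : ℝ, h v = ((exp v * W (exp v) : ℝ) : ℂ)) ∧ (∀ v : ℝ, 1 ≤ v → h v = 0) ∧
    ∀ (X : ℝ) (a : ℕ → ℂ), 0 < X → SW W X a = X * TT h X a := by
  obtain ⟨h, hh⟩ := hW.sch
  refine ⟨h, hh, fun v hv => ?_, fun X a hX => ?_⟩
  · rw [hh, hW.zero _ (by linarith [Four_two_le hv, hW.le_one]), mul_zero, Complex.ofReal_zero]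
  · rw [SW, TT, mul_sum]
    refine sum_congr rfl fun n hn => ?_
    have h1 : (0 : ℝ) < n := by exact_mod_cast (mem_Icc.1 hn).1
    rw [hh, exp_sub, exp_log h1, exp_log hX]
    have h2 : (n : ℂ) ≠ 0 := by exact_mod_cast h1.ne'
    have h3 : (X : ℂ) ≠ 0 := by exact_mod_cast hX.ne'
    push_cast
    field_simp

theorem exists_mul_id (h : SchwartzMap ℝ ℂ) :
    ∃ h' : SchwartzMap ℝ ℂ, ∀ v : ℝ, h' v = (v : ℂ) * h v :=
  ⟨SchwartzMap.smulLeftCLM ℂ (fun v : ℝ => (v : ℂ)) h, fun v =>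
    SchwartzMap.smulLeftCLM_apply_apply Function.Complex.hasTemperateGrowth_ofReal h v⟩

theorem Four_int (G : SchwartzMap ℝ ℂ) (N : ℕ) :
    Integrable (fun t : ℝ => (1 + |t|) ^ N * ‖G t‖) := by
  simp only [add_comm (1 : ℝ), add_pow, sum_mul]
  refine integrable_finsetSum _ fun j _ => ?_
  refine ((G.integrable_pow_mul volume j).const_mul (N.choose j : ℝ)).congr
    (Eventually.of_forall fun t => ?_)
  simp only [Real.norm_eq_abs, one_pow]
  ring

/-- Fourier inversion with a rapidly decaying density -/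
theorem exists_sep (h : SchwartzMap ℝ ℂ) : ∃ g : ℝ → ℂ, Continuous g ∧
    (∀ N : ℕ, MeasureTheory.Integrable (fun t : ℝ => (1 + |t|) ^ N * ‖g t‖)) ∧
    ∀ v : ℝ, h v = ∫ t : ℝ, g t * Complex.exp (Complex.I * t * v) := by
  have hπ : (2 * π : ℝ) ≠ 0 := by positivity
  let G : SchwartzMap ℝ ℂ := ((2 * π : ℝ) : ℂ)⁻¹ • SchwartzMap.compCLMOfContinuousLinearEquiv ℂ
    (ContinuousLinearEquiv.unitsEquivAut ℝ (Units.mk0 _ (inv_ne_zero hπ))) (𝓕 h)
  have hG : ∀ t, G t = ((2 * π : ℝ) : ℂ)⁻¹ * 𝓕 h (t / (2 * π)) := fun t => by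
    simp [G, div_eq_mul_inv]
  refine ⟨G, G.continuous, Four_int G, fun v => ?_⟩
  have h1 : h v = 𝓕⁻ (𝓕 h : SchwartzMap ℝ ℂ) v := by rw [fourierInv_fourier_eq]
  rw [h1, SchwartzMap.fourierInv_coe, Real.fourierInv_eq']
  have h2 := Measure.integral_comp_div (fun ξ : ℝ =>
    Complex.exp (((2 * π * inner ℝ ξ v : ℝ) : ℂ) * Complex.I) • (𝓕 h : SchwartzMap ℝ ℂ) ξ) (2 * π)
  have h3 : ((2 * π : ℝ) : ℂ) ≠ 0 := by exact_mod_cast hπ
  rw [abs_of_pos (by positivity), Complex.real_smul, ← inv_mul_eq_iff_eq_mul₀ h3] at h2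
  rw [← h2, ← integral_const_mul]
  refine integral_congr_ae (Eventually.of_forall fun t => ?_)
  have h4 : ((2 * π * inner ℝ (t / (2 * π)) v : ℝ) : ℂ) * Complex.I = Complex.I * t * v := by
    have : 2 * π * inner ℝ (t / (2 * π)) v = t * v := by
      simp only [RCLike.inner_apply, conj_trivial]
      field_simp
    rw [this]; push_cast; ring
  simp only [hG, h4, smul_eq_mul]
  ring

theorem TT_log_pow (h : ℝ → ℂ) (X : ℝ) (a : ℕ → ℂ) (k : ℕ) :
    TT h X (fun n => a n * ((log n : ℝ) : ℂ) ^ k) =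
      ∑ j ∈ range (k + 1), (k.choose j : ℂ) * ((log X : ℝ) : ℂ) ^ (k - j) *
        TT (fun v => (v : ℂ) ^ j * h v) X a := by
  simp only [TT, mul_sum]
  rw [sum_comm]
  refine sum_congr rfl fun n _ => ?_
  have : ((log n : ℝ) : ℂ) = ((log n - log X : ℝ) : ℂ) + ((log X : ℝ) : ℂ) := by push_cast; ring
  rw [this, add_pow, mul_sum, sum_div, sum_mul]
  refine sum_congr rfl fun j _ => ?_
  ring

theorem Four_term (a : ℕ → ℂ) (σ : ℂ) (t : ℝ) (n : ℕ) :
    LSeries.term a (σ - Complex.I * t) n =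
      LSeries.term a σ n * Complex.exp (Complex.I * t * (log n : ℝ)) := by
  rcases eq_or_ne n 0 with rfl | hn
  · simp
  have h2 : (n : ℂ) ≠ 0 := by exact_mod_cast hn
  rw [LSeries.term_of_ne_zero hn, LSeries.term_of_ne_zero hn, Complex.cpow_sub _ _ h2,
    Complex.cpow_def_of_ne_zero h2 (Complex.I * t), ← Complex.natCast_log, div_div_eq_mul_div,
    mul_comm (((log n : ℝ) : ℂ))]
  ring

/-- transfer from bounds for the Dirichlet series to bounds for smoothed sums -/
theorem TT_le (h : SchwartzMap ℝ ℂ) (hh : ∀ v : ℝ, 1 ≤ v → h v = 0) (N : ℕ) :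
    ∃ C : ℝ, 0 ≤ C ∧ ∀ (a : ℕ → ℂ) (K X : ℝ), 1 ≤ X →
      (∀ s : ℂ, 1 < s.re → LSeriesSummable a s) →
      (∀ s : ℂ, 1 < s.re → s.re ≤ 2 → ‖LSeries a s‖ ≤ K * (1 + ‖s‖) ^ N) →
      ‖TT h X a‖ ≤ C * K := by
  obtain ⟨g, hg, hint, hrep⟩ := exists_sep h
  have hg1 : Integrable g := by
    have := hint 0
    simp only [pow_zero, one_mul] at this
    exact (integrable_norm_iff hg.aestronglyMeasurable).1 this
  refine ⟨3 ^ N * ∫ t : ℝ, (1 + |t|) ^ N * ‖g t‖,
    mul_nonneg (by positivity) (integral_nonneg fun t => by positivity), fun a K X hX hs hb => ?_⟩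
  have hK : 0 ≤ K := by
    have := (norm_nonneg _).trans (hb 2 (by norm_num) (by norm_num))
    exact (mul_nonneg_iff_of_pos_right (by positivity)).1 this
  have key : ∀ σ : ℝ, 1 < σ → σ ≤ 2 →
      ‖∑ n ∈ Icc 1 ⌊3 * X⌋₊, LSeries.term a σ n * h (log n - log X)‖ ≤
        (3 ^ N * ∫ t : ℝ, (1 + |t|) ^ N * ‖g t‖) * K := by
    intro σ h1 h2
    let F : ℕ → ℝ → ℂ := fun n t =>
      LSeries.term a σ n * (g t * Complex.exp (Complex.I * t * (log n - log X : ℝ)))
    have hn : ∀ (t x : ℝ), ‖Complex.exp (Complex.I * t * x)‖ = 1 := fun t x => by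
      rw [mul_assoc, ← Complex.ofReal_mul, mul_comm, Complex.norm_exp_ofReal_mul_I]
    have hF : ∀ n, Integrable (F n) := fun n => by
      refine Integrable.const_mul (hg1.norm.mono' (Continuous.aestronglyMeasurable (by fun_prop))
        (Eventually.of_forall fun t => ?_)) _
      rw [norm_mul, hn, mul_one]
    have hsum : Summable fun n => ∫ t, ‖F n t‖ := by
      simp only [F, norm_mul, hn, mul_one, integral_const_mul]
      exact (summable_norm_iff.2 (hs σ (by simpa using h1))).mul_right _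
    have h3 := hasSum_integral_of_summable_integral_norm hF hsum
    simp only [F, integral_const_mul, ← hrep] at h3
    have h4 : HasSum (fun n => LSeries.term a σ n * h (log n - log X))
        (∑ n ∈ Icc 1 ⌊3 * X⌋₊, LSeries.term a σ n * h (log n - log X)) := by
      refine hasSum_sum_of_ne_finset_zero fun n hn => ?_
      rcases eq_or_ne n 0 with rfl | hn0
      · simp
      have h5 : 3 * X < n := Nat.lt_of_floor_lt (by rw [mem_Icc] at hn; omega)
      rw [hh, mul_zero]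
      rw [← log_div (by positivity) (by positivity), le_log_iff_exp_le (by positivity),
        le_div_iff₀ (by positivity)]
      nlinarith [exp_one_lt_d9]
    rw [h4.unique h3, mul_right_comm, ← integral_const_mul]
    refine norm_integral_le_of_norm_le ((hint N).const_mul _) (Eventually.of_forall fun t => ?_)
    have h5 : ∀ n, LSeries.term a σ n * (g t * Complex.exp (Complex.I * t * (log n - log X : ℝ)))
        = g t * Complex.exp (Complex.I * t * (-log X : ℝ)) *
          LSeries.term a (σ - Complex.I * t) n := fun n => by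
      rw [Four_term, sub_eq_add_neg, Complex.ofReal_add, mul_add, Complex.exp_add]
      ring
    simp only [h5]
    rw [tsum_mul_left, norm_mul, norm_mul, hn, mul_one]
    have h6 := hb (σ - Complex.I * t) (by simpa using h1) (by simpa using h2)
    have h7 : 1 + ‖(σ : ℂ) - Complex.I * t‖ ≤ 3 * (1 + |t|) := by
      have := norm_sub_le (σ : ℂ) (Complex.I * t)
      rw [norm_mul, Complex.norm_I, one_mul, Complex.norm_real, Complex.norm_real,
        norm_of_nonneg (by linarith), Real.norm_eq_abs] at this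
      linarith [abs_nonneg t]
    have h8 := mul_le_mul_of_nonneg_left (pow_le_pow_left₀ (by positivity) h7 N) hK
    rw [mul_pow] at h8
    calc ‖g t‖ * ‖LSeries a (σ - Complex.I * t)‖ ≤ ‖g t‖ * (K * (3 ^ N * (1 + |t|) ^ N)) :=
          mul_le_mul_of_nonneg_left (h6.trans h8) (norm_nonneg _)
      _ = _ := by ring
  have hlim : Tendsto (fun σ : ℝ => ‖∑ n ∈ Icc 1 ⌊3 * X⌋₊, LSeries.term a σ n * h (log n - log X)‖)
      (𝓝[>] 1) (𝓝 ‖TT h X a‖) := by
    refine Tendsto.norm (tendsto_finsetSum _ fun n hn => Tendsto.mul_const _ ?_)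
    have hn0 : n ≠ 0 := by rw [mem_Icc] at hn; omega
    simp only [LSeries.term_of_ne_zero hn0]
    have h2 : (n : ℂ) ≠ 0 := by exact_mod_cast hn0
    have h3 : Continuous fun σ : ℝ => a n / (n : ℂ) ^ (σ : ℂ) :=
      continuous_const.div (Complex.continuous_ofReal.const_cpow (Or.inl h2))
        fun σ => Complex.cpow_ne_zero_iff.2 (Or.inl h2)
    simpa using (h3.tendsto 1).mono_left nhdsWithin_le_nhds
  refine le_of_tendsto hlim ?_
  filter_upwards [Ioc_mem_nhdsGT (by norm_num : (1 : ℝ) < 2)] with σ hσ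
  exact key σ hσ.1 hσ.2

end Vale.Agent.P031
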