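import Vale.Agent.P031.D

namespace Vale.Agent.P031

open Finset Real Filter

theorem LU_period {r : ℕ} (hr : r ≠ 0) (χ : DirichletCharacter ℂ r) (h1 : χ ≠ 1) (M : ℕ) :
    ∑ n ∈ Ico M (M + r), χ n = 0 := by
  have : NeZero r := ⟨hr⟩
  induction M with
  | zero =>
    rw [← MulChar.sum_eq_zero_of_ne_one h1, zero_add, ← range_eq_Ico]
    refine sum_nbij' (fun n => (n : ZMod r)) ZMod.val (fun _ _ => mem_univ _)
      (fun a _ => mem_range.2 (ZMod.val_lt a)) (fun n hn => ZMod.val_cast_of_lt (mem_range.1 hn))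
      (fun a _ => ZMod.natCast_zmod_val a) (fun _ _ => rfl)
  | succ M ih =>
    have h2 := sum_Ico_succ_top (Nat.le_add_right M r) (fun n : ℕ => χ n)
    have h3 := sum_eq_sum_Ico_succ_bot (show M < M + r + 1 by omega) (fun n : ℕ => χ n)
    rw [h3, ih] at h2
    rw [show M + 1 + r = M + r + 1 by ring]
    simpa using h2

theorem LU_char_sum {r : ℕ} (hr : r ≠ 0) (χ : DirichletCharacter ℂ r) (h1 : χ ≠ 1) (M N : ℕ) :
    ‖∑ n ∈ Ico M N, χ n‖ ≤ r := by
  induction N using Nat.strong_induction_on with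
  | _ N ih =>
    rcases le_or_gt N (M + r) with h | h
    · refine (norm_sum_le _ _).trans ((sum_le_sum fun n _ => χ.norm_le_one _).trans ?_)
      rw [sum_const, Nat.card_Ico, nsmul_eq_mul, mul_one]
      exact_mod_cast (by omega : N - M ≤ r)
    · have h2 := LU_period hr χ h1 (N - r)
      rw [show N - r + r = N by omega] at h2
      rw [← sum_Ico_consecutive _ (show M ≤ N - r by omega) (Nat.sub_le N r), h2, add_zero]
      exact ih _ (by omega)

/-- summation by parts -/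
theorem LU_abel {E : Type*} [NormedRing E] (a φ : ℕ → E) {K : ℝ} {M : ℕ}
    (ha : ∀ N, ‖∑ n ∈ Ico M N, a n‖ ≤ K) {N : ℕ} (hN : M ≤ N) :
    ‖∑ n ∈ Ico M (N + 1), a n * φ n‖ ≤ K * (‖φ N‖ + ∑ n ∈ Ico M N, ‖φ n - φ (n + 1)‖) := by
  have hK : 0 ≤ K := (norm_nonneg _).trans (ha 0)
  have key : ‖∑ n ∈ Ico M (N + 1), a n * φ n - (∑ n ∈ Ico M (N + 1), a n) * φ N‖ ≤
      K * ∑ n ∈ Ico M N, ‖φ n - φ (n + 1)‖ := by
    induction N, hN using Nat.le_induction with
    | base => simp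
    | succ N hN ih =>
      rw [sum_Ico_succ_top (by omega : M ≤ N + 1), sum_Ico_succ_top (by omega : M ≤ N + 1) a,
        sum_Ico_succ_top hN fun n => ‖φ n - φ (n + 1)‖, mul_add]
      have e : ∀ S A : E, S + a (N + 1) * φ (N + 1) - (A + a (N + 1)) * φ (N + 1) =
          (S - A * φ N) + A * (φ N - φ (N + 1)) := fun S A => by noncomm_ring
      rw [e]
      refine (norm_add_le _ _).trans (add_le_add ih ((norm_mul_le _ _).trans ?_))
      exact mul_le_mul_of_nonneg_right (ha _) (norm_nonneg _)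
  have h2 : ‖(∑ n ∈ Ico M (N + 1), a n) * φ N‖ ≤ K * ‖φ N‖ :=
    (norm_mul_le _ _).trans (mul_le_mul_of_nonneg_right (ha _) (norm_nonneg _))
  have h3 := norm_le_norm_sub_add (∑ n ∈ Ico M (N + 1), a n * φ n)
    ((∑ n ∈ Ico M (N + 1), a n) * φ N)
  rw [mul_add]
  linarith

/-- summation by parts with antitone weights -/
theorem LU_abel_anti (a φ : ℕ → ℝ) {K : ℝ} {M : ℕ}
    (ha : ∀ N, |∑ n ∈ Ico M N, a n| ≤ K) (h0 : ∀ n, 0 ≤ φ n) (hφ : ∀ n, M ≤ n → φ (n + 1) ≤ φ n)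
    (N : ℕ) : |∑ n ∈ Ico M N, a n * φ n| ≤ K * φ M := by
  have hK : 0 ≤ K := (abs_nonneg _).trans (ha 0)
  rcases le_or_gt N M with h | h
  · rw [Ico_eq_empty_of_le h, sum_empty, abs_zero]; exact mul_nonneg hK (h0 M)
  obtain ⟨N, rfl⟩ : ∃ k, N = k + 1 := ⟨N - 1, by omega⟩
  have hN : M ≤ N := by omega
  refine (LU_abel a φ ha hN).trans_eq ?_
  congr 1
  rw [sum_congr rfl fun n hn => Real.norm_of_nonneg (sub_nonneg.2 (hφ n (mem_Ico.1 hn).1)),
    Real.norm_of_nonneg (h0 N)]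
  clear h
  induction N, hN using Nat.le_induction with
  | base => simp
  | succ N hN ih => rw [sum_Ico_succ_top hN]; linarith

end Vale.Agent.P031
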