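import Vale.Agent.P031.D
import Vale.Agent.P031.LU1

namespace Vale.Agent.P031

open Finset Real Filter Topology

theorem LU_absc {r : ℕ} (χ : DirichletCharacter ℂ r) (j : ℕ) :
    LSeries.abscissaOfAbsConv (fun n => χ n * ((log n : ℝ) : ℂ) ^ j) ≤ 1 := by
  have e : (fun n : ℕ => χ n * ((log n : ℝ) : ℂ) ^ j) = LSeries.logMul^[j] fun n => χ n := by
    induction j with
    | zero => simp
    | succ j ih =>
      rw [Function.iterate_succ_apply', ← ih]
      funext n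
      simp only [LSeries.logMul, Complex.natCast_log]
      ring
  rw [e, LSeries.absicssaOfAbsConv_logPowMul]
  exact_mod_cast LSeries.abscissaOfAbsConv_le_of_forall_lt_LSeriesSummable (x := 1) fun y hy =>
    DirichletCharacter.LSeriesSummable_of_one_lt_re χ (by simpa using hy)

theorem Lj_summable {r : ℕ} (χ : DirichletCharacter ℂ r) (j : ℕ) {s : ℂ} (hs : 1 < s.re) :
    LSeriesSummable (fun n => χ n * ((log n : ℝ) : ℂ) ^ j) s :=
  LSeriesSummable_of_abscissaOfAbsConv_lt_re ((LU_absc χ j).trans_lt (by exact_mod_cast hs))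

theorem LU_lim {a : ℕ → ℂ} {s : ℂ} (h : LSeriesSummable a s) {B : ℝ}
    (hB : ∀ᶠ N : ℕ in atTop, ‖∑ n ∈ Ico 1 (N + 1), a n * (n : ℂ) ^ (-s)‖ ≤ B) :
    ‖LSeries a s‖ ≤ B := by
  refine le_of_tendsto (h.hasSum.tendsto_sum_nat.comp (tendsto_add_atTop_nat 1)).norm
    (hB.mono fun N hN => le_of_eq_of_le ?_ hN)
  simp only [Function.comp]
  rw [range_eq_Ico, sum_eq_sum_Ico_succ_bot (Nat.add_one_pos N), LSeries.term_zero, zero_add,
    zero_add]
  congr 1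
  refine sum_congr rfl fun n hn => ?_
  rw [LSeries.term_of_ne_zero (by have := (mem_Ico.1 hn).1; omega), Complex.cpow_neg,
    div_eq_mul_inv]

theorem LU_tail {σ : ℝ} (hσ : 1 < σ) {M : ℕ} (hM : 1 ≤ M) (N : ℕ) :
    ∑ n ∈ Ico M N, (n : ℝ) ^ (-σ) ≤ (M : ℝ) ^ (1 - σ) * (1 + 1 / (σ - 1)) := by
  have hp : 0 < σ - 1 := by linarith
  have hM' : (1 : ℝ) ≤ M := by exact_mod_cast hM
  have key : ∀ N, M ≤ N → ∑ n ∈ Ico M (N + 1), (n : ℝ) ^ (-σ) ≤
      (M : ℝ) ^ (-σ) + ((M : ℝ) ^ (1 - σ) - (N : ℝ) ^ (1 - σ)) / (σ - 1) := by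
    intro N hN
    induction N, hN using Nat.le_induction with
    | base => simp
    | succ N hN ih =>
      rw [sum_Ico_succ_top (by omega)]
      have h0 : (0 : ℝ) < N := by exact_mod_cast (by omega : 0 < N)
      have h1 : (0 : ℝ) < ((N + 1 : ℕ) : ℝ) := by positivity
      have h2 : 1 + (σ - 1) / ((N + 1 : ℕ) : ℝ) ≤ ((N : ℝ) / ((N + 1 : ℕ) : ℝ)) ^ (1 - σ) := by
        rw [rpow_def_of_pos (by positivity)]
        refine le_trans ?_ (add_one_le_exp _)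
        have := log_le_sub_one_of_pos (show 0 < (N : ℝ) / ((N + 1 : ℕ) : ℝ) by positivity)
        have e : (σ - 1) / ((N + 1 : ℕ) : ℝ) = ((N : ℝ) / ((N + 1 : ℕ) : ℝ) - 1) * (1 - σ) := by
          field_simp; push_cast; ring
        nlinarith
      rw [div_rpow h0.le h1.le, le_div_iff₀ (by positivity)] at h2
      have h3 : ((N + 1 : ℕ) : ℝ) ^ (1 - σ) = ((N + 1 : ℕ) : ℝ) * ((N + 1 : ℕ) : ℝ) ^ (-σ) := by
        rw [sub_eq_add_neg, rpow_add h1, rpow_one]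
      have h4 : ((N + 1 : ℕ) : ℝ) ^ (-σ) ≤
          ((N : ℝ) ^ (1 - σ) - ((N + 1 : ℕ) : ℝ) ^ (1 - σ)) / (σ - 1) := by
        rw [le_div_iff₀ hp]
        have : (1 + (σ - 1) / ((N + 1 : ℕ) : ℝ)) * ((N + 1 : ℕ) : ℝ) ^ (1 - σ) =
            ((N + 1 : ℕ) : ℝ) ^ (1 - σ) + ((N + 1 : ℕ) : ℝ) ^ (-σ) * (σ - 1) := by
          rw [h3]; field_simp
        linarith
      rw [sub_div] at *
      linarith
  rcases le_or_gt N M with h | h
  · rw [Ico_eq_empty_of_le h, sum_empty]; positivity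
  obtain ⟨N, rfl⟩ : ∃ k, N = k + 1 := ⟨N - 1, by omega⟩
  refine (key N (by omega)).trans ?_
  have h1 : (M : ℝ) ^ (-σ) ≤ (M : ℝ) ^ (1 - σ) := rpow_le_rpow_of_exponent_le hM' (by linarith)
  have h2 : 0 ≤ (N : ℝ) ^ (1 - σ) / (σ - 1) := by positivity
  rw [sub_div, mul_add, mul_one, mul_one_div]
  linarith

theorem LU_norm_le {a : ℕ → ℂ} (ha : ∀ n, ‖a n‖ ≤ 1) {s : ℂ} (hs : 1 < s.re) :
    ‖LSeries a s‖ ≤ 1 + 1 / (s.re - 1) := by
  refine LU_lim (LSeriesSummable_of_bounded_of_one_lt_re (m := 1) (fun n _ => ha n) hs)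
    (Eventually.of_forall fun N => (norm_sum_le _ _).trans ?_)
  refine le_trans (sum_le_sum fun n hn => ?_) ((LU_tail hs le_rfl (N + 1)).trans_eq (by simp))
  rw [norm_mul, Complex.norm_natCast_cpow_of_pos (mem_Ico.1 hn).1, Complex.neg_re]
  exact mul_le_of_le_one_left (by positivity) (ha n)

theorem LU_log (j : ℕ) {η : ℝ} (hη : 0 < η) : ∃ K : ℝ, 1 ≤ K ∧ ∀ u : ℝ, 1 ≤ u →
    (1 + log u) ^ (j + 1) ≤ K * u ^ η := by
  refine ⟨(1 + (j + 1) / η) ^ (j + 1), one_le_pow₀ (le_add_of_nonneg_right (by positivity)),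
    fun u hu => ?_⟩
  have h1 := log_le_rpow_div (by linarith : 0 ≤ u) (by positivity : 0 < η / (j + 1))
  have h2 : 1 ≤ u ^ (η / (j + 1)) := one_le_rpow hu (by positivity)
  have h3 : 1 + log u ≤ (1 + (j + 1) / η) * u ^ (η / (j + 1)) := by
    rw [div_div_eq_mul_div, mul_div_assoc] at h1
    linarith
  refine (pow_le_pow_left₀ (by linarith [log_nonneg hu]) h3 _).trans_eq ?_
  rw [mul_pow, ← rpow_natCast (u ^ _), ← rpow_mul (by linarith)]
  congr 2
  push_cast; field_simp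

theorem LU_diff (j : ℕ) {η K : ℝ} (hη : η ≤ 1) (hK : ∀ u : ℝ, 1 ≤ u → (1 + log u) ^ (j + 1) ≤ K * u ^ η)
    {s : ℂ} (hs : 1 < s.re) {n : ℕ} (hn : 1 ≤ n) :
    ‖((log n : ℝ) : ℂ) ^ j * (n : ℂ) ^ (-s) -
      ((log (n + 1 : ℕ) : ℝ) : ℂ) ^ j * ((n + 1 : ℕ) : ℂ) ^ (-s)‖ ≤
      (j + ‖s‖) * K * (n : ℝ) ^ (-(2 - η)) := by
  have hn' : (1 : ℝ) ≤ n := by exact_mod_cast hn
  have hK0 : 0 ≤ K := by
    have := hK 1 le_rfl
    simp only [log_one, add_zero, one_pow, one_rpow, mul_one] at this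
    linarith
  have hd : ∀ u ∈ Set.Icc (n : ℝ) (n + 1), HasDerivWithinAt
      (fun u : ℝ => ((log u : ℝ) : ℂ) ^ j * (u : ℂ) ^ (-s))
      (j * ((log u : ℝ) : ℂ) ^ (j - 1) * ((u⁻¹ : ℝ) : ℂ) * (u : ℂ) ^ (-s) +
        ((log u : ℝ) : ℂ) ^ j * (-s * (u : ℂ) ^ (-s - 1) * 1)) (Set.Icc (n : ℝ) (n + 1)) u := by
    intro u hu
    have hu0 : 0 < u := by linarith [hu.1]
    exact (((hasDerivAt_log hu0.ne').ofReal_comp.pow j).mul
      ((hasDerivAt_id (u : ℂ)).cpow_const (c := -s)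
        (Complex.ofReal_mem_slitPlane.2 hu0)).comp_ofReal).hasDerivWithinAt
  have := norm_image_sub_le_of_norm_deriv_le_segment' (C := (j + ‖s‖) * K * (n : ℝ) ^ (-(2 - η)))
    hd (fun u hu => ?_) (n + 1) ⟨by linarith, le_rfl⟩
  · rw [norm_sub_rev]
    simpa using this
  have hu1 : 1 ≤ u := hn'.trans hu.1
  have hu0 : 0 < u := by linarith
  have hl := log_nonneg hu1
  have b : ∀ k, k ≤ j + 1 → log u ^ k ≤ K * u ^ η := fun k hk =>
    ((pow_le_pow_left₀ hl (by linarith) k).trans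
      (pow_le_pow_right₀ (by linarith) hk)).trans (hK u hu1)
  have c1 : u⁻¹ * u ^ (-s.re) ≤ u ^ (-2 : ℝ) := by
    rw [← rpow_neg_one, ← rpow_add hu0]
    exact rpow_le_rpow_of_exponent_le hu1 (by linarith)
  have c2 : u ^ (-s.re - 1) ≤ u ^ (-2 : ℝ) := rpow_le_rpow_of_exponent_le hu1 (by linarith)
  have c3 : u ^ η * u ^ (-2 : ℝ) ≤ (n : ℝ) ^ (-(2 - η)) := by
    rw [← rpow_add hu0, show η + -2 = -(2 - η) by ring]
    exact rpow_le_rpow_of_nonpos (by linarith) hu.1 (by linarith)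
  refine (norm_add_le _ _).trans ?_
  simp only [norm_mul, norm_pow, Complex.norm_real, Complex.norm_cpow_eq_rpow_re_of_pos hu0,
    Real.norm_of_nonneg hl, Real.norm_of_nonneg (inv_nonneg.2 hu0.le), Complex.norm_natCast,
    norm_neg, mul_one, Complex.neg_re, Complex.sub_re, Complex.one_re]
  calc j * log u ^ (j - 1) * u⁻¹ * u ^ (-s.re) + log u ^ j * (‖s‖ * u ^ (-s.re - 1))
      = j * (log u ^ (j - 1) * (u⁻¹ * u ^ (-s.re))) + ‖s‖ * (log u ^ j * u ^ (-s.re - 1)) := by ring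
    _ ≤ j * (K * u ^ η * u ^ (-2 : ℝ)) + ‖s‖ * (K * u ^ η * u ^ (-2 : ℝ)) := by
        gcongr
        exacts [b _ (by omega), b _ (by omega)]
    _ = (j + ‖s‖) * K * (u ^ η * u ^ (-2 : ℝ)) := by ring
    _ ≤ _ := by gcongr

theorem Lj_le (j : ℕ) {η : ℝ} (hη : 0 < η) : ∃ C : ℝ, 1 ≤ C ∧ ∀ (r : ℕ)
    (χ : DirichletCharacter ℂ r), r ≠ 0 → χ ≠ 1 → ∀ s : ℂ, 1 < s.re → s.re ≤ 2 →
    ‖Lj χ j s‖ ≤ C * (r : ℝ) ^ η * (1 + ‖s‖) := by
  obtain ⟨θ, h0, h1, h2⟩ : ∃ θ : ℝ, 0 < θ ∧ θ ≤ 1 / 2 ∧ θ ≤ η :=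
    ⟨min (1 / 2) η, by positivity, min_le_left _ _, min_le_right _ _⟩
  obtain ⟨K, hK1, hK⟩ := LU_log j h0
  refine ⟨K * (3 * j + 3), one_le_mul_of_one_le_of_one_le hK1 (by linarith [Nat.cast_nonneg (α := ℝ) j]),
    fun r χ hr hχ s hs _ => ?_⟩
  have hr1 : 1 ≤ r := Nat.pos_of_ne_zero hr
  have hr' : (1 : ℝ) ≤ r := by exact_mod_cast hr1
  have hφ : ∀ n : ℕ, 1 ≤ n → ‖((log n : ℝ) : ℂ) ^ j * (n : ℂ) ^ (-s)‖ ≤ log n ^ j * (n : ℝ)⁻¹ :=
    fun n hn => by
      have hn' : (1 : ℝ) ≤ n := by exact_mod_cast hn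
      rw [norm_mul, norm_pow, Complex.norm_real, Real.norm_of_nonneg (log_nonneg hn'),
        Complex.norm_natCast_cpow_of_pos hn, ← rpow_neg_one]
      exact mul_le_mul_of_nonneg_left (rpow_le_rpow_of_exponent_le hn' (by simpa using hs.le))
        (pow_nonneg (log_nonneg hn') _)
  refine LU_lim (Lj_summable χ j hs) ((eventually_ge_atTop r).mono fun N hN => ?_)
  have hN' : (r : ℝ) ≤ N := by exact_mod_cast hN
  rw [← sum_Ico_consecutive _ hr1 (show r ≤ N + 1 by omega)]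
  simp only [mul_assoc (χ _)]
  have a1 : ‖∑ n ∈ Ico 1 r, χ n * (((log n : ℝ) : ℂ) ^ j * (n : ℂ) ^ (-s))‖ ≤ K * (r : ℝ) ^ θ := by
    refine (norm_sum_le _ _).trans (le_trans ?_ (hK r hr'))
    have hl := log_nonneg hr'
    calc _ ≤ ∑ n ∈ Icc 1 r, (1 + log r) ^ j * (n : ℝ)⁻¹ := by
          refine (sum_le_sum fun n hn => ?_).trans
            (sum_le_sum_of_subset_of_nonneg Ico_subset_Icc_self fun _ _ _ => by positivity)
          have hn1 := mem_Ico.1 hn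
          have hn' : (1 : ℝ) ≤ n := by exact_mod_cast hn1.1
          rw [norm_mul]
          refine (mul_le_of_le_one_left (norm_nonneg _) (χ.norm_le_one _)).trans
            ((hφ n hn1.1).trans ?_)
          have := log_le_log (by linarith) (show (n : ℝ) ≤ r by exact_mod_cast hn1.2.le)
          gcongr
          linarith
      _ ≤ _ := by
          rw [← mul_sum, pow_succ]
          gcongr
          have := harmonic_le_one_add_log r
          rw [harmonic_eq_sum_Icc] at this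
          push_cast at this
          exact this
  have a2 := LU_abel (fun n => χ n) (fun n => ((log n : ℝ) : ℂ) ^ j * (n : ℂ) ^ (-s))
    (LU_char_sum hr χ hχ r) hN
  have a3 : ‖((log N : ℝ) : ℂ) ^ j * (N : ℂ) ^ (-s)‖ ≤ K * (r : ℝ) ^ (θ - 1) := by
    refine (hφ N (hr1.trans hN)).trans ?_
    have hl := log_nonneg (hr'.trans hN')
    calc log N ^ j * (N : ℝ)⁻¹ ≤ K * (N : ℝ) ^ θ * (N : ℝ)⁻¹ :=
          mul_le_mul_of_nonneg_right (((pow_le_pow_left₀ hl (by linarith) j).trans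
            (pow_le_pow_right₀ (by linarith) (Nat.le_succ j))).trans (hK N (hr'.trans hN')))
            (by positivity)
      _ = K * (N : ℝ) ^ (θ - 1) := by rw [rpow_sub_one (by linarith), mul_assoc, div_eq_mul_inv]
      _ ≤ _ := mul_le_mul_of_nonneg_left
          (rpow_le_rpow_of_nonpos (by linarith) hN' (by linarith)) (by linarith)
  have a4 := sum_le_sum (s := Ico r N) fun n hn =>
    LU_diff j (by linarith) hK hs (hr1.trans (mem_Ico.1 hn).1)
  rw [← mul_sum] at a4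
  have a5 := LU_tail (σ := 2 - θ) (by linarith) hr1 N
  have a6 : 1 + 1 / (2 - θ - 1) ≤ 3 := by
    have : 1 / (2 - θ - 1) ≤ 2 := by rw [div_le_iff₀ (by linarith)]; linarith
    linarith
  rw [show 1 - (2 - θ) = θ - 1 by ring] at a5
  have a7 := a4.trans (mul_le_mul_of_nonneg_left
    (a5.trans (mul_le_mul_of_nonneg_left a6 (by positivity))) (by positivity))
  have a8 := a2.trans (mul_le_mul_of_nonneg_left (add_le_add a3 a7) (by positivity))
  have e : (r : ℝ) * (r : ℝ) ^ (θ - 1) = (r : ℝ) ^ θ := by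
    rw [rpow_sub_one (by linarith)]; field_simp
  refine (norm_add_le _ _).trans ((add_le_add a1 a8).trans ?_)
  have hs1 : 1 ≤ ‖s‖ := hs.le.trans (Complex.re_le_norm s)
  calc K * (r : ℝ) ^ θ + r * (K * (r : ℝ) ^ (θ - 1) + (j + ‖s‖) * K * ((r : ℝ) ^ (θ - 1) * 3))
      = K * (2 + 3 * (j + ‖s‖)) * (r : ℝ) ^ θ := by rw [← e]; ring
    _ ≤ K * ((3 * j + 3) * (1 + ‖s‖)) * (r : ℝ) ^ η := by
        have : (0 : ℝ) ≤ j * ‖s‖ := by positivity
        gcongr
        linarith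
    _ = _ := by ring

theorem Lj_sub_le {r : ℕ} (χ : DirichletCharacter ℂ r) {s s' : ℂ} (hs : 1 < s.re)
    (hs' : 1 < s'.re) {U : ℝ} (hU : ∀ w ∈ segment ℝ s s', ‖Lj χ 1 w‖ ≤ U) :
    ‖Lj χ 0 s - Lj χ 0 s'‖ ≤ U * ‖s - s'‖ := by
  refine (convex_segment s s').norm_image_sub_le_of_norm_hasDerivWithin_le (f := Lj χ 0)
    (f' := fun w => -Lj χ 1 w) (fun w hw => HasDerivAt.hasDerivWithinAt ?_)
    (fun w hw => by rw [norm_neg]; exact hU w hw) (right_mem_segment _ _ _) (left_mem_segment _ _ _)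
  have hw' : 1 < w.re := (convex_halfSpace_re_gt 1).segment_subset hs hs' hw
  have := LSeries_hasDerivAt ((LU_absc χ 0).trans_lt (show (1 : EReal) < w.re by exact_mod_cast hw'))
  have e : LSeries.logMul (fun n : ℕ => χ n * ((log n : ℝ) : ℂ) ^ 0) =
      fun n : ℕ => χ n * ((log n : ℝ) : ℂ) ^ 1 := by
    funext n
    simp only [LSeries.logMul, Complex.natCast_log]
    ring
  rw [e] at this
  exact this

theorem LU_zero {r : ℕ} (χ : DirichletCharacter ℂ r) (s : ℂ) :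
    Lj χ 0 s = LSeries (fun n => χ n) s := by
  simp [Lj]

theorem LU_norm_le' {a : ℕ → ℂ} (ha : ∀ n, ‖a n‖ ≤ 1) {s : ℂ} (hs : 1 < s.re) (h2 : s.re ≤ 2) :
    ‖LSeries a s‖ ≤ 2 / (s.re - 1) := by
  refine (LU_norm_le ha hs).trans ?_
  rw [le_div_iff₀ (by linarith), add_mul, one_div_mul_cancel (by linarith)]
  linarith

theorem L0_trivial_ge {r : ℕ} (χ : DirichletCharacter ℂ r) {s : ℂ} (h1 : 1 < s.re)
    (h2 : s.re ≤ 2) : (s.re - 1) / 2 ≤ ‖Lj χ 0 s‖ := by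
  have a1 := congrArg norm (DirichletCharacter.LSeries.mul_mu_eq_one χ h1)
  rw [norm_mul, norm_one, ← LU_zero] at a1
  have a2 := LU_norm_le' (a := (fun n : ℕ => χ n) * fun n => (ArithmeticFunction.moebius n : ℂ))
    (fun n => by
      rw [Pi.mul_apply, norm_mul, Complex.norm_intCast]
      exact mul_le_one₀ (χ.norm_le_one _) (abs_nonneg _)
        (by exact_mod_cast ArithmeticFunction.abs_moebius_le_one)) h1 h2
  have a3 := a1.symm.trans_le (mul_le_mul_of_nonneg_left a2 (norm_nonneg _))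
  rw [← mul_div_assoc, le_div_iff₀ (by linarith)] at a3
  linarith

/-- the `3-4-1` lower bound -/
theorem l341 {r : ℕ} (hr : r ≠ 0) (χ : DirichletCharacter ℂ r) (t U : ℝ) (hU : 1 ≤ U)
    (h : ∀ σ : ℝ, 1 < σ → σ ≤ 2 → ‖Lj (χ ^ 2) 0 (σ + 2 * t * Complex.I)‖ ≤ U ∧
      ‖Lj χ 1 (σ + t * Complex.I)‖ ≤ U)
    (σ : ℝ) (h1 : 1 < σ) (h2 : σ ≤ 2) : 1 / (256 * U ^ 4) ≤ ‖Lj χ 0 (σ + t * Complex.I)‖ := by
  have hU0 : 0 < U := by linarith
  have key : ∀ τ : ℝ, 1 + 1 / (256 * U ^ 5) ≤ τ → τ ≤ 2 →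
      1 / (128 * U ^ 4) ≤ ‖Lj χ 0 (τ + t * Complex.I)‖ := by
    intro τ a1 a2
    have a0 : 0 < 1 / (256 * U ^ 5) := by positivity
    have b := DirichletCharacter.norm_LSeries_product_ge_one χ (x := τ - 1) (by linarith) t
    rw [← LU_zero χ, ← LU_zero (χ ^ 2), norm_mul, norm_mul, norm_pow, norm_pow,
      show (1 + ((τ - 1 : ℝ) : ℂ) + Complex.I * t) = τ + t * Complex.I by push_cast; ring,
      show (1 + ((τ - 1 : ℝ) : ℂ) + 2 * Complex.I * t) = τ + 2 * t * Complex.I by push_cast; ring,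
      show (1 + ((τ - 1 : ℝ) : ℂ)) = τ by push_cast; ring] at b
    have c1 := LU_norm_le' (a := fun n : ℕ => (1 : DirichletCharacter ℂ r) n) (s := τ)
      (fun n => DirichletCharacter.norm_le_one _ _) (by simp; linarith) (by simpa using a2)
    have c2 : 2 / ((τ : ℂ).re - 1) ≤ 512 * U ^ 5 := by
      rw [Complex.ofReal_re, div_le_iff₀ (by linarith)]
      have : 1 / (256 * U ^ 5) ≤ τ - 1 := by linarith
      rw [div_le_iff₀ (by positivity)] at this
      linarith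
    have c3 : 1 ≤ (512 * U ^ 5) ^ 3 * ‖Lj χ 0 (τ + t * Complex.I)‖ ^ 4 * U := by
      refine le_trans b ?_
      gcongr
      exacts [c1.trans c2, (h τ (by linarith) a2).1]
    refine le_of_pow_le_pow_left₀ (n := 4) (by norm_num) (norm_nonneg _) ?_
    rw [div_pow, div_le_iff₀ (by positivity)]
    have : 0 ≤ U ^ 16 * ‖Lj χ 0 (τ + t * Complex.I)‖ ^ 4 := by positivity
    linarith
  have a0 : 0 < 1 / (256 * U ^ 5) := by positivity
  have a1 : 1 / (256 * U ^ 5) ≤ 1 := by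
    rw [div_le_one (by positivity)]; linarith [one_le_pow₀ (n := 5) hU]
  rcases le_total (1 + 1 / (256 * U ^ 5)) σ with h3 | h3
  · refine le_trans ?_ (key σ h3 h2)
    gcongr; norm_num
  obtain ⟨τ, hτ⟩ : ∃ τ, τ = 1 + 1 / (256 * U ^ 5) := ⟨_, rfl⟩
  have b1 := key τ hτ.ge (by linarith)
  have b2 := Lj_sub_le χ (s := τ + t * Complex.I) (s' := σ + t * Complex.I) (U := U)
    (by simp; linarith) (by simpa using h1) (by
      rintro w ⟨a, b, ha, hb, hab, rfl⟩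
      have := (h (a * τ + b * σ) (by nlinarith) (by nlinarith)).2
      refine le_of_eq_of_le (congrArg (fun w => ‖Lj χ 1 w‖) ?_) this
      rw [show b = 1 - a by linarith]
      simp only [Complex.real_smul]
      push_cast; ring)
  rw [add_sub_add_right_eq_sub, ← Complex.ofReal_sub, Complex.norm_real,
    Real.norm_of_nonneg (by linarith)] at b2
  have b3 : U * (τ - σ) ≤ 1 / (256 * U ^ 4) := by
    calc U * (τ - σ) ≤ U * (1 / (256 * U ^ 5)) := by gcongr; linarith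
      _ = _ := by field_simp
  have b4 := norm_le_norm_sub_add (Lj χ 0 (τ + t * Complex.I)) (Lj χ 0 (σ + t * Complex.I))
  have b5 : 1 / (128 * U ^ 4) = 2 * (1 / (256 * U ^ 4)) := by field_simp; norm_num
  linarith

end Vale.Agent.P031
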