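import Vale.Agent.P031.SgB

namespace Vale.Agent.P031

open Finset Real Filter Topology

theorem SgC_re_mul {r : ℕ} {χ : DirichletCharacter ℂ r} (h2 : χ ^ 2 = 1) (a : ZMod r) (z : ℂ) :
    (χ a * z).re = (χ a).re * z.re := by
  rw [← SgB_real h2 a, Complex.re_ofReal_mul, Complex.ofReal_re]

theorem SgC_cm {r : ℕ} {χ : DirichletCharacter ℂ r} (h2 : χ ^ 2 = 1) (m n : ℕ) :
    (χ (m * n : ℕ)).re = (χ m).re * (χ n).re := by
  rw [Nat.cast_mul, map_mul, SgC_re_mul h2]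

theorem SgC_abs {r : ℕ} (χ : DirichletCharacter ℂ r) (n : ℕ) : |(χ n).re| ≤ 1 :=
  (Complex.abs_re_le_norm _).trans (χ.norm_le_one _)

theorem SgC_three {f g h : ℕ → ℝ} (hf : ∀ n, |f n| ≤ 1) (hg : ∀ n, |g n| ≤ 1) (hh : ∀ n, |h n| ≤ 1)
    {β a b c R : ℝ} (hβ : 99 / 100 ≤ β) (hR : 1 ≤ R)
    (ha : Asy (fun n => f n * (n : ℝ) ^ (-β)) a (2 * R) β)
    (hb : Asy (fun n => g n * (n : ℝ) ^ (-β)) b (2 * R) β)
    (hc : Asy (fun n => h n * (n : ℝ) ^ (-β)) c (2 * R) β) :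
    Asy (fun n => cv (cv f g) h n * (n : ℝ) ^ (-β)) (a * b * c) (1030301 * R ^ 3) (1 / 5) ∧
      Abs (fun n => cv (cv f g) h n * (n : ℝ) ^ (-β)) (1030301 * R ^ 3) (2 / 25) := by
  obtain ⟨h1, h2⟩ := hyperbola (ha.mono le_rfl hβ) (hb.mono le_rfl hβ) (abs_rpow hβ f hf)
    (abs_rpow hβ g hg) (by norm_num) (by norm_num)
  rw [funext (cv_rpow f g β)] at h1 h2
  obtain ⟨h3, h4⟩ := hyperbola h1 (hc.mono le_rfl (by linarith)) h2
    ((abs_rpow hβ h hh).mono le_rfl (by norm_num)) (by norm_num) (by norm_num)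
  rw [funext (cv_rpow (cv f g) h β)] at h3 h4
  have r2 : R ≤ R ^ 2 := le_self_pow₀ hR two_ne_zero
  have r3 : R ^ 2 ≤ R ^ 3 := pow_le_pow_right₀ hR (by norm_num)
  exact ⟨h3.mono (by nlinarith) (by norm_num), h4.mono (by linarith) (by norm_num)⟩

theorem SgC_prod {r s : ℕ} [NeZero r] [NeZero s] (χ : DirichletCharacter ℂ r)
    (χ₁ : DirichletCharacter ℂ s) (hp : χ.IsPrimitive) (h2 : χ ^ 2 = 1) (h2' : χ₁ ^ 2 = 1)
    (hrs : s < r) : ∃ ψ : DirichletCharacter ℂ (r * s), ψ ≠ 1 ∧ ψ ^ 2 = 1 ∧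
      ∀ n : ℕ, ψ n = χ₁ n * χ n := by
  have e1 : (χ₁.changeLevel (s.dvd_mul_left r)) ^ 2 = 1 := by rw [← map_pow, h2', map_one]
  have e2 : (χ.changeLevel (r.dvd_mul_right s)) ^ 2 = 1 := by rw [← map_pow, h2, map_one]
  refine ⟨χ₁.changeLevel (s.dvd_mul_left r) * χ.changeLevel (r.dvd_mul_right s), fun h => ?_,
    by rw [mul_pow, e1, e2, mul_one], fun n => ?_⟩
  · have h3 : χ.changeLevel (r.dvd_mul_right s) = χ₁.changeLevel (s.dvd_mul_left r) := by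
      rw [sq, ← h] at e1
      exact (mul_left_cancel e1).symm
    have h4 := χ.conductor_dvd_of_mem_conductorSet (χ.factorsThrough_gcd χ₁ h3)
    rw [hp] at h4
    exact absurd (Nat.le_of_dvd (NeZero.pos s) (h4.trans (Nat.gcd_dvd_right r s))) (by omega)
  · rw [← Int.cast_natCast (R := ZMod (r * s)), ← Int.cast_natCast (R := ZMod r),
      ← Int.cast_natCast (R := ZMod s)]
    by_cases hn : IsCoprime (n : ℤ) (r * s : ℕ)
    · rw [MulChar.mul_apply, DirichletCharacter.changeLevel_eq_cast_of_dvd' _ _ hn,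
        DirichletCharacter.changeLevel_eq_cast_of_dvd' _ _ hn]
    · rw [(DirichletCharacter.apply_eq_zero_iff _ _).2 hn, eq_comm, mul_eq_zero,
        DirichletCharacter.apply_eq_zero_iff, DirichletCharacter.apply_eq_zero_iff]
      rw [Nat.cast_mul, IsCoprime.mul_right_iff] at hn
      tauto

theorem SgC_small (N : ℕ) : ∃ c : ℝ, 0 < c ∧ ∀ r ≤ N, ∀ [NeZero r] (χ : DirichletCharacter ℂ r),
    χ ≠ 1 → c ≤ ‖DirichletCharacter.LFunction χ 1‖ := by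
  have : ∀ᶠ c in 𝓝[>] (0 : ℝ), ∀ r ∈ Set.Iic N, ∀ [NeZero r] (χ : DirichletCharacter ℂ r),
      χ ≠ 1 → c ≤ ‖DirichletCharacter.LFunction χ 1‖ :=
    (eventually_all_finite (Set.finite_Iic N)).2 fun r _ => eventually_all.2 fun _ =>
      eventually_all.2 fun χ => eventually_all.2 fun h => nhdsWithin_le_nhds (Iic_mem_nhds
        (norm_pos_iff.2 (DirichletCharacter.LFunction_apply_one_ne_zero h)))
  obtain ⟨c, h1, h2⟩ := (eventually_mem_nhdsWithin.and this).exists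
  exact ⟨c, h1, h2⟩

/-- Siegel's theorem -/
theorem siegel {ε : ℝ} (hε : 0 < ε) : ∃ c : ℝ, 0 < c ∧ ∀ (r : ℕ) [NeZero r]
    (χ : DirichletCharacter ℂ r), χ.IsPrimitive → χ ≠ 1 → χ ^ 2 = 1 →
    c * (r : ℝ) ^ (-ε) ≤ ‖DirichletCharacter.LFunction χ 1‖ := by
  obtain ⟨δ, hδ, hδ1, hδ2⟩ : ∃ δ : ℝ, 0 < δ ∧ δ ≤ 1 / 100 ∧ δ ≤ ε / 144 :=
    ⟨min (1 / 100) (ε / 144), by positivity, min_le_left _ _, min_le_right _ _⟩
  by_cases hz : ∃ (s : ℕ) (_ : NeZero s) (χ₁ : DirichletCharacter ℂ s) (β l : ℝ),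
      χ₁ ^ 2 = 1 ∧ 1 - δ ≤ β ∧ β < 1 ∧ 0 < l ∧ l ≤ 3 + log s ∧
      Asy (fun n => (χ₁ n).re * (n : ℝ) ^ (-β)) 0 (2 * s) β ∧
      Asy (fun n => (χ₁ n).re * (n : ℝ) ^ (-(1 : ℝ))) l (2 * s) 1
  · obtain ⟨s, _, χ₁, β, l, h2', hβ, hβ1, hl0, hl, a0, a1⟩ := hz
    obtain ⟨c, hc, hkey⟩ := siegel_key (β := β) (by linarith) hβ1
    obtain ⟨c', hc', hsm⟩ := SgC_small s
    refine ⟨min c' (c * 1030301 ^ (-(12 * (1 - β))) / (3 + 8 / ε) ^ 2), by positivity,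
      fun r _ χ hp h1 h2 => ?_⟩
    have hr : (1 : ℝ) ≤ r := by exact_mod_cast NeZero.pos r
    have hs : (1 : ℝ) ≤ s := by exact_mod_cast NeZero.pos s
    rcases le_or_gt r s with hrs | hrs
    · refine le_trans ?_ (hsm r hrs χ h1)
      exact (mul_le_of_le_one_right (by positivity)
        (rpow_le_one_of_one_le_of_nonpos hr (by linarith))).trans (min_le_left _ _)
    obtain ⟨ψ, g1, g2, g3⟩ := SgC_prod χ χ₁ hp h2 h2' hrs
    obtain ⟨ell, b1, -, b3, b4, -⟩ := exists_ell χ h1 h2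
    obtain ⟨el, d1, -, -, d4, d5⟩ := exists_ell ψ g1 g2
    have hrs' : (s : ℝ) ≤ r := by exact_mod_cast hrs.le
    have q1 : 2 * (s : ℝ) ≤ 2 * (r : ℝ) ^ 2 := by nlinarith
    have q2 : 2 * (r : ℝ) ≤ 2 * (r : ℝ) ^ 2 := by nlinarith
    have q3 : 2 * ((r * s : ℕ) : ℝ) ≤ 2 * (r : ℝ) ^ 2 := by push_cast; nlinarith
    have q4 : (1 : ℝ) ≤ (r : ℝ) ^ 2 := one_le_pow₀ hr
    obtain ⟨t1, t2⟩ := SgC_three (SgC_abs χ₁) (SgC_abs χ) (SgC_abs ψ) (by linarith) q4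
      (a0.mono q1 le_rfl) ((b1 β (by linarith)).mono q2 le_rfl) ((d1 β (by linarith)).mono q3 le_rfl)
    obtain ⟨t3, -⟩ := SgC_three (SgC_abs χ₁) (SgC_abs χ) (SgC_abs ψ) (by norm_num) q4
      (a1.mono q1 le_rfl) ((b1 1 one_pos).mono q2 le_rfl) ((d1 1 one_pos).mono q3 le_rfl)
    have q5 : (1 : ℝ) ≤ ((r : ℝ) ^ 2) ^ 3 := one_le_pow₀ q4
    have key := hkey _ _ _ _ (by linarith) (by simp) t1 t3 t2 (fun n => by
      have := cv_four_nonneg (fun n => (χ₁ n).re) (fun n => (χ n).re) (by simp) (by simp)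
        (SgC_cm h2') (SgC_cm h2) (SgC_abs χ₁) (SgC_abs χ) n
      simpa only [g3, SgC_re_mul h2'] using this) (by simp [cv])
    have hlog : 3 + 2 * log r ≤ (3 + 8 / ε) * (r : ℝ) ^ (ε / 4) := by
      have u1 := log_le_rpow_div (by linarith : (0 : ℝ) ≤ r) (by positivity : 0 < ε / 4)
      have u2 : 1 ≤ (r : ℝ) ^ (ε / 4) := one_le_rpow hr (by positivity)
      have : (r : ℝ) ^ (ε / 4) / (ε / 4) = 4 / ε * (r : ℝ) ^ (ε / 4) := by field_simp
      have : (3 + 8 / ε) * (r : ℝ) ^ (ε / 4) =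
        3 * (r : ℝ) ^ (ε / 4) + 2 * (4 / ε * (r : ℝ) ^ (ε / 4)) := by ring
      linarith
    have l1 : log s ≤ log r := log_le_log (by linarith) hrs'
    have l0 : 0 ≤ log r := log_nonneg hr
    rw [Nat.cast_mul, log_mul (by linarith) (by linarith)] at d5
    have w1 : l * el 1 ≤ (3 + 8 / ε) ^ 2 * (r : ℝ) ^ (ε / 2) := by
      calc l * el 1 ≤ ((3 + 8 / ε) * (r : ℝ) ^ (ε / 4)) * ((3 + 8 / ε) * (r : ℝ) ^ (ε / 4)) :=
            mul_le_mul (by linarith) (by linarith) d4.le (by positivity)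
        _ = (3 + 8 / ε) ^ 2 * ((r : ℝ) ^ (ε / 4) * (r : ℝ) ^ (ε / 4)) := by ring
        _ = _ := by rw [← rpow_add (by linarith)]; congr 2; ring
    have w2 : (r : ℝ) ^ (-ε) * (r : ℝ) ^ (ε / 2) ≤ (((r : ℝ) ^ 2) ^ 3) ^ (-(12 * (1 - β))) := by
      rw [← rpow_add (by linarith), ← pow_mul, ← rpow_natCast, ← rpow_mul (by linarith)]
      refine rpow_le_rpow_of_exponent_le hr ?_
      push_cast; linarith
    rw [mul_rpow (by norm_num) (by positivity)] at key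
    rw [← b3, Complex.norm_real, Real.norm_of_nonneg b4.le]
    refine (mul_le_mul_of_nonneg_right (min_le_right _ _) (by positivity)).trans ?_
    rw [div_mul_eq_mul_div, div_le_iff₀ (by positivity)]
    refine le_of_mul_le_mul_right ?_ (show 0 < (r : ℝ) ^ (ε / 2) by positivity)
    calc c * 1030301 ^ (-(12 * (1 - β))) * (r : ℝ) ^ (-ε) * (r : ℝ) ^ (ε / 2)
        = c * (1030301 ^ (-(12 * (1 - β))) * ((r : ℝ) ^ (-ε) * (r : ℝ) ^ (ε / 2))) := by ring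
      _ ≤ l * ell 1 * el 1 := le_trans (by gcongr) key
      _ = ell 1 * (l * el 1) := by ring
      _ ≤ ell 1 * ((3 + 8 / ε) ^ 2 * (r : ℝ) ^ (ε / 2)) := mul_le_mul_of_nonneg_left w1 b4.le
      _ = _ := by ring
  · obtain ⟨c, hc, hkey⟩ := siegel_key (β := 1 - δ) (by linarith) (by linarith)
    refine ⟨c * 202 ^ (-(12 * (1 - (1 - δ)))), by positivity, fun r _ χ _ h1 h2 => ?_⟩
    have hr : (1 : ℝ) ≤ r := by exact_mod_cast NeZero.pos r
    obtain ⟨ell, b1, b2, b3, b4, b5⟩ := exists_ell χ h1 h2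
    have h0 : 0 ≤ ell (1 - δ) := by
      by_contra hc
      obtain ⟨β, hβ, h0⟩ := intermediate_value_Ico (show 1 - δ ≤ 1 by linarith)
        (b2.mono fun x hx => lt_of_lt_of_le (show 0 < 1 - δ by linarith) hx.1)
        ⟨(not_le.1 hc).le, b4⟩
      refine hz ⟨r, ‹_›, χ, β, ell 1, h2, hβ.1, hβ.2, b4, b5, ?_, b1 1 one_pos⟩
      rw [← h0]
      exact b1 β (by linarith [hβ.1])
    have key := hkey (fun n => (χ n).re) (202 * r) _ _ (by linarith) h0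
      ((b1 _ (by linarith)).mono (by linarith) (by linarith))
      ((b1 _ one_pos).mono (by linarith) (by norm_num))
      ((abs_rpow (by linarith) _ (SgC_abs χ)).mono (by linarith) (by norm_num))
      (cv_one_nonneg _ (by simp) (SgC_cm h2) (SgC_abs χ)) (by simp)
    rw [← b3, Complex.norm_real, Real.norm_of_nonneg b4.le]
    refine le_trans ?_ key
    rw [mul_rpow (by norm_num) (by positivity), mul_assoc]
    gcongr
    linarith

end Vale.Agent.P031
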