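import Vale.Agent.P031.LU

namespace Vale.Agent.P031

open Finset Real Filter Topology

/-- `u^{-w}` times a quadratic polynomial in `log u` -/
noncomputable def ZEg (w a0 a1 a2 : ℂ) (u : ℝ) : ℂ :=
  Complex.exp (-w * (log u : ℝ)) * (a0 + a1 * (log u : ℝ) + a2 * ((log u : ℝ) : ℂ) ^ 2)

theorem ZE_deriv (w a0 a1 a2 : ℂ) {u : ℝ} (hu : 0 < u) :
    HasDerivAt (ZEg w a0 a1 a2)
      (ZEg (w + 1) (-w * a0 + a1) (-w * a1 + 2 * a2) (-w * a2) u) u := by
  have h1 : HasDerivAt (fun u : ℝ => ((log u : ℝ) : ℂ)) ((u⁻¹ : ℝ) : ℂ) u :=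
    (Real.hasDerivAt_log hu.ne').ofReal_comp
  have h2 := (h1.const_mul (-w)).cexp.mul
    (((h1.const_mul a1).const_add a0).add ((h1.pow 2).const_mul a2))
  have h3 : Complex.exp (-(w + 1) * (log u : ℝ)) =
      Complex.exp (-w * (log u : ℝ)) * ((u⁻¹ : ℝ) : ℂ) := by
    rw [neg_add, add_mul, Complex.exp_add, neg_one_mul, ← Complex.ofReal_neg,
      ← Complex.ofReal_exp, exp_neg, exp_log hu]
  refine (h2.congr_deriv ?_ : HasDerivAt (ZEg w a0 a1 a2) _ u)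
  simp only [ZEg, h3, Pi.add_apply, Pi.pow_apply]
  push_cast
  ring

theorem ZE_tendsto {w : ℂ} (hw : 0 < w.re) (a0 a1 a2 : ℂ) :
    Tendsto (ZEg w a0 a1 a2) atTop (𝓝 0) := by
  have h : ∀ i : ℕ, Tendsto (fun u : ℝ => Complex.exp (-w * (log u : ℝ)) * ((log u : ℝ) : ℂ) ^ i)
      atTop (𝓝 0) := fun i => by
    rw [tendsto_zero_iff_norm_tendsto_zero]
    refine ((tendsto_rpow_mul_exp_neg_mul_atTop_nhds_zero i _ hw).comp tendsto_log_atTop).congr' ?_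
    filter_upwards [eventually_ge_atTop 1] with u hu
    simp only [Function.comp, norm_mul, norm_pow, Complex.norm_exp, Complex.norm_real,
      norm_of_nonneg (log_nonneg hu), rpow_natCast]
    rw [mul_comm]
    simp
  have := (((h 0).const_mul a0).add ((h 1).const_mul a1)).add ((h 2).const_mul a2)
  simp only [mul_zero, add_zero] at this
  refine this.congr fun u => ?_
  simp only [ZEg]
  ring

theorem ZE_norm {w a0 a1 a2 : ℂ} {B : ℝ} (hw : 2 ≤ w.re) (h0 : ‖a0‖ ≤ B) (h1 : ‖a1‖ ≤ B)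
    (h2 : ‖a2‖ ≤ B) {n u : ℝ} (hn : 1 ≤ n) (hu : n ≤ u) :
    ‖ZEg w a0 a1 a2 u‖ ≤ 19 * B * n ^ (-(3 / 2) : ℝ) := by
  have hu1 : 1 ≤ u := hn.trans hu
  have hu0 : 0 < u := by linarith
  have hB : 0 ≤ B := (norm_nonneg _).trans h0
  have hL := log_nonneg hu1
  have e1 : ‖Complex.exp (-w * (log u : ℝ))‖ ≤ u ^ (-2 : ℝ) := by
    rw [Complex.norm_exp, rpow_def_of_pos hu0, exp_le_exp]
    simp only [neg_mul, Complex.neg_re, Complex.mul_re, Complex.ofReal_re, Complex.ofReal_im,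
      mul_zero, sub_zero]
    nlinarith
  have e2 : 1 ≤ u ^ (1 / 2 : ℝ) := one_le_rpow hu1 (by norm_num)
  have e3 : log u ≤ 2 * u ^ (1 / 2 : ℝ) := by
    have := log_le_rpow_div hu0.le (by norm_num : (0 : ℝ) < 1 / 2)
    linarith
  have e4 : log u ^ 2 ≤ 16 * u ^ (1 / 2 : ℝ) := by
    have h3 := log_le_rpow_div hu0.le (by norm_num : (0 : ℝ) < 1 / 4)
    have h4 := pow_le_pow_left₀ hL h3 2
    rw [div_pow, ← rpow_natCast, ← rpow_natCast, ← rpow_mul hu0.le] at h4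
    norm_num at h4 ⊢
    linarith
  have e5 : ‖a0 + a1 * (log u : ℝ) + a2 * ((log u : ℝ) : ℂ) ^ 2‖ ≤ 19 * B * u ^ (1 / 2 : ℝ) := by
    refine (norm_add₃_le).trans ?_
    rw [norm_mul, norm_mul, norm_pow, Complex.norm_real, norm_of_nonneg hL]
    have f1 := mul_le_mul h1 e3 hL hB
    have f2 := mul_le_mul h2 e4 (by positivity) hB
    nlinarith
  rw [ZEg, norm_mul]
  calc _ ≤ u ^ (-2 : ℝ) * (19 * B * u ^ (1 / 2 : ℝ)) :=
        mul_le_mul e1 e5 (norm_nonneg _) (by positivity)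
    _ = 19 * B * u ^ (-(3 / 2) : ℝ) := by
        rw [mul_left_comm, ← rpow_add hu0]; norm_num
    _ ≤ _ := mul_le_mul_of_nonneg_left
        (rpow_le_rpow_of_nonpos (by linarith) hu (by norm_num)) (by positivity)

theorem ZE_core {s a0 a1 a2 b0 b1 b2 L : ℂ} (hs : 1 < s.re) (e0 : -(s - 1) * a0 + a1 = b0)
    (e1 : -(s - 1) * a1 + 2 * a2 = b1) (e2 : -(s - 1) * a2 = b2) (h0 : ‖b0‖ ≤ 1) (h1 : ‖b1‖ ≤ 1)
    (h2 : ‖b2‖ ≤ 1) (hL : HasSum (fun n : ℕ => ZEg s b0 b1 b2 ((n + 1 : ℕ) : ℝ)) L) :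
    ‖L + a0‖ ≤ (38 * ∑' n : ℕ, ((n + 1 : ℕ) : ℝ) ^ (-(3 / 2) : ℝ)) * (1 + ‖s‖) := by
  have hsum : Summable fun n : ℕ => ((n + 1 : ℕ) : ℝ) ^ (-(3 / 2) : ℝ) :=
    (summable_nat_add_iff 1).2 (summable_nat_rpow.2 (by norm_num))
  have hΦ : ∀ u : ℝ, 0 < u → HasDerivAt (ZEg (s - 1) a0 a1 a2) (ZEg s b0 b1 b2 u) u := by
    intro u hu
    have := ZE_deriv (s - 1) a0 a1 a2 hu
    rwa [e0, e1, e2, sub_add_cancel] at this
  have hb : ∀ {b c : ℂ}, ‖b‖ ≤ 1 → ‖c‖ ≤ 2 → ‖-s * b + c‖ ≤ 2 * (1 + ‖s‖) := fun {b c} hb hc => by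
    refine (norm_add_le _ _).trans ?_
    rw [norm_mul, norm_neg]
    nlinarith [norm_nonneg s]
  have key : ∀ n : ℝ, 1 ≤ n → ‖ZEg s b0 b1 b2 n - (ZEg (s - 1) a0 a1 a2 (n + 1) -
      ZEg (s - 1) a0 a1 a2 n)‖ ≤ 38 * (1 + ‖s‖) * n ^ (-(3 / 2) : ℝ) := by
    intro n hn
    have k1 : ∀ u ∈ Set.Icc n (n + 1), ‖ZEg s b0 b1 b2 u - ZEg s b0 b1 b2 n‖ ≤
        38 * (1 + ‖s‖) * n ^ (-(3 / 2) : ℝ) := fun u hu => by
      have k2 := (convex_Icc n (n + 1)).norm_image_sub_le_of_norm_hasDerivWithin_le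
        (f := ZEg s b0 b1 b2) (C := 19 * (2 * (1 + ‖s‖)) * n ^ (-(3 / 2) : ℝ))
        (fun v hv => (ZE_deriv s b0 b1 b2 (by linarith [hv.1])).hasDerivWithinAt)
        (fun v hv => ZE_norm (by simp; linarith) (hb h0 (h1.trans one_le_two))
          (hb h1 (by rw [norm_mul]; simp; linarith))
          (by simpa using hb h2 (c := 0) (by simp)) hn hv.1)
        (Set.left_mem_Icc.2 (by linarith)) hu
      refine k2.trans ?_
      rw [norm_of_nonneg (by linarith [hu.1])]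
      have : 0 ≤ 38 * (1 + ‖s‖) * n ^ (-(3 / 2) : ℝ) := by positivity
      nlinarith [hu.2]
    have k3 := (convex_Icc n (n + 1)).norm_image_sub_le_of_norm_hasDerivWithin_le
      (f := fun u => ZEg (s - 1) a0 a1 a2 u - (u : ℂ) * ZEg s b0 b1 b2 n)
      (f' := fun u => ZEg s b0 b1 b2 u - ZEg s b0 b1 b2 n)
      (fun v hv => by
        have := (hΦ v (by linarith [hv.1])).sub
          ((hasDerivAt_id v).ofReal_comp.mul_const (ZEg s b0 b1 b2 n))
        rw [Complex.ofReal_one, one_mul] at this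
        exact this.hasDerivWithinAt) k1
      (Set.left_mem_Icc.2 (by linarith)) (Set.right_mem_Icc.2 (by linarith))
    rw [add_sub_cancel_left, norm_one, mul_one, norm_sub_rev] at k3
    refine le_of_eq_of_le (congrArg norm ?_) k3
    push_cast
    ring
  have t1 := hL.tendsto_sum_nat
  have t2 : Tendsto (fun M : ℕ => ZEg (s - 1) a0 a1 a2 ((M + 1 : ℕ) : ℝ)) atTop (𝓝 0) :=
    (ZE_tendsto (by simp; linarith) a0 a1 a2).comp
      (tendsto_natCast_atTop_atTop.comp (tendsto_add_atTop_nat 1))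
  have t3 := (t1.sub (t2.sub_const a0)).norm
  rw [zero_sub, sub_neg_eq_add] at t3
  refine le_of_tendsto' t3 fun M => ?_
  have t4 := sum_range_sub (fun n : ℕ => ZEg (s - 1) a0 a1 a2 ((n + 1 : ℕ) : ℝ)) M
  have t5 : ZEg (s - 1) a0 a1 a2 ((0 + 1 : ℕ) : ℝ) = a0 := by simp [ZEg]
  rw [t5] at t4
  rw [← t4, ← sum_sub_distrib]
  refine (norm_sum_le _ _).trans ?_
  calc _ ≤ ∑ n ∈ range M, 38 * (1 + ‖s‖) * ((n + 1 : ℕ) : ℝ) ^ (-(3 / 2) : ℝ) := by
        refine sum_le_sum fun n _ => ?_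
        have := key ((n + 1 : ℕ) : ℝ) (by exact_mod_cast Nat.le_add_left 1 n)
        rwa [← Nat.cast_add_one (n + 1)] at this
    _ ≤ _ := by
        rw [← mul_sum, mul_right_comm]
        exact mul_le_mul_of_nonneg_right (mul_le_mul_of_nonneg_left
          (hsum.sum_le_tsum _ fun n _ => by positivity) (by norm_num)) (by positivity)

/-- the Dirichlet series of `(log n)^j` minus its polar part -/
theorem zeta_j (j : ℕ) (hj : j ≤ 2) : ∃ C : ℝ, 1 ≤ C ∧ ∀ s : ℂ, 1 < s.re → s.re ≤ 2 →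
    ‖Lj (1 : DirichletCharacter ℂ 1) j s - (j.factorial : ℂ) / (s - 1) ^ (j + 1)‖
      ≤ C * (1 + ‖s‖) := by
  refine ⟨max 1 (38 * ∑' n : ℕ, ((n + 1 : ℕ) : ℝ) ^ (-(3 / 2) : ℝ)), le_max_left _ _,
    fun s hs _ => le_trans ?_ (mul_le_mul_of_nonneg_right (le_max_right _ _) (by positivity))⟩
  have h1 := (hasSum_nat_add_iff' 1).2 (Lj_summable (1 : DirichletCharacter ℂ 1) j hs).hasSum
  have h2 : ∀ n : ℕ, LSeries.term
      (fun n : ℕ => (1 : DirichletCharacter ℂ 1) n * ((log n : ℝ) : ℂ) ^ j) s (n + 1) =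
      Complex.exp (-s * (log ((n + 1 : ℕ) : ℝ) : ℝ)) * ((log ((n + 1 : ℕ) : ℝ) : ℝ) : ℂ) ^ j := by
    intro n
    have h3 : ((n + 1 : ℕ) : ℂ) ≠ 0 := by exact_mod_cast n.succ_ne_zero
    rw [LSeries.term_of_ne_zero n.succ_ne_zero, Complex.cpow_def_of_ne_zero h3,
      ← Complex.natCast_log, MulChar.one_apply (isUnit_of_subsingleton _), one_mul, neg_mul,
      Complex.exp_neg, mul_comm s, div_eq_inv_mul]
  simp only [h2, range_one, sum_singleton, LSeries.term_zero, sub_zero] at h1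
  change HasSum _ (Lj (1 : DirichletCharacter ℂ 1) j s) at h1
  have hw : s - 1 ≠ 0 := fun h => by
    rw [sub_eq_zero] at h; simp [h] at hs
  rw [sub_eq_add_neg]
  interval_cases j
  · refine ZE_core (a1 := 0) (a2 := 0) (b0 := 1) (b1 := 0) (b2 := 0) hs
      (by simp; field_simp; ring) (by simp) (by simp) (by simp) (by simp) (by simp) ?_
    simpa [ZEg] using h1
  · refine ZE_core (a1 := -1 / (s - 1)) (a2 := 0) (b0 := 0) (b1 := 1) (b2 := 0) hs
      (by simp; field_simp; ring) (by field_simp; ring) (by simp) (by simp) (by simp) (by simp) ?_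
    simpa [ZEg] using h1
  · refine ZE_core (a1 := -2 / (s - 1) ^ 2) (a2 := -1 / (s - 1)) (b0 := 0) (b1 := 0) (b2 := 1) hs
      (by simp; field_simp; ring) (by field_simp; ring) (by field_simp) (by simp) (by simp)
      (by simp) ?_
    simpa [ZEg] using h1

end Vale.Agent.P031
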