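import Vale.Agent.P031.Mer
import Vale.Agent.P031.LU
import Vale.Agent.P031.ZE
import Vale.Agent.P031.SgC

namespace Vale.Agent.P031

open Finset Real Filter Topology

theorem LL_main {r : ℕ} (hr : r ≠ 0) (χ : DirichletCharacter ℂ r) {s : ℂ} (hs : 1 < s.re)
    (hs2 : s.re ≤ 2) {A : ℝ} (hA : 1 ≤ A)
    (h2 : ∀ w : ℂ, 1 < w.re → w.re ≤ 2 → w.im = 2 * s.im → ‖Lj (χ ^ 2) 0 w‖ ≤ A * (1 + ‖w‖))
    (h1 : ∀ w : ℂ, 1 < w.re → w.re ≤ 2 → w.im = s.im → ‖Lj χ 1 w‖ ≤ A * (1 + ‖w‖)) :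
    1 / (20736 * A ^ 4) / (1 + ‖s‖) ^ 4 ≤ ‖Lj χ 0 s‖ := by
  have hn := norm_nonneg s
  have hb : ∀ w : ℂ, 1 < w.re → w.re ≤ 2 → |w.im| ≤ 2 * |s.im| →
      A * (1 + ‖w‖) ≤ 3 * A * (1 + ‖s‖) := fun w a b c => by
    have := Complex.norm_le_abs_re_add_abs_im w
    have := Complex.abs_im_le_norm s
    rw [abs_of_pos (by linarith : 0 < w.re)] at *
    nlinarith
  have := l341 hr χ s.im (3 * A * (1 + ‖s‖)) (by nlinarith) (fun σ a b =>
    ⟨(h2 _ (by simpa using a) (by simpa using b) (by simp)).trans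
        (hb _ (by simpa using a) (by simpa using b) (by simp [abs_mul])),
      (h1 _ (by simpa using a) (by simpa using b) (by simp)).trans
        (hb _ (by simpa using a) (by simpa using b) (by simp; linarith [abs_nonneg s.im]))⟩)
    s.re hs hs2
  rw [Complex.re_add_im] at this
  refine le_of_eq_of_le ?_ this
  field_simp
  norm_num

theorem LL_zeta (j : ℕ) (hj : j ≤ 1) : ∃ C : ℝ, 1 ≤ C ∧ ∀ τ : ℝ, 0 < τ → τ ≤ 1 → ∀ w : ℂ,
    1 < w.re → w.re ≤ 2 → τ ≤ |w.im| →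
    ‖Lj (1 : DirichletCharacter ℂ 1) j w‖ ≤ C / τ ^ (j + 1) * (1 + ‖w‖) := by
  obtain ⟨C, hC, h⟩ := zeta_j j (by omega)
  refine ⟨1 + C, by linarith, fun τ h0 h1 w a b c => ?_⟩
  have e : j.factorial = 1 := by interval_cases j <;> rfl
  have h2 := h w a b
  rw [e, Nat.cast_one] at h2
  have h3 : ‖1 / (w - 1) ^ (j + 1)‖ ≤ 1 / τ ^ (j + 1) := by
    rw [norm_div, norm_one, norm_pow]
    have : τ ≤ ‖w - 1‖ := c.trans (by simpa using Complex.abs_im_le_norm (w - 1))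
    gcongr
  have h4 := norm_le_norm_sub_add (Lj (1 : DirichletCharacter ℂ 1) j w) (1 / (w - 1) ^ (j + 1))
  have h5 : C ≤ C / τ ^ (j + 1) := le_div_self (by linarith) (by positivity) (pow_le_one₀ h0.le h1)
  have h6 := norm_nonneg w
  have h7 : 0 ≤ 1 / τ ^ (j + 1) * ‖w‖ := by positivity
  rw [add_div]
  nlinarith

theorem LL_one {r : ℕ} (hr : r ≠ 0) {w : ℂ} (hw : 1 < w.re) :
    ‖Lj (1 : DirichletCharacter ℂ r) 0 w‖ ≤ ‖Lj (1 : DirichletCharacter ℂ 1) 0 w‖ * 2 ^ om r := by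
  have : NeZero r := ⟨hr⟩
  have h := DirichletCharacter.LSeries_changeLevel (one_dvd r) (1 : DirichletCharacter ℂ 1) hw
  rw [map_one] at h
  rw [LU_zero, LU_zero, h, norm_mul, norm_prod, om, ← prod_const]
  refine mul_le_mul_of_nonneg_left (prod_le_prod (fun _ _ => norm_nonneg _) fun p hp => ?_)
    (norm_nonneg _)
  have hp0 := (Nat.prime_of_mem_primeFactors hp).pos
  refine (norm_sub_le _ _).trans ?_
  rw [norm_one, norm_mul, Complex.norm_natCast_cpow_of_pos hp0]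
  have : (p : ℝ) ^ (-w).re ≤ 1 :=
    rpow_le_one_of_one_le_of_nonpos (by exact_mod_cast hp0) (by simp; linarith)
  linarith [mul_le_one₀ (DirichletCharacter.norm_le_one (1 : DirichletCharacter ℂ 1) p)
    (by positivity) this]

theorem LL_near {r : ℕ} [NeZero r] (χ : DirichletCharacter ℂ r) (hχ : χ ≠ 1) {s : ℂ}
    (hs : 1 < s.re) (hs2 : s.re ≤ 2) {A τ : ℝ} (hA : 0 ≤ A) (h1 : τ ≤ 1) (a : s.re - 1 ≤ τ)
    (b : |s.im| ≤ τ) (h : ∀ w : ℂ, 1 < w.re → w.re ≤ 2 → ‖Lj χ 1 w‖ ≤ A * (1 + ‖w‖)) :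
    ‖DirichletCharacter.LFunction χ 1‖ ≤ ‖Lj χ 0 s‖ + 8 * A * τ := by
  have a2 : Tendsto (fun β : ℝ => ‖DirichletCharacter.LFunction χ β‖) (𝓝[>] 1)
      (𝓝 ‖DirichletCharacter.LFunction χ (1 : ℝ)‖) :=
    ((((DirichletCharacter.differentiable_LFunction hχ).continuous.comp
      Complex.continuous_ofReal).tendsto _).mono_left nhdsWithin_le_nhds).norm
  refine le_of_tendsto a2 (mem_of_superset (Ioo_mem_nhdsGT hs) fun β hβ => ?_)
  have hβ' : 1 < (β : ℂ).re := by simpa using hβ.1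
  have c := Lj_sub_le χ hβ' hs (U := 4 * A) fun w hw => by
    have d1 : 1 < w.re := (convex_halfSpace_re_gt 1).segment_subset hβ' hs hw
    have d2 : w.re ≤ 2 := (convex_halfSpace_re_le 2).segment_subset
      (show (β : ℂ).re ≤ 2 by simpa using hβ.2.le.trans hs2) hs2 hw
    have d3 : ‖w‖ ≤ 3 := by
      refine mem_closedBall_zero_iff.1 ((convex_closedBall (0 : ℂ) 3).segment_subset
        (mem_closedBall_zero_iff.2 ?_) (mem_closedBall_zero_iff.2 ?_) hw)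
      · rw [Complex.norm_real, Real.norm_of_nonneg (by linarith [hβ.1])]; linarith [hβ.2]
      · have := Complex.norm_le_abs_re_add_abs_im s
        rw [abs_of_pos (by linarith : 0 < s.re)] at this
        linarith
    refine (h w d1 d2).trans ?_
    nlinarith
  have d : ‖(β : ℂ) - s‖ ≤ 2 * τ := by
    have := Complex.norm_le_abs_re_add_abs_im ((β : ℂ) - s)
    rw [Complex.sub_re, Complex.sub_im, Complex.ofReal_re, Complex.ofReal_im, zero_sub, abs_neg,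
      abs_of_neg (by linarith [hβ.2])] at this
    linarith [hβ.1]
  have e := norm_le_norm_sub_add (Lj χ 0 β) (Lj χ 0 s)
  show ‖DirichletCharacter.LFunction χ β‖ ≤ _
  rw [DirichletCharacter.LFunction_eq_LSeries χ hβ', ← LU_zero]
  nlinarith

theorem L0_ge {η : ℝ} (hη : 0 < η) : ∃ c : ℝ, 0 < c ∧ ∀ (r : ℕ) (χ : DirichletCharacter ℂ r),
    r ≠ 0 → χ.IsPrimitive → χ ≠ 1 → ∀ s : ℂ, 1 < s.re → s.re ≤ 2 →
    c * (r : ℝ) ^ (-η) / (1 + ‖s‖) ^ 4 ≤ ‖Lj χ 0 s‖ := by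
  have hθ : 0 < η / 12 := by positivity
  obtain ⟨C0, hC0, h0⟩ := Lj_le 0 hθ
  obtain ⟨C1, hC1, h1⟩ := Lj_le 1 hθ
  obtain ⟨C2, h2⟩ := two_pow_om_le hθ
  obtain ⟨C3, hC3, h3⟩ := LL_zeta 0 zero_le_one
  obtain ⟨c, hc, hS⟩ := siegel hθ
  have hC2 : 1 ≤ C2 := by simpa [om] using h2 1 one_ne_zero
  obtain ⟨b, hb, hb1, hb2⟩ : ∃ b : ℝ, 0 < b ∧ b ≤ 1 ∧ b ≤ c / (16 * C1) :=
    ⟨min 1 (c / (16 * C1)), by positivity, min_le_left _ _, min_le_right _ _⟩
  obtain ⟨K, hK0, hK1, hK2⟩ : ∃ K : ℝ, C0 ≤ K ∧ C1 ≤ K ∧ C3 * C2 / b ≤ K :=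
    ⟨max C0 (max C1 (C3 * C2 / b)), le_max_left _ _, le_max_of_le_right (le_max_left _ _),
      le_max_of_le_right (le_max_right _ _)⟩
  have hK : 1 ≤ K := hC0.trans hK0
  refine ⟨min (1 / (20736 * K ^ 4)) (min (c / 2) (b / 2)), by positivity,
    fun r χ hr hp hχ s hs hs2 => ?_⟩
  have : NeZero r := ⟨hr⟩
  have hr' : (1 : ℝ) ≤ r := by exact_mod_cast Nat.pos_of_ne_zero hr
  obtain ⟨x, hx⟩ : ∃ x, x = (r : ℝ) ^ (η / 12) := ⟨_, rfl⟩
  have hx1 : 1 ≤ x := hx ▸ one_le_rpow hr' hθ.le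
  have hx0 : 0 < x := by linarith
  have e1 : (r : ℝ) ^ (-η) = 1 / x ^ 12 := by
    rw [hx, ← rpow_natCast, ← rpow_mul (by linarith), rpow_neg (by linarith), one_div]
    congr 2; push_cast; ring
  have e2 : (r : ℝ) ^ (-(η / 12)) = 1 / x := by rw [hx, rpow_neg (by linarith), one_div]
  have hx3 : x ≤ x ^ 3 := le_self_pow₀ hx1 (by norm_num)
  have g1 : ∀ w : ℂ, 1 < w.re → w.re ≤ 2 → ‖Lj χ 1 w‖ ≤ C1 * x * (1 + ‖w‖) := hx ▸ h1 r χ hr hχ
  have main : (∀ w : ℂ, 1 < w.re → w.re ≤ 2 → w.im = 2 * s.im →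
      ‖Lj (χ ^ 2) 0 w‖ ≤ K * x ^ 3 * (1 + ‖w‖)) →
      min (1 / (20736 * K ^ 4)) (min (c / 2) (b / 2)) * (r : ℝ) ^ (-η) / (1 + ‖s‖) ^ 4 ≤
        ‖Lj χ 0 s‖ := fun h => by
    refine le_trans ?_ (LL_main hr χ hs hs2 (A := K * x ^ 3)
      (one_le_mul_of_one_le_of_one_le hK (one_le_pow₀ hx1)) h
      fun w a b _ => (g1 w a b).trans (by gcongr))
    rw [e1]
    refine div_le_div_of_nonneg_right ((mul_le_mul_of_nonneg_right (min_le_left _ _)
      (by positivity)).trans_eq ?_) (by positivity)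
    field_simp
  have fin : ∀ y : ℝ, min (c / 2) (b / 2) ≤ y → y / x ^ 2 ≤ ‖Lj χ 0 s‖ →
      min (1 / (20736 * K ^ 4)) (min (c / 2) (b / 2)) * (r : ℝ) ^ (-η) / (1 + ‖s‖) ^ 4 ≤
        ‖Lj χ 0 s‖ := fun y hy h => by
    refine (div_le_self (by positivity) (one_le_pow₀ (by linarith [norm_nonneg s]))).trans
      (le_trans ?_ h)
    rw [e1, mul_one_div]
    exact div_le_div₀ (le_trans (by positivity) hy) ((min_le_right _ _).trans hy) (by positivity)
      (pow_le_pow_right₀ hx1 (by norm_num))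
  by_cases hq : χ ^ 2 = 1
  swap
  · refine main fun w a b _ => (h0 r _ hr hq w a b).trans ?_
    rw [← hx]
    gcongr
  have hτ : b / x ^ 2 ≤ 1 := (div_le_self hb.le (one_le_pow₀ hx1)).trans hb1
  rcases le_total (b / x ^ 2) |s.im| with ht | ht
  · refine main fun w a a' a'' => ?_
    rw [hq]
    refine (LL_one hr a).trans ?_
    have u1 := h3 (b / x ^ 2) (by positivity) hτ w a a' (by
      rw [a'', abs_mul, abs_two]; linarith [abs_nonneg s.im])
    have u2 := h2 r hr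
    rw [← hx] at u2
    calc _ ≤ C3 / (b / x ^ 2) ^ (0 + 1) * (1 + ‖w‖) * (C2 * x) := by gcongr
      _ = C3 * C2 / b * x ^ 3 * (1 + ‖w‖) := by rw [zero_add, pow_one]; field_simp
      _ ≤ _ := by gcongr
  rcases le_total (s.re - 1) (b / x ^ 2) with hσ | hσ
  · refine fin (c / 2) (min_le_left _ _) ?_
    have u1 := LL_near χ hχ hs hs2 (by positivity) hτ hσ ht g1
    have u2 := hS r χ hp hχ hq
    rw [e2] at u2
    have u3 : 8 * (C1 * x) * (b / x ^ 2) ≤ c / 2 * (1 / x) := by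
      calc 8 * (C1 * x) * (b / x ^ 2) ≤ 8 * (C1 * x) * (c / (16 * C1) / x ^ 2) := by gcongr
        _ = _ := by field_simp; norm_num
    have u4 : c / 2 / x ^ 2 ≤ c / 2 * (1 / x) := by
      rw [mul_one_div]
      exact div_le_div_of_nonneg_left (by positivity) hx0 (le_self_pow₀ hx1 two_ne_zero)
    linarith
  · refine fin (b / 2) (min_le_right _ _) (le_trans ?_ (L0_trivial_ge χ hs hs2))
    rw [div_right_comm]
    linarith

theorem Z_ge : ∃ c : ℝ, 0 < c ∧ ∀ s : ℂ, 1 < s.re → s.re ≤ 2 →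
    c / (1 + ‖s‖) ^ 4 ≤ ‖(s - 1) * Lj (1 : DirichletCharacter ℂ 1) 0 s‖ := by
  obtain ⟨C, hC, h⟩ := zeta_j 0 (by norm_num)
  obtain ⟨C0, hC0, h0⟩ := LL_zeta 0 zero_le_one
  obtain ⟨C1, hC1, h1⟩ := LL_zeta 1 le_rfl
  obtain ⟨τ, hτ⟩ : ∃ τ, τ = 1 / (16 * C) := ⟨_, rfl⟩
  have t0 : 0 < τ := by rw [hτ]; positivity
  have t1 : τ ≤ 1 := by rw [hτ, div_le_one (by positivity)]; linarith
  obtain ⟨K, hK0, hK1⟩ : ∃ K : ℝ, C0 / τ ^ (0 + 1) ≤ K ∧ C1 / τ ^ (1 + 1) ≤ K :=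
    ⟨_, le_max_left _ _, le_max_right _ _⟩
  have hK : 1 ≤ K :=
    (hC0.trans (le_div_self (by linarith) (by positivity) (pow_le_one₀ t0.le t1))).trans hK0
  refine ⟨min (τ * (1 / (20736 * K ^ 4))) (τ * (τ / 2)), by positivity, fun s hs hs2 => ?_⟩
  have fin : ∀ y : ℝ, τ * (τ / 2) ≤ y → min (τ * (1 / (20736 * K ^ 4))) (τ * (τ / 2)) /
      (1 + ‖s‖) ^ 4 ≤ y := fun y hy =>
    (div_le_self (by positivity) (one_le_pow₀ (by linarith [norm_nonneg s]))).trans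
      ((min_le_right _ _).trans hy)
  rcases le_total τ |s.im| with ht | ht
  · have u := LL_main one_ne_zero 1 hs hs2 hK (fun w a b c => by
        rw [one_pow]
        refine (h0 τ t0 t1 w a b ?_).trans (by gcongr)
        rw [c, abs_mul, abs_two]; linarith [abs_nonneg s.im])
      fun w a b c => (h1 τ t0 t1 w a b (c ▸ ht)).trans (by gcongr)
    have : τ ≤ ‖s - 1‖ := ht.trans (by simpa using Complex.abs_im_le_norm (s - 1))
    rw [norm_mul]
    refine (div_le_div_of_nonneg_right (min_le_left _ _) (by positivity)).trans ?_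
    rw [mul_div_assoc]
    exact mul_le_mul this u (by positivity) (norm_nonneg _)
  refine fin _ ?_
  rcases le_total (s.re - 1) τ with hσ | hσ
  · have hs1 : s - 1 ≠ 0 := fun e => by
      have := congrArg Complex.re e
      simp at this; linarith
    have u1 := mul_le_mul_of_nonneg_left (h s hs hs2) (norm_nonneg (s - 1))
    rw [← norm_mul, mul_sub, zero_add, pow_one, Nat.factorial_zero, Nat.cast_one,
      mul_one_div_cancel hs1, norm_sub_rev] at u1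
    have u2 : ‖s - 1‖ ≤ 2 * τ := by
      have := Complex.norm_le_abs_re_add_abs_im (s - 1)
      rw [Complex.sub_re, Complex.sub_im, Complex.one_re, Complex.one_im, sub_zero,
        abs_of_pos (by linarith)] at this
      linarith
    have u3 : ‖s‖ ≤ 3 := by
      have := Complex.norm_le_abs_re_add_abs_im s
      rw [abs_of_pos (by linarith : 0 < s.re)] at this
      linarith
    have u4 : ‖s - 1‖ * (C * (1 + ‖s‖)) ≤ 1 / 2 := by
      calc ‖s - 1‖ * (C * (1 + ‖s‖)) ≤ 2 * τ * (C * (1 + 3)) := by gcongr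
        _ = _ := by rw [hτ]; field_simp; norm_num
    have u5 := norm_le_norm_sub_add 1 ((s - 1) * Lj (1 : DirichletCharacter ℂ 1) 0 s)
    rw [norm_one] at u5
    nlinarith
  · rw [norm_mul]
    refine mul_le_mul (hσ.trans ?_) (le_trans (by linarith) (L0_trivial_ge _ hs hs2))
      (by positivity) (norm_nonneg _)
    simpa using Complex.re_le_norm (s - 1)

end Vale.Agent.P031
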