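import Vale.Agent.P031.Fk
import Vale.Agent.P031.Four

namespace Vale.Agent.P031

open Finset Real Filter

theorem swal_pow (h : SchwartzMap ℝ ℂ) (j : ℕ) :
    ∃ h' : SchwartzMap ℝ ℂ, ∀ v : ℝ, h' v = (v : ℂ) ^ j * h v := by
  induction j with
  | zero => exact ⟨h, fun v => by simp⟩
  | succ j ih =>
    obtain ⟨h1, e1⟩ := ih
    obtain ⟨h2, e2⟩ := exists_mul_id h1
    exact ⟨h2, fun v => by rw [e2, e1]; ring⟩

theorem swal_boot {ι : Type} (a : ι → ℕ → ℂ) (P : ℝ → ι → Prop)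
    (H : ∀ (k : ℕ) (h : SchwartzMap ℝ ℂ), (∀ v : ℝ, 1 ≤ v → h v = 0) → ∃ C : ℝ, ∀ᶠ X : ℝ in atTop,
      ∀ i, P X i → ‖TT h X (fun n => a i n * ((log n : ℝ) : ℂ) ^ k)‖ ≤ C * log X) (B : ℕ) :
    ∀ h : SchwartzMap ℝ ℂ, (∀ v : ℝ, 1 ≤ v → h v = 0) → ∃ C : ℝ, ∀ᶠ X : ℝ in atTop,
      ∀ i, P X i → ‖TT h X (a i)‖ * log X ^ B ≤ C * log X := by
  induction B with
  | zero => intro h hh; simpa using H 0 h hh
  | succ B ih =>
    intro h hh
    obtain ⟨C0, h0⟩ := H (B + 1) h hh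
    have hj : ∀ j : ℕ, ∃ C : ℝ, ∀ᶠ X : ℝ in atTop, ∀ i, P X i →
        ‖TT (fun v => (v : ℂ) ^ j * h v) X (a i)‖ * log X ^ B ≤ C * log X := fun j => by
      obtain ⟨h', e⟩ := swal_pow h j
      have : (fun v : ℝ => (v : ℂ) ^ j * h v) = h' := funext fun v => (e v).symm
      rw [this]
      exact ih h' fun v hv => by rw [e, hh v hv, mul_zero]
    choose C hC using hj
    refine ⟨C0 + ∑ j ∈ range (B + 1), ((B + 1).choose (j + 1) : ℝ) * C (j + 1), ?_⟩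
    filter_upwards [h0, (eventually_all_finset (range (B + 1))).2 fun j _ => hC (j + 1),
      tendsto_log_atTop.eventually_ge_atTop 1] with X h0 h1 hX i hi
    have e := TT_log_pow h X (a i) (B + 1)
    rw [sum_range_succ'] at e
    simp only [Nat.choose_zero_right, Nat.cast_one, one_mul, pow_zero, Nat.sub_zero] at e
    have e2 : ‖TT h X (a i)‖ * log X ^ (B + 1) = ‖((log X : ℝ) : ℂ) ^ (B + 1) * TT h X (a i)‖ := by
      rw [norm_mul, norm_pow, Complex.norm_real, Real.norm_of_nonneg (by linarith), mul_comm]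
    rw [e2, ← sub_eq_iff_eq_add'.2 e, add_mul, sum_mul]
    refine (norm_sub_le _ _).trans (add_le_add (h0 i hi) ((norm_sum_le _ _).trans
      (sum_le_sum fun j hj => ?_)))
    rw [norm_mul, norm_mul, norm_pow, Complex.norm_real, Real.norm_of_nonneg (by linarith),
      Complex.norm_natCast, mul_assoc, mul_assoc]
    refine mul_le_mul_of_nonneg_left (le_trans ?_ (h1 j hj i hi)) (Nat.cast_nonneg _)
    rw [mul_comm]
    exact mul_le_mul_of_nonneg_left (pow_le_pow_right₀ hX (by omega)) (norm_nonneg _)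

/-- smoothed Siegel-Walfisz theorem -/
theorem siegel_walfisz {ε : ℝ} {W : ℝ → ℝ} (hW : Cut ε W) (A B : ℕ) : ∀ᶠ X : ℝ in atTop,
    ∀ (r : ℕ) (χ : DirichletCharacter ℂ r), r ≠ 0 → (r : ℝ) ≤ log X ^ A → χ.IsPrimitive → χ ≠ 1 →
    ‖SW W X (lamChi χ)‖ ≤ X / log X ^ B := by
  obtain ⟨h, -, hh, hSW⟩ := hW.sch'
  obtain ⟨C, hC⟩ := swal_boot (ι := Σ r, DirichletCharacter ℂ r) (fun i => lamChi i.2)
    (fun X i => i.1 ≠ 0 ∧ (i.1 : ℝ) ≤ log X ^ A ∧ i.2.IsPrimitive ∧ i.2 ≠ 1)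
    (fun k h hh => by
      obtain ⟨C, N, hF⟩ := Fk_le k (η := 1 / (A + 1)) (by positivity)
      obtain ⟨C', hC', hT⟩ := TT_le h hh N
      refine ⟨C' * |C|, ?_⟩
      filter_upwards [eventually_ge_atTop 1, tendsto_log_atTop.eventually_ge_atTop 1]
        with X hX hL i hi
      refine (hT _ (C * (i.1 : ℝ) ^ (1 / (A + 1) : ℝ)) X hX (fun s hs => Fk_summable _ k hs)
        fun s h1 h2 => hF _ _ hi.1 hi.2.2.1 hi.2.2.2 s h1 h2).trans ?_
      rw [mul_assoc]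
      refine mul_le_mul_of_nonneg_left (mul_le_mul (le_abs_self _) ?_ (by positivity)
        (abs_nonneg _)) hC'
      have h1 : (i.1 : ℝ) ≤ log X ^ (A + 1) :=
        hi.2.1.trans (pow_le_pow_right₀ hL (Nat.le_succ _))
      refine (Real.rpow_le_rpow (Nat.cast_nonneg _) h1 (by positivity)).trans_eq ?_
      rw [← Real.rpow_natCast, ← Real.rpow_mul (by linarith)]
      push_cast
      rw [mul_one_div_cancel (by positivity), Real.rpow_one]) (B + 2) h hh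
  filter_upwards [hC, eventually_gt_atTop 0, tendsto_log_atTop.eventually_ge_atTop 1,
    tendsto_log_atTop.eventually_ge_atTop C] with X hC hX hL hLC r χ h1 h2 h3 h4
  have h5 := hC ⟨r, χ⟩ ⟨h1, h2, h3, h4⟩
  have hL0 : 0 < log X := by linarith
  rw [hSW X _ hX, norm_mul, Complex.norm_real, Real.norm_of_nonneg hX.le, le_div_iff₀ (by positivity),
    mul_assoc]
  refine mul_le_of_le_one_right hX.le (le_of_mul_le_mul_right ?_ (mul_pos hL0 hL0))
  calc _ = ‖TT h X (lamChi χ)‖ * log X ^ (B + 2) := by ring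
    _ ≤ C * log X := h5
    _ ≤ _ := by rw [one_mul]; exact mul_le_mul_of_nonneg_right hLC hL0.le

theorem swal_W {ε : ℝ} {W : ℝ → ℝ} (hW : Cut ε W) {X : ℝ} (hX : 0 < X) :
    X - 1 ≤ ∑ n ∈ Icc 1 ⌊3 * X⌋₊, W (n / X) ∧ ∑ n ∈ Icc 1 ⌊3 * X⌋₊, W (n / X) ≤ (1 + ε) * X := by
  have hε : 0 ≤ ε := by
    by_contra hc
    have := hW.zero 1 (by linarith)
    rw [hW.one 1 le_rfl] at this
    exact one_ne_zero this
  constructor
  · calc X - 1 ≤ ∑ n ∈ Icc 1 ⌊X⌋₊, W (n / X) := by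
          rw [sum_congr rfl (g := fun _ => (1 : ℝ)) fun n hn => hW.one _ ((div_le_one hX).2
            ((Nat.le_floor_iff hX.le).1 (mem_Icc.1 hn).2))]
          simpa using (Nat.sub_one_lt_floor X).le
      _ ≤ _ := sum_le_sum_of_subset_of_nonneg
          (Icc_subset_Icc_right (Nat.floor_mono (by linarith))) fun _ _ _ => hW.nonneg _
  · calc _ = ∑ n ∈ Icc 1 ⌊(1 + ε) * X⌋₊, W (n / X) := by
          refine (sum_subset (Icc_subset_Icc_right (Nat.floor_mono (by nlinarith [hW.le_one])))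
            fun n h1 h2 => hW.zero _ ?_).symm
          rw [le_div_iff₀ hX]
          exact (Nat.lt_of_floor_lt (by
            rw [mem_Icc] at h1 h2
            omega)).le
      _ ≤ ∑ n ∈ Icc 1 ⌊(1 + ε) * X⌋₊, (1 : ℝ) := sum_le_sum fun _ _ => hW.le _
      _ ≤ _ := by simpa using Nat.floor_le (by positivity : 0 ≤ (1 + ε) * X)

/-- smoothed prime number theorem -/
theorem pnt_smooth {ε : ℝ} {W : ℝ → ℝ} (hW : Cut ε W) {δ : ℝ} (hδ : 0 < δ) : ∀ᶠ X : ℝ in atTop,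
    (1 - δ) * X ≤ ∑ n ∈ Icc 1 ⌊3 * X⌋₊, ArithmeticFunction.vonMangoldt n * W (n / X) ∧
    ∑ n ∈ Icc 1 ⌊3 * X⌋₊, ArithmeticFunction.vonMangoldt n * W (n / X) ≤ (1 + ε + δ) * X := by
  obtain ⟨h, -, hh, hSW⟩ := hW.sch'
  let a : ℕ → ℂ := fun n => (ArithmeticFunction.vonMangoldt n : ℂ) - 1
  have H : ∀ k ≤ 1, ∀ h : SchwartzMap ℝ ℂ, (∀ v : ℝ, 1 ≤ v → h v = 0) → ∃ C : ℝ, ∀ X : ℝ, 1 ≤ X →
      ‖TT h X (fun n => a n * ((log n : ℝ) : ℂ) ^ k)‖ ≤ C := fun k hk h hh => by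
    obtain ⟨C, N, hF⟩ := Fk_zeta_le k hk
    obtain ⟨C', -, hT⟩ := TT_le h hh N
    have e : (fun n => a n * ((log n : ℝ) : ℂ) ^ k) =
        (fun n => lamChi (1 : DirichletCharacter ℂ 1) n * ((log n : ℝ) : ℂ) ^ k) -
        fun n : ℕ => (1 : DirichletCharacter ℂ 1) n * ((log n : ℝ) : ℂ) ^ k := by
      funext n
      have : (1 : DirichletCharacter ℂ 1) n = 1 := MulChar.one_apply (isUnit_of_subsingleton _)
      simp only [a, lamChi, this, Pi.sub_apply]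
      ring
    refine ⟨C' * C, fun X hX => hT _ C X hX (fun s hs => ?_) fun s h1 h2 => ?_⟩
    · rw [e]
      exact (Fk_summable _ k hs).sub (Lj_summable _ k hs)
    · rw [e, LSeries_sub (Fk_summable _ k h1) (Lj_summable _ k h1)]
      exact hF s h1 h2
  obtain ⟨h', e'⟩ := swal_pow h 1
  obtain ⟨C0, h0⟩ := H 0 zero_le_one h' fun v hv => by rw [e', hh v hv, mul_zero]
  obtain ⟨C1, h1⟩ := H 1 le_rfl h hh
  filter_upwards [eventually_ge_atTop 1, eventually_ge_atTop (2 / δ),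
    tendsto_log_atTop.eventually_gt_atTop 0,
    tendsto_log_atTop.eventually_ge_atTop (2 * (C1 + C0) / δ)] with X hX hXδ hL hLC
  have hX0 : 0 < X := by linarith
  have e := TT_log_pow h X a 1
  have e1 : (fun v : ℝ => (v : ℂ) ^ 1 * h v) = h' := funext fun v => (e' v).symm
  rw [sum_range_succ, sum_range_one, e1] at e
  simp only [Nat.choose_zero_right, Nat.cast_one, one_mul, pow_zero, Nat.sub_zero, Nat.choose_self,
    Nat.sub_self] at e
  have b1 : log X * ‖TT h X a‖ ≤ C1 + C0 := by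
    have e2 : log X * ‖TT h X a‖ = ‖((log X : ℝ) : ℂ) ^ 1 * TT h X a‖ := by
      rw [norm_mul, norm_pow, Complex.norm_real, Real.norm_of_nonneg hL.le, pow_one]
    rw [e2, ← sub_eq_iff_eq_add.2 e]
    exact (norm_sub_le _ _).trans (add_le_add (h1 X hX) (by simpa using h0 X hX))
  have b2 : ‖TT h X a‖ ≤ δ / 2 := by
    rw [div_le_iff₀ hδ] at hLC
    refine le_of_mul_le_mul_left ?_ hL
    linarith
  have e3 : SW W X a = ((∑ n ∈ Icc 1 ⌊3 * X⌋₊, ArithmeticFunction.vonMangoldt n * W (n / X)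
      - ∑ n ∈ Icc 1 ⌊3 * X⌋₊, W (n / X) : ℝ) : ℂ) := by
    rw [SW, ← sum_sub_distrib]
    push_cast
    exact sum_congr rfl fun n _ => by simp only [a]; ring
  have b3 : ‖SW W X a‖ ≤ X * (δ / 2) := by
    rw [hSW X _ hX0, norm_mul, Complex.norm_real, Real.norm_of_nonneg hX0.le]
    exact mul_le_mul_of_nonneg_left b2 hX0.le
  rw [e3, Complex.norm_real, Real.norm_eq_abs, abs_le] at b3
  obtain ⟨w1, w2⟩ := swal_W hW hX0
  rw [div_le_iff₀ hδ] at hXδ
  constructor <;> nlinarith [b3.1, b3.2]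

end Vale.Agent.P031
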