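import Vale.Agent.P031.DelC

namespace Vale.Agent.P031

open Finset Real Filter

theorem AC_gap {L : ℝ} (hL : 0 < L) (h2 : 2 ≤ log L) (k : ℕ) {k' : ℝ}
    (h : 96000 * (k + 1) * log L ≤ k') : 20 * exp (-(k' / 2000)) * L ^ 40 < 1 / (10 * L ^ 4 * 7 ^ k) := by
  have h7 : (7 : ℝ) ≤ exp 2 := by
    have := exp_one_gt_d9
    rw [show (2 : ℝ) = 1 + 1 by norm_num, exp_add]; nlinarith
  have h200 : (200 : ℝ) ≤ exp 2 ^ 3 := le_trans (by norm_num) (pow_le_pow_left₀ (by norm_num) h7 3)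
  have hk : (0 : ℝ) ≤ k := Nat.cast_nonneg k
  rw [lt_div_iff₀ (by positivity)]
  calc 20 * exp (-(k' / 2000)) * L ^ 40 * (10 * L ^ 4 * 7 ^ k)
      = exp (-(k' / 2000)) * (200 * L ^ 44 * 7 ^ k) := by ring
    _ ≤ exp (-(k' / 2000)) * (exp 2 ^ 3 * exp (log L) ^ 44 * exp 2 ^ k) := by
        rw [exp_log hL]; gcongr
    _ < 1 := by
        rw [← exp_nat_mul, ← exp_nat_mul, ← exp_nat_mul, ← exp_add, ← exp_add, ← exp_add,
          exp_lt_one_iff]
        push_cast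
        nlinarith

theorem AC_ev (J : ℕ) : ∀ᶠ x in atTop, 6 ≤ LL x ∧ 2 ≤ log (LL x) ∧ 0 < tm x ∧
    exp (LL x / 2) ≤ tm x ∧ tp x = tm x * LL x ^ 40 ∧ ll x = tm x * LL x ^ 20 ∧
    ∃ b : ℕ, 1 ≤ b ∧ 200000 * log (LL x) ≤ b ∧ ((b ^ J : ℕ) : ℝ) ≤ LL x ^ (1 / 25 : ℝ) := by
  filter_upwards [ev_par, (tendsto_log_atTop.comp tendsto_LL).eventually_ge_atTop 2,
    tendsto_LL.eventually (ev_pow_exp 1 0 20 (κ := 1 / 2) (by norm_num)),
    tendsto_LL.eventually (ev_log_pow (300000 ^ J) J (κ := 1) (b := 1 / 25) one_pos (by norm_num))]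
    with x hP h1 h2 h3
  have hL := hP.L100
  have hl : 0 < ll x := hP.ll_eq ▸ exp_pos _
  simp only [Function.comp] at h1
  refine ⟨by linarith, h1, by rw [tm]; positivity, ?_, by rw [tm, tp]; field_simp,
    by rw [tm]; field_simp, ⌈200000 * log (LL x)⌉₊, Nat.ceil_pos.2 (by linarith), Nat.le_ceil _, ?_⟩
  · rw [tm, le_div_iff₀ (by positivity), hP.ll_eq,
      show exp (LL x) = exp (LL x / 2) * exp (1 / 2 * LL x) by rw [← exp_add]; congr 1; ring]
    exact mul_le_mul_of_nonneg_left (by simpa using h2) (exp_pos _).le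
  · rw [one_mul, ← mul_pow] at h3
    rw [Nat.cast_pow]
    refine le_trans (pow_le_pow_left₀ (by positivity) ?_ J) h3
    linarith [Nat.ceil_lt_add_one (show 0 ≤ 200000 * log (LL x) by linarith)]

theorem ac1 {ε : ℝ} (hε : 0 < ε) : ∀ᶠ x in atTop,
    ∑ s ∈ (SS (yy x) (YY x)).filter
      (fun s => tm x < DD (WW x) s ∧ (DD (WW x) s : ℝ) ≤ tp x), mu (yy x) (WW x) s
      ≤ ε * GG x + ε := by
  obtain ⟨J, hJ⟩ := exists_nat_gt (2 / ε)
  have hJ0 : (0 : ℝ) < J := lt_trans (by positivity) hJ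
  filter_upwards [del_x, AC_ev J, ((tendsto_exp_neg_atTop_nhds_zero.comp
    (tendsto_sqrt_atTop.comp tendsto_LL)).eventually (ge_mem_nhds hε))] with x h hx he
  obtain ⟨hL, h2, t0, t1, t2, -, b, b1, b2, b3⟩ := hx
  simp only [Function.comp] at he
  obtain ⟨T, hT⟩ : ∃ T : ℕ → Finset ℕ, ∀ k, T k = (SS (yy x) (YY x)).filter
      (fun s => tm x / (10 * LL x ^ 4 * 7 ^ k) ≤ DD (WW x) s ∧
        (DD (WW x) s : ℝ) ≤ 20 * exp (-(k / 2000 : ℝ)) * tp x) := ⟨_, fun _ => rfl⟩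
  have b1' : (1 : ℝ) ≤ b := by exact_mod_cast b1
  have gap : ∀ k k' : ℕ, 96000 * (k + 1) * log (LL x) ≤ k' → ∀ s ∈ T k',
      (DD (WW x) s : ℝ) < tm x / (10 * LL x ^ 4 * 7 ^ k) := fun k k' g s hs => by
    rw [hT] at hs
    refine (mem_filter.1 hs).2.2.trans_lt ?_
    have := mul_lt_mul_of_pos_left (AC_gap (by linarith) h2 k g) t0
    rw [mul_one_div] at this
    rw [t2]; linarith
  have a1 : ∀ i ∈ Icc 1 J, ∑ s ∈ (SS (yy x) (YY x)).filter
      (fun s => tm x < DD (WW x) s ∧ (DD (WW x) s : ℝ) ≤ tp x), mu (yy x) (WW x) s ≤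
      2 * ∑ s ∈ T (b ^ i), mu (yy x) (WW x) s + ε := fun i hi => by
    have := h (b ^ i) (tm x) (tp x) (le_trans (by exact_mod_cast Nat.pow_le_pow_right b1 (mem_Icc.1 hi).2) b3)
      t1 ((SS (yy x) (YY x)).filter fun s => tm x < DD (WW x) s ∧ (DD (WW x) s : ℝ) ≤ tp x)
      fun s hs => ⟨(mem_filter.1 hs).1, (mem_filter.1 hs).2.1.le, (mem_filter.1 hs).2.2⟩
    rw [← hT] at this
    exact this.trans (add_le_add_right he _)
  have a2 := card_nsmul_le_sum _ _ _ a1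
  have a3 : Set.PairwiseDisjoint (Icc 1 J : Finset ℕ) fun i => T (b ^ i) := by
    have : ∀ i j, i < j → Disjoint (T (b ^ i)) (T (b ^ j)) := fun i j hij => by
      refine disjoint_left.2 fun s hs hs' => ?_
      have g := gap (b ^ i) (b ^ j) ?_ s hs'
      · rw [hT] at hs
        exact absurd (mem_filter.1 hs).2.1 (not_le.2 g)
      have c1 : (b : ℝ) ^ (i + 1) ≤ (b : ℝ) ^ j := pow_le_pow_right₀ b1' hij
      have c2 : 1 ≤ (b : ℝ) ^ i := one_le_pow₀ b1'
      have c3 := mul_le_mul_of_nonneg_left b2 (zero_le_one.trans c2)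
      rw [pow_succ] at c1
      push_cast
      nlinarith
    intro i _ j _ hij
    rcases lt_or_gt_of_ne hij with g | g
    exacts [this i j g, (this j i g).symm]
  have a4 : ∑ i ∈ Icc 1 J, ∑ s ∈ T (b ^ i), mu (yy x) (WW x) s ≤ GG x := by
    rw [← sum_biUnion a3]
    refine sum_le_sum_of_subset_of_nonneg (fun s hs => ?_) fun _ _ _ => mu_nonneg _ _ _
    obtain ⟨i, hi, hs⟩ := mem_biUnion.1 hs
    have g := gap 0 (b ^ i) ?_ s hs
    · rw [hT] at hs
      refine mem_filter.2 ⟨(mem_filter.1 hs).1, g.le.trans (div_le_self t0.le ?_)⟩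
      linarith [one_le_pow₀ (n := 4) (show 1 ≤ LL x by linarith), pow_zero (7 : ℝ)]
    have c1 : (b : ℝ) ≤ (b : ℝ) ^ i := le_self_pow₀ b1' (by have := (mem_Icc.1 hi).1; omega)
    push_cast
    linarith
  rw [sum_add_distrib, ← mul_sum, sum_const, Nat.card_Icc, Nat.add_sub_cancel, nsmul_eq_mul,
    nsmul_eq_mul] at a2
  rw [div_lt_iff₀ hε] at hJ
  refine le_of_mul_le_mul_left (a2.trans ?_) hJ0
  nlinarith [GG_nonneg x]

theorem AC_blocks (U : Finset ℕ) (μ D : ℕ → ℝ) (hμ : ∀ s, 0 ≤ μ s) {t q G : ℝ} (ht : 0 < t)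
    (hq : 6 ≤ q) (hG : 0 ≤ G) (h : ∀ n : ℕ, ∑ s ∈ U.filter (fun s => D s ≤ t * q ^ n), μ s ≤ 3 ^ n * G) :
    ∑ s ∈ U.filter (fun s => t * q < D s), t / D s * μ s ≤ 18 * G / q := by
  have hq0 : 0 < q := by linarith
  have key : ∀ n : ℕ, ∑ s ∈ U.filter (fun s => t * q < D s ∧ D s ≤ t * q ^ (n + 1)), t / D s * μ s ≤
      18 * G / q * (1 - (1 / 2) ^ n) := by
    intro n
    induction n with
    | zero =>
      rw [filter_false_of_mem fun s _ hs => by rw [zero_add, pow_one] at hs; linarith [hs.1, hs.2]]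
      simp
    | succ n ih =>
      rw [← sum_filter_add_sum_filter_not _ (fun s => D s ≤ t * q ^ (n + 1)), filter_filter,
        filter_filter]
      have hq1 : t * q ^ (n + 1) ≤ t * q ^ (n + 1 + 1) :=
        mul_le_mul_of_nonneg_left (pow_le_pow_right₀ (by linarith) (Nat.le_succ _)) ht.le
      rw [filter_congr (q := fun s => t * q < D s ∧ D s ≤ t * q ^ (n + 1)) fun s _ =>
        ⟨fun g => ⟨g.1.1, g.2⟩, fun g => ⟨⟨g.1, g.2.trans hq1⟩, g.2⟩⟩]
      have a1 : ∑ s ∈ U.filter (fun s => (t * q < D s ∧ D s ≤ t * q ^ (n + 1 + 1)) ∧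
          ¬ D s ≤ t * q ^ (n + 1)), t / D s * μ s ≤ 1 / q ^ (n + 1) * (3 ^ (n + 1 + 1) * G) := by
        refine le_trans ?_ (mul_le_mul_of_nonneg_left (h (n + 1 + 1)) (by positivity))
        rw [mul_sum]
        refine (sum_le_sum fun s hs => mul_le_mul_of_nonneg_right ?_ (hμ s)).trans
          (sum_le_sum_of_subset_of_nonneg (monotone_filter_right _ fun s _ g => g.1.2)
            fun s _ _ => mul_nonneg (by positivity) (hμ s))
        have := not_le.1 (mem_filter.1 hs).2.2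
        rw [div_le_div_iff₀ (lt_trans (by positivity) this) (by positivity)]
        linarith
      have a2 : 1 / q ^ (n + 1) * (3 ^ (n + 1 + 1) * G) ≤ 18 * G / q * (1 / 2) ^ (n + 1) := by
        calc 1 / q ^ (n + 1) * (3 ^ (n + 1 + 1) * G) = 9 * G / q * (3 / q) ^ n := by
              rw [div_pow]; field_simp; ring
          _ ≤ 9 * G / q * (1 / 2) ^ n := by
              refine mul_le_mul_of_nonneg_left (pow_le_pow_left₀ (by positivity) ?_ n) (by positivity)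
              rw [div_le_iff₀ hq0]; linarith
          _ = _ := by ring
      have e : 18 * G / q * (1 - (1 / 2) ^ (n + 1)) =
        18 * G / q * (1 - (1 / 2) ^ n) + 18 * G / q * (1 / 2) ^ (n + 1) := by ring
      linarith
  obtain ⟨n, hn⟩ := pow_unbounded_of_one_lt ((∑ s ∈ U, |D s|) / t) (show 1 < q by linarith)
  rw [div_lt_iff₀' ht] at hn
  have a := key n
  rw [filter_congr (q := fun s => t * q < D s) fun s hs => ⟨fun g => g.1, fun g => ⟨g,
    (le_abs_self _).trans ((single_le_sum (f := fun s => |D s|) (fun _ _ => abs_nonneg _)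
      hs).trans (hn.le.trans (mul_le_mul_of_nonneg_left
        (pow_le_pow_right₀ (by linarith) (Nat.le_succ _)) ht.le)))⟩⟩] at a
  exact a.trans (mul_le_of_le_one_right (by positivity) (sub_le_self _ (by positivity)))

theorem ac2 {ε : ℝ} (hε : 0 < ε) : ∀ᶠ x in atTop,
    ∑ s ∈ (SS (yy x) (YY x)).filter (fun s => tp x < DD (WW x) s),
      ll x / DD (WW x) s * mu (yy x) (WW x) s ≤ ε * GG x + ε := by
  filter_upwards [del_x, AC_ev 1, ev_LL (18 / ε)] with x h hx he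
  obtain ⟨hL, h2, t0, t1, t2, t3, b, b1, b2, b3⟩ := hx
  rw [pow_one] at b3
  have hq : 6 ≤ LL x ^ 40 := hL.trans (le_self_pow₀ (by linarith) (by norm_num))
  have hG := GG_nonneg x
  have step : ∀ t, tm x ≤ t → ∑ s ∈ (SS (yy x) (YY x)).filter
      (fun s => (DD (WW x) s : ℝ) ≤ t * LL x ^ 40), mu (yy x) (WW x) s ≤
      3 * ∑ s ∈ (SS (yy x) (YY x)).filter (fun s => (DD (WW x) s : ℝ) ≤ t), mu (yy x) (WW x) s + 1 := by
    intro t ht
    have a1 := h b t (t * LL x ^ 40) b3 (t1.trans ht) ((SS (yy x) (YY x)).filter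
      fun s => (DD (WW x) s : ℝ) ≤ t * LL x ^ 40 ∧ ¬ (DD (WW x) s : ℝ) ≤ t) fun s hs =>
      ⟨(mem_filter.1 hs).1, (not_le.1 (mem_filter.1 hs).2.2).le, (mem_filter.1 hs).2.1⟩
    have g := AC_gap (by linarith) h2 0 (k' := b) (by push_cast; linarith)
    have g' : 1 / (10 * LL x ^ 4 * 7 ^ 0) ≤ 1 := div_le_self zero_le_one (by
      linarith [one_le_pow₀ (n := 4) (show 1 ≤ LL x by linarith), pow_zero (7 : ℝ)])
    have a2 := sum_le_sum_of_subset_of_nonneg (f := mu (yy x) (WW x)) (monotone_filter_right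
      (SS (yy x) (YY x)) (p := fun s => t / (10 * LL x ^ 4 * 7 ^ b) ≤ DD (WW x) s ∧
        (DD (WW x) s : ℝ) ≤ 20 * exp (-(b / 2000 : ℝ)) * (t * LL x ^ 40))
      (q := fun s => (DD (WW x) s : ℝ) ≤ t) fun s _ hs => hs.2.trans (by nlinarith))
      fun _ _ _ => mu_nonneg _ _ _
    have a3 := sum_le_sum_of_subset_of_nonneg (f := mu (yy x) (WW x)) (monotone_filter_right
      (SS (yy x) (YY x)) (p := fun s => (DD (WW x) s : ℝ) ≤ t * LL x ^ 40 ∧ (DD (WW x) s : ℝ) ≤ t)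
      (q := fun s => (DD (WW x) s : ℝ) ≤ t) fun s _ hs => hs.2) fun _ _ _ => mu_nonneg _ _ _
    have a4 : exp (-√(LL x)) ≤ 1 := exp_le_one_iff.2 (neg_nonpos.2 (sqrt_nonneg _))
    rw [← sum_filter_add_sum_filter_not _ (fun s => (DD (WW x) s : ℝ) ≤ t), filter_filter,
      filter_filter]
    linarith
  have H : ∀ n : ℕ, ∑ s ∈ (SS (yy x) (YY x)).filter
      (fun s => (DD (WW x) s : ℝ) ≤ tm x * (LL x ^ 40) ^ n), mu (yy x) (WW x) s + 1 / 2 ≤
      3 ^ n * (GG x + 1) := fun n => by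
    induction n with
    | zero => simp only [pow_zero, mul_one, one_mul, GG, Good]; linarith
    | succ n ih =>
      have := step _ (le_mul_of_one_le_right t0.le (one_le_pow₀ (n := n) (show 1 ≤ LL x ^ 40 by linarith)))
      rw [pow_succ (LL x ^ 40), ← mul_assoc, pow_succ (3 : ℝ)]
      linarith
  have a := AC_blocks (SS (yy x) (YY x)) (mu (yy x) (WW x)) (fun s => DD (WW x) s) (mu_nonneg _ _)
    t0 hq (G := GG x + 1) (by linarith) fun n => by linarith [H n]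
  have e : ∀ s, ll x / DD (WW x) s * mu (yy x) (WW x) s =
      LL x ^ 20 * (tm x / DD (WW x) s * mu (yy x) (WW x) s) := fun s => by rw [t3]; ring
  simp only [e]
  rw [← mul_sum, t2]
  refine (mul_le_mul_of_nonneg_left a (by positivity)).trans ?_
  have a5 : 18 / LL x ^ 20 ≤ ε := by
    rw [div_le_iff₀ hε] at he
    rw [div_le_iff₀' (by positivity)]
    exact he.trans (mul_le_mul_of_nonneg_right (le_self_pow₀ (by linarith) (by norm_num)) hε.le)
  calc LL x ^ 20 * (18 * (GG x + 1) / LL x ^ 40) = 18 / LL x ^ 20 * (GG x + 1) := by field_simp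
    _ ≤ ε * (GG x + 1) := by gcongr
    _ = _ := by ring

end Vale.Agent.P031
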