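import Vale.Agent.P031.MB

namespace Vale.Agent.P031

open Finset Real Filter

theorem Ab_omS {y : ℝ} (hy : 2 ≤ y) {S : Finset ℕ} (hS : S ⊆ PP y) (h2 : 2 ∉ S) {p : ℕ}
    (hp : p.Prime) (hp2 : p ≠ 2) : omS S (dd y p) = omS S (p - 1) := by
  have h0 : p - 1 ≠ 0 := by have := hp.two_le; omega
  rw [omS, omS]
  congr 1
  refine filter_congr fun q hq => ⟨fun h => ?_, fun h => ?_⟩
  · exact (h.trans (Dvd.intro_left 2 (two_mul_dd hy hp hp2))).trans (sm_dvd y h0)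
  · have hq' := mem_PP.1 (hS hq)
    have : q ∣ 2 * dd y p := by
      rw [two_mul_dd hy hp hp2]
      refine Smooth.dvd_sm ⟨hq'.1.ne_zero, fun r hr hd => ?_⟩ h0 h
      rw [(Nat.prime_dvd_prime_iff_eq hr hq'.1).1 hd]; exact hq'.2
    refine (hq'.1.dvd_mul.1 this).resolve_left fun h' => h2 ?_
    rwa [← (Nat.prime_dvd_prime_iff_eq hq'.1 Nat.prime_two).1 h']

theorem Ab_nu {y : ℝ} (hy : 2 ≤ y) {S : Finset ℕ} (hS : S ⊆ PP y) (h2 : 2 ∉ S) {T : Finset ℕ}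
    (hT : ∀ p ∈ T, p.Prime ∧ p ≠ 2 ∧ (omS S (p - 1) : ℝ) ≤ 99 / 100 * rs S) :
    (∀ d ∈ T.image (dd y), Smooth y d) ∧
      ∑ d ∈ T.image (dd y), nu y d * 1 ≤ exp (-(rs S / 20000)) := by
  have h : ∀ d ∈ T.image (dd y), Smooth y d ∧ (omS S d : ℝ) ≤ (1 - 1 / 100) * rs S := fun d hd => by
    obtain ⟨p, hp, rfl⟩ := mem_image.1 hd
    obtain ⟨a, b, c⟩ := hT p hp
    exact ⟨dd_smooth hy a b, by rw [Ab_omS hy hS h2 a b]; linarith⟩
  refine ⟨fun d hd => (h d hd).1, ?_⟩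
  simp only [mul_one]
  exact (nu_low_tail hy S hS (by norm_num) (by norm_num) _ h).trans_eq (by congr 1; ring)

theorem Ab_rec : ∀ᶠ A : ℝ in atTop, ∀ Z y : ℝ, A ≤ Z → 8 ≤ y → log y ≤ log A / log (log A) ^ 3 →
    ∀ S ⊆ PP y, 2 ∉ S → ∀ T : Finset ℕ,
    (∀ p ∈ T, p.Prime ∧ A < p ∧ (p : ℝ) ≤ Z ∧ (omS S (p - 1) : ℝ) ≤ 99 / 100 * rs S) →
    ∑ p ∈ T, (1 : ℝ) / p ≤ 4 * (log (log Z) + 1) * exp (-(rs S / 20000)) + 1 / log A := by
  filter_upwards [tv_rec 1, eventually_ge_atTop 3] with A h hA Z y a b c S hS h2 T hT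
  obtain ⟨n1, n2⟩ := Ab_nu (by linarith) hS h2 (T := T) fun p hp =>
    ⟨(hT p hp).1, by rintro rfl; have := (hT 2 hp).2.1; norm_num at this; linarith, (hT p hp).2.2.2⟩
  have l1 : 1 ≤ log A := by
    rw [le_log_iff_exp_le (by linarith)]; linarith [exp_one_lt_d9]
  have l2 := log_nonneg l1
  have l3 : log (log A) ≤ log (log Z) := log_le_log (by linarith) (log_le_log (by linarith) a)
  refine le_trans (sum_le_sum_of_subset_of_nonneg (fun p hp => ?_) fun _ _ _ => by positivity)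
    ((h Z y a b c _ n1 (fun _ => 1) fun _ => ⟨zero_le_one, le_rfl⟩).2.trans ?_)
  · exact mem_filter.2 ⟨mem_PP.2 ⟨(hT p hp).1, (hT p hp).2.2.1⟩, (hT p hp).2.1,
      mem_image_of_mem _ hp⟩
  rw [pow_one]
  refine add_le_add_left (mul_le_mul (by linarith) n2
    (sum_nonneg fun _ _ => mul_nonneg (nu_nonneg _ _) zero_le_one) (by linarith)) _

theorem Ab_cnt : ∀ᶠ X : ℝ in atTop, ∀ y : ℝ, 8 ≤ y → log y ≤ log X / log (log X) ^ 3 →
    ∀ S ⊆ PP y, 2 ∉ S → ∀ T : Finset ℕ,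
    (∀ p ∈ T, p.Prime ∧ p ≠ 2 ∧ (p : ℝ) ≤ X ∧ (omS S (p - 1) : ℝ) ≤ 99 / 100 * rs S) →
    (T.card : ℝ) ≤ 2 * (X / log X) * exp (-(rs S / 20000)) + X / log X ^ 2 := by
  filter_upwards [tv one_pos 2, eventually_ge_atTop 1] with X h hX y b c S hS h2 T hT
  obtain ⟨n1, n2⟩ := Ab_nu (by linarith) hS h2 (T := T) fun p hp =>
    ⟨(hT p hp).1, (hT p hp).2.1, (hT p hp).2.2.2⟩
  have a1 := (abs_le.1 (h y b c _ n1 (fun _ => 1) fun _ => ⟨zero_le_one, le_rfl⟩)).2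
  have a2 : (T.card : ℝ) ≤ ∑ p ∈ (PP X).filter (fun p => dd y p ∈ T.image (dd y)), (1 : ℝ) := by
    rw [sum_const, nsmul_eq_mul, mul_one]
    exact Nat.cast_le.2 (card_le_card fun p hp => mem_filter.2
      ⟨mem_PP.2 ⟨(hT p hp).1, (hT p hp).2.2.1⟩, mem_image_of_mem _ hp⟩)
  have a3 := mul_le_mul_of_nonneg_left n2 (div_nonneg (zero_le_one.trans hX) (log_nonneg hX))
  linarith

theorem Ab_S1 (x : ℝ) : S1 x ⊆ PP (z1 x) ∧ 2 ∉ S1 x :=
  ⟨filter_subset _ _, fun h => by have := (mem_filter.1 h).2; omega⟩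

theorem Ab_S2 {x : ℝ} (hP : Par x) : S2 x ⊆ PP (y8 x) ∧ 2 ∉ S2 x :=
  ⟨filter_subset _ _, fun h => by
    have := (mem_filter.1 h).2
    norm_num at this
    linarith [hP.z1_ge, hP.z1_zz]⟩

theorem Ab_zy {x : ℝ} (hP : Par x) : LL x ≤ zz x ∧ 8 ≤ zz x ∧ zz x ≤ y8 x ∧ yy x ≤ x := by
  have h1 := add_one_le_exp (LL x)
  rw [← hP.ll_eq] at h1
  have h2 : ll x ≤ ll x ^ 2 := le_self_pow₀ (by linarith [hP.L100]) two_ne_zero
  have h3 : 8 ≤ zz x := hP.z1_ge.trans hP.z1_zz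
  have h4 : zz x ≤ y8 x := by linarith [hP.zz_ZZ, hP.ZZ_z2, hP.z2_z3, hP.z3_y8]
  have h5 : YY x + 2 ≤ (YY x + 2) ^ 20 :=
    le_self_pow₀ (by linarith [hP.y8_yy, hP.yy_YY]) (by norm_num)
  exact ⟨by linarith [hP.ll_z1, hP.z1_zz], h3, h4, by linarith [hP.YY_x, hP.yy_YY]⟩

theorem Ab_y8 {x X : ℝ} (hP : Par x) (hX : yy x ≤ X) :
    log (y8 x) ≤ log X / log (log X) ^ 3 ∧ ll x / LL x ^ 4 ≤ log X := by
  obtain ⟨-, z8, zy, -⟩ := Ab_zy hP
  have hL := hP.L100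
  have hl : 0 < ll x := hP.ll_eq ▸ exp_pos _
  have h1 : ll x / LL x ^ 4 ≤ log X := by
    have := log_le_log (exp_pos _) hX
    rwa [log_exp] at this
  refine ⟨?_, h1⟩
  have h2 : 1 < log X := by
    rw [lt_log_iff_exp_lt (by linarith [hP.y8_yy])]; linarith [exp_one_lt_d9, hP.y8_yy]
  obtain ⟨s, hs⟩ : ∃ s, s = log X / (ll x / LL x ^ 4) := ⟨_, rfl⟩
  have s1 : 1 ≤ s := by rwa [hs, le_div_iff₀ (by positivity), one_mul]
  have e : log X = ll x / LL x ^ 4 * s := by rw [hs]; field_simp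
  have h3 : log (log X) ≤ 2 * LL x * s ^ (1 / 3 : ℝ) := by
    have a1 := log_le_rpow_div (by linarith : 0 ≤ s) (by norm_num : (0 : ℝ) < 1 / 3)
    have a2 : 1 ≤ s ^ (1 / 3 : ℝ) := one_le_rpow s1 (by norm_num)
    have a3 : log (ll x / LL x ^ 4) ≤ LL x := by
      refine (log_le_log (by positivity) (div_le_self hl.le (one_le_pow₀ (by linarith)))).trans ?_
      rw [hP.ll_eq, log_exp]
    rw [e, log_mul (by positivity) (by linarith)]
    nlinarith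
  have h4 : log (log X) ^ 3 ≤ LL x ^ 4 * s := by
    refine (pow_le_pow_left₀ (log_pos h2).le h3 3).trans ?_
    rw [mul_pow, ← rpow_natCast (s ^ _), ← rpow_mul (by linarith)]
    norm_num
    refine mul_le_mul_of_nonneg_right ?_ (by linarith)
    have : 0 ≤ LL x ^ 3 := by positivity
    nlinarith
  rw [le_div_iff₀ (pow_pos (log_pos h2) 3), y8, log_exp]
  refine (mul_le_mul_of_nonneg_left h4 (by positivity)).trans_eq ?_
  rw [e]; field_simp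

theorem Ab_split {x : ℝ} {T : Finset ℕ} (hT : ∀ p ∈ T, Abn x p) (f : ℕ → ℝ) (hf : ∀ p, 0 ≤ f p) :
    ∑ p ∈ T, f p ≤
      ∑ p ∈ T.filter (fun p : ℕ => zz x < p ∧ (omS (S1 x) (p - 1) : ℝ) ≤ 99 / 100 * rs (S1 x)), f p +
      ∑ p ∈ T.filter (fun p : ℕ => yy x < p ∧ (omS (S2 x) (p - 1) : ℝ) ≤ 99 / 100 * rs (S2 x)),
        f p := by
  rw [sum_filter, sum_filter, ← sum_add_distrib]
  refine sum_le_sum fun p hp => ?_
  have := hf p
  rcases (hT p hp).2 with h | h <;> rw [if_pos h] <;> split_ifs <;> linarith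

theorem Ab_exp {x : ℝ} (hP : Par x) : exp (-(rs (S1 x) / 20000)) ≤ exp (-(4 * LL x / 10 ^ 6)) ∧
    exp (-(rs (S2 x) / 20000)) ≤ exp (-(4 * LL x / 10 ^ 6)) :=
  ⟨exp_le_exp.2 (by linarith [hP.rs_S1.1, hP.L100]),
    exp_le_exp.2 (by linarith [hP.rs_S2.1, hP.L100])⟩

theorem Ab_ev (C : ℝ) (k : ℕ) {κ : ℝ} (hκ : 0 < κ) : ∀ᶠ x in atTop, C * LL x ^ k ≤ exp (κ * LL x) :=
  (tendsto_LL.eventually (ev_pow_exp C 0 k hκ)).mono fun x h => by simpa using h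

theorem abn_recip : ∀ᶠ x in atTop, ∀ T : Finset ℕ, (∀ p ∈ T, Abn x p ∧ (p : ℝ) ≤ x ^ 2) →
    ∑ p ∈ T, (1 : ℝ) / p ≤ exp (-(LL x / 10 ^ 6)) := by
  obtain ⟨A, hA⟩ := eventually_atTop.1 Ab_rec
  filter_upwards [ev_par, ev_LL A, Ab_ev 1 3 (κ := 1 / 20) (by norm_num),
    Ab_ev 20 1 (κ := 3 / 10 ^ 6) (by norm_num)] with x hP a e1 e2 T hT
  obtain ⟨z1', z8, zy, yx⟩ := Ab_zy hP
  have hL := hP.L100
  have hx := hP.x16
  have xx : x ≤ x ^ 2 := le_self_pow₀ (by linarith) two_ne_zero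
  have zY := zy.trans hP.y8_yy
  have b1 := hA (zz x) (by linarith) (x ^ 2) (z1 x) (by linarith) hP.z1_ge (by
      rw [z1, zz, log_exp, log_exp, log_exp, le_div_iff₀ (by positivity),
        show 9 / 10 * LL x = 17 / 20 * LL x + 1 / 20 * LL x by ring, exp_add]
      refine mul_le_mul_of_nonneg_left (le_trans ?_ e1) (exp_pos _).le
      rw [one_mul]
      exact pow_le_pow_left₀ (by positivity) (by linarith) 3)
    _ (Ab_S1 x).1 (Ab_S1 x).2 (T.filter fun p : ℕ =>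
      zz x < p ∧ (omS (S1 x) (p - 1) : ℝ) ≤ 99 / 100 * rs (S1 x)) fun p hp =>
      have h := mem_filter.1 hp
      ⟨(hT p h.1).1.1, h.2.1, (hT p h.1).2, h.2.2⟩
  have b2 := hA (yy x) (by linarith) (x ^ 2) (y8 x) (by linarith) (by linarith)
    (Ab_y8 hP le_rfl).1 _ (Ab_S2 hP).1 (Ab_S2 hP).2 (T.filter fun p : ℕ =>
      yy x < p ∧ (omS (S2 x) (p - 1) : ℝ) ≤ 99 / 100 * rs (S2 x)) fun p hp =>
      have h := mem_filter.1 hp
      ⟨(hT p h.1).1.1, h.2.1, (hT p h.1).2, h.2.2⟩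
  have c1 : log (log (x ^ 2)) ≤ LL x + 1 := by
    rw [log_pow, log_mul (by norm_num) (log_pos (by linarith)).ne', LL]
    linarith [log_two_lt_d9, show log ((2 : ℕ) : ℝ) = log 2 by norm_num]
  have c2 : 1 / log (zz x) ≤ exp (-(4 * LL x / 10 ^ 6)) := by
    rw [zz, log_exp, one_div, ← exp_neg]
    exact exp_le_exp.2 (by linarith)
  have c3 : 1 / log (yy x) ≤ 1 / log (zz x) :=
    one_div_le_one_div_of_le (log_pos (by linarith)) (log_le_log (by linarith) zY)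
  have c4 : ∀ t, 0 ≤ t → t ≤ exp (-(4 * LL x / 10 ^ 6)) →
      4 * (log (log (x ^ 2)) + 1) * t ≤ 4 * (LL x + 2) * exp (-(4 * LL x / 10 ^ 6)) := fun t h0 h =>
    mul_le_mul (by linarith) h h0 (by linarith)
  have c5 := c4 _ (exp_pos _).le (Ab_exp hP).1
  have c6 := c4 _ (exp_pos _).le (Ab_exp hP).2
  have c7 := mul_le_mul_of_nonneg_right e2 (exp_pos (-(4 * LL x / 10 ^ 6))).le
  rw [← exp_add, show 3 / 10 ^ 6 * LL x + -(4 * LL x / 10 ^ 6) = -(LL x / 10 ^ 6) by ring] at c7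
  have c8 := Ab_split (fun p hp => (hT p hp).1) (fun p => (1 : ℝ) / p) fun _ => by positivity
  have c9 := mul_le_mul_of_nonneg_right hL (exp_pos (-(4 * LL x / 10 ^ 6))).le
  have c10 := exp_pos (-(4 * LL x / 10 ^ 6))
  linarith

theorem abn_count : ∀ᶠ x in atTop, ∀ X : ℝ, yy x ≤ X → ∀ T : Finset ℕ,
    (∀ p ∈ T, Abn x p ∧ (p : ℝ) ≤ X) → (T.card : ℝ) ≤ X / ll x * exp (-(LL x / 10 ^ 6)) := by
  obtain ⟨A, hA⟩ := eventually_atTop.1 Ab_cnt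
  filter_upwards [ev_par, ev_LL A, Ab_ev 1 4 (κ := 1 / 2) (by norm_num),
    Ab_ev 6 4 (κ := 3 / 10 ^ 6) (by norm_num)] with x hP a e1 e2 X hX T hT
  obtain ⟨z1', z8, zy, yx⟩ := Ab_zy hP
  obtain ⟨g1, g2⟩ := Ab_y8 hP hX
  have hL := hP.L100
  have hl : 0 < ll x := hP.ll_eq ▸ exp_pos _
  have zY := zy.trans hP.y8_yy
  have hX0 : 0 ≤ X := by linarith
  have n2 : ∀ p : ℕ, zz x < p → p ≠ 2 := fun p h e => by rw [e] at h; norm_num at h; linarith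
  have b1 := hA X (by linarith) (z1 x) hP.z1_ge
    ((log_le_log (by linarith [hP.z1_ge]) (hP.z1_zz.trans zy)).trans g1)
    _ (Ab_S1 x).1 (Ab_S1 x).2 (T.filter fun p : ℕ =>
      zz x < p ∧ (omS (S1 x) (p - 1) : ℝ) ≤ 99 / 100 * rs (S1 x)) fun p hp =>
      have h := mem_filter.1 hp
      ⟨(hT p h.1).1.1, n2 p h.2.1, (hT p h.1).2, h.2.2⟩
  have b2 := hA X (by linarith) (y8 x) (by linarith) g1 _ (Ab_S2 hP).1 (Ab_S2 hP).2
    (T.filter fun p : ℕ => yy x < p ∧ (omS (S2 x) (p - 1) : ℝ) ≤ 99 / 100 * rs (S2 x)) fun p hp =>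
      have h := mem_filter.1 hp
      ⟨(hT p h.1).1.1, n2 p (zY.trans_lt h.2.1), (hT p h.1).2, h.2.2⟩
  have c8 := Ab_split (fun p hp => (hT p hp).1) (fun _ => (1 : ℝ)) fun _ => zero_le_one
  simp only [sum_const, nsmul_eq_mul, mul_one] at c8
  obtain ⟨E, hE⟩ : ∃ E, E = exp (-(4 * LL x / 10 ^ 6)) := ⟨_, rfl⟩
  have g3 : 0 < log X := lt_of_lt_of_le (by positivity) g2
  have c1 : X / log X ≤ X / ll x * LL x ^ 4 := by
    refine (div_le_div_of_nonneg_left hX0 (by positivity) g2).trans_eq ?_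
    field_simp
  have c2 : 1 / log X ≤ E := by
    refine (one_div_le_one_div_of_le (by positivity) g2).trans ?_
    rw [one_div_div, div_le_iff₀ hl, hP.ll_eq, hE, ← exp_add]
    exact (le_of_eq_of_le (one_mul _).symm e1).trans (exp_le_exp.2 (by linarith))
  have c3 : X / log X ^ 2 ≤ X / ll x * LL x ^ 4 * E := by
    rw [sq, ← div_div, div_eq_mul_one_div (X / log X)]
    exact mul_le_mul c1 c2 (by positivity) (by positivity)
  have c4 : ∀ t, 0 ≤ t → t ≤ E → X / log X * t ≤ X / ll x * LL x ^ 4 * E := fun t h0 h =>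
    mul_le_mul c1 h h0 (by positivity)
  have c5 := c4 _ (exp_pos _).le (hE ▸ (Ab_exp hP).1)
  have c6 := c4 _ (exp_pos _).le (hE ▸ (Ab_exp hP).2)
  have c7 := mul_le_mul_of_nonneg_right e2 (exp_pos (-(4 * LL x / 10 ^ 6))).le
  rw [← exp_add, show 3 / 10 ^ 6 * LL x + -(4 * LL x / 10 ^ 6) = -(LL x / 10 ^ 6) by ring,
    ← hE] at c7
  have c9 := mul_le_mul_of_nonneg_left c7 (div_nonneg hX0 hl.le)
  linarith

theorem Ab_fin (C : ℝ) (k : ℕ) {ε : ℝ} (hε : 0 < ε) : ∀ᶠ x in atTop,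
    C * LL x ^ k * exp (-(LL x / 10 ^ 6)) * MM x ≤ ε := by
  filter_upwards [MM_le, ev_LL 1, Ab_ev (C / ε) k (κ := 1 / (2 * 10 ^ 6)) (by norm_num),
    tendsto_LL.eventually (ev_rpow 1 (κ := 1 / (2 * 10 ^ 6)) (a := 3 / 4) (b := 1) (by norm_num)
      (by norm_num))] with x h1 h2 h3 h4
  rw [div_mul_eq_mul_div, div_le_iff₀' hε] at h3
  rw [one_mul, rpow_one] at h4
  calc C * LL x ^ k * exp (-(LL x / 10 ^ 6)) * MM x ≤ ε * exp (1 / (2 * 10 ^ 6) * LL x) *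
        exp (-(LL x / 10 ^ 6)) * exp (1 / (2 * 10 ^ 6) * LL x) :=
        mul_le_mul (mul_le_mul_of_nonneg_right h3 (exp_pos _).le) (h1.trans (exp_le_exp.2 h4))
          (sum_nonneg fun _ _ => by positivity) (by positivity)
    _ = ε := by
        rw [mul_assoc, mul_assoc, ← exp_add, ← exp_add, show 1 / (2 * 10 ^ 6) * LL x +
          (-(LL x / 10 ^ 6) + 1 / (2 * 10 ^ 6) * LL x) = 0 by ring, exp_zero, mul_one]

theorem Ab_tot {u : ℕ} (h : IsTot u) : 1 ≤ u := by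
  obtain ⟨n, hn, rfl⟩ := h
  exact Nat.totient_pos.2 hn

theorem Ab_pred {p : ℕ} (hp : p.Prime) : (p : ℝ) ≤ 2 * ((p - 1 : ℕ) : ℝ) ∧ 1 ≤ ((p - 1 : ℕ) : ℝ) := by
  have := hp.two_le
  exact ⟨by exact_mod_cast (by omega : p ≤ 2 * (p - 1)), by exact_mod_cast (by omega : 1 ≤ p - 1)⟩

theorem abA_card {c ε : ℝ} (hc : 1 ≤ c) (hε : 0 < ε) : ∀ᶠ x in atTop, ∀ T : Finset ℕ,
    (∀ v ∈ T, (v : ℝ) ≤ c * x ∧ AbA x v) → (T.card : ℝ) ≤ ε * (x / ll x) := by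
  filter_upwards [ev_par, eventually_ge_atTop c, abn_count, Ab_fin (2 * c) 0 hε]
    with x hP hx h e T hT
  classical
  have hx0 : 0 < x := by linarith [hP.x16]
  have hl : 0 < ll x := hP.ll_eq ▸ exp_pos _
  have h1 : T ⊆ (Vs (x ^ 2)).biUnion fun u => ((PP (2 * c * x / u)).filter
      fun p : ℕ => Abn x p ∧ yy x < p).image fun p => (p - 1) * u := by
    intro v hv
    obtain ⟨a, p, u, b1, b2, b3, rfl⟩ := hT v hv
    obtain ⟨d1, d2⟩ := Ab_pred b1.1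
    have u1 : (1 : ℝ) ≤ u := by exact_mod_cast Ab_tot b3
    rw [Nat.cast_mul] at a
    refine mem_biUnion.2 ⟨u, mem_Vs.2 ⟨b3, by nlinarith⟩, mem_image.2 ⟨p, mem_filter.2
      ⟨mem_PP.2 ⟨b1.1, ?_⟩, b1, b2⟩, rfl⟩⟩
    rw [le_div_iff₀ (by linarith)]
    nlinarith
  refine (Nat.cast_le.2 ((card_le_card h1).trans card_biUnion_le)).trans ?_
  rw [Nat.cast_sum]
  refine (sum_le_sum (g := fun u : ℕ => 2 * c * x / ll x * exp (-(LL x / 10 ^ 6)) * (1 / u))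
    fun u _ => (Nat.cast_le.2 card_image_le).trans ?_).trans ?_
  · rcases le_or_gt (yy x) (2 * c * x / u) with g | g
    · refine (h _ g _ fun p hp => ⟨(mem_filter.1 hp).2.1, (mem_PP.1 (mem_filter.1 hp).1).2⟩).trans_eq ?_
      ring
    · rw [filter_false_of_mem fun p hp hp' => by linarith [(mem_PP.1 hp).2, hp'.2], card_empty,
        Nat.cast_zero]
      positivity
  rw [← mul_sum, ← MM]
  refine le_of_eq_of_le ?_ (mul_le_mul_of_nonneg_right e (div_pos hx0 hl).le)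
  ring

theorem Ab_cheb {y X : ℝ} (hy : 1 < y) (hX : 0 ≤ X) :
    (((PP X).filter fun p : ℕ => y < p).card : ℝ) ≤ 2 * X / log y := by
  rw [le_div_iff₀ (log_pos hy), ← nsmul_eq_mul]
  refine (card_nsmul_le_sum _ (fun p : ℕ => log p) _ fun p hp =>
    log_le_log (by linarith) (mem_filter.1 hp).2.le).trans
    ((sum_le_sum_of_subset_of_nonneg (filter_subset _ _) fun p _ _ => log_natCast_nonneg p).trans ?_)
  rw [PP, ← Chebyshev.theta_eq_sum_primesLE]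
  refine (Chebyshev.theta_le_log4_mul_x hX).trans (mul_le_mul_of_nonneg_right ?_ hX)
  rw [show (4 : ℝ) = 2 ^ 2 by norm_num, log_pow]
  push_cast
  linarith [log_two_lt_d9]

theorem abB_card {c ε : ℝ} (hc : 1 ≤ c) (hε : 0 < ε) : ∀ᶠ x in atTop, ∀ T : Finset ℕ,
    (∀ v ∈ T, (v : ℝ) ≤ c * x ∧ AbB x v) → (T.card : ℝ) ≤ ε * (x / ll x) := by
  filter_upwards [ev_par, eventually_ge_atTop (2 * c), abn_recip,
    Ab_fin (8 * c) 4 hε] with x hP hx h e T hT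
  classical
  have hx0 : 0 < x := by linarith [hP.x16]
  have hl : 0 < ll x := hP.ll_eq ▸ exp_pos _
  have hL := hP.L100
  obtain ⟨-, z8, zy, -⟩ := Ab_zy hP
  have h1 : T ⊆ ((PP (x ^ 2)).filter (Abn x) ×ˢ Vs (x ^ 2)).biUnion fun t =>
      ((PP (4 * c * x / (t.1 * t.2))).filter fun p : ℕ => yy x < p).image
        fun p => (p - 1) * (t.1 - 1) * t.2 := by
    intro v hv
    obtain ⟨a, q, p, u, b0, b2, b1, b3, rfl⟩ := hT v hv
    obtain ⟨d1, d2⟩ := Ab_pred b1.1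
    obtain ⟨d3, d4⟩ := Ab_pred b0
    have u1 : (1 : ℝ) ≤ u := by exact_mod_cast Ab_tot b3
    have p0 : (0 : ℝ) < p := by exact_mod_cast b1.1.pos
    rw [Nat.cast_mul, Nat.cast_mul] at a
    have a1 : ((p - 1 : ℕ) : ℝ) * u ≤ c * x := by
      refine le_trans ?_ a
      rw [mul_assoc]; exact le_mul_of_one_le_left (by positivity) d4
    refine mem_biUnion.2 ⟨(p, u), mem_product.2 ⟨mem_filter.2 ⟨mem_PP.2 ⟨b1.1, by nlinarith⟩, b1⟩,
      mem_Vs.2 ⟨b3, by nlinarith⟩⟩, mem_image.2 ⟨q, mem_filter.2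
      ⟨mem_PP.2 ⟨b0, ?_⟩, b2⟩, rfl⟩⟩
    rw [le_div_iff₀ (by positivity)]
    calc (q : ℝ) * (p * u) ≤ 2 * ((q - 1 : ℕ) : ℝ) * (2 * ((p - 1 : ℕ) : ℝ) * u) := by gcongr
      _ ≤ _ := by linarith
  refine (Nat.cast_le.2 ((card_le_card h1).trans card_biUnion_le)).trans ?_
  rw [Nat.cast_sum]
  refine (sum_le_sum (g := fun t : ℕ × ℕ => 8 * c * LL x ^ 4 * (x / ll x) * (1 / t.1 * (1 / t.2)))
    fun t _ => (Nat.cast_le.2 card_image_le).trans ((Ab_cheb (by linarith [hP.y8_yy])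
      (by positivity)).trans_eq ?_)).trans ?_
  · rw [yy, log_exp, div_div_eq_mul_div]; ring
  rw [← mul_sum, sum_product' (f := fun p u : ℕ => (1 : ℝ) / p * (1 / u)), ← sum_mul_sum, ← MM]
  have h2 := h ((PP (x ^ 2)).filter (Abn x)) fun p hp =>
    ⟨(mem_filter.1 hp).2, (mem_PP.1 (mem_filter.1 hp).1).2⟩
  have h3 : 0 ≤ MM x := sum_nonneg fun _ _ => by positivity
  refine le_trans (le_of_le_of_eq (b := 8 * c * LL x ^ 4 * (x / ll x) *
    (exp (-(LL x / 10 ^ 6)) * MM x)) (by gcongr) (by ring))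
    (mul_le_mul_of_nonneg_right e (div_pos hx0 hl).le)

end Vale.Agent.P031
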