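import Vale.Agent.P031.Four

namespace Vale.Agent.P031

open Finset Real Filter

/-- the error term for the progression `1 mod q` -/
noncomputable def EE1 (W : ℝ → ℝ) (X : ℝ) (q : ℕ) : ℝ :=
  ∑ n ∈ (Icc 1 ⌊3 * X⌋₊).filter (fun n => n ≡ 1 [MOD q]),
      ArithmeticFunction.vonMangoldt n * W (n / X) -
    1 / Nat.totient q * ∑ n ∈ Icc 1 ⌊3 * X⌋₊, ArithmeticFunction.vonMangoldt n * W (n / X)

theorem BVa_bad {Y : ℝ} (hY : 1 ≤ Y) {q : ℕ} (hq : q ≠ 0) :
    ∑ n ∈ Icc 1 ⌊Y⌋₊, (if n.Coprime q then 0 else ArithmeticFunction.vonMangoldt n) ≤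
      2 * log q * log Y := by
  have hN : ⌊Y⌋₊ ≠ 0 := (Nat.floor_pos.2 hY).ne'
  have hL := log_nonneg hY
  have h1 : ∀ n ∈ Icc 1 ⌊Y⌋₊, (if n.Coprime q then 0 else ArithmeticFunction.vonMangoldt n) ≤
      ∑ p ∈ q.primeFactors, if n ∈ (p ^ Nat.log p ⌊Y⌋₊).divisors then
        ArithmeticFunction.vonMangoldt n else 0 := fun n hn => by
    have h0 : ∀ p ∈ q.primeFactors, 0 ≤ if n ∈ (p ^ Nat.log p ⌊Y⌋₊).divisors then
        ArithmeticFunction.vonMangoldt n else 0 := fun p _ => by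
      split_ifs
      exacts [ArithmeticFunction.vonMangoldt_nonneg, le_rfl]
    by_cases hc : n.Coprime q
    · rw [if_pos hc]; exact sum_nonneg h0
    rw [if_neg hc]
    by_cases hz : ArithmeticFunction.vonMangoldt n = 0
    · rw [hz] at h0 ⊢; exact sum_nonneg h0
    obtain ⟨p, k, hp, hk, rfl⟩ := (isPrimePow_nat_iff n).1
      (ArithmeticFunction.vonMangoldt_ne_zero_iff.1 hz)
    have hpq : p ∈ q.primeFactors := by
      refine Nat.mem_primeFactors.2 ⟨hp, ?_, hq⟩
      by_contra h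
      exact hc (((Nat.Prime.coprime_iff_not_dvd hp).2 h).pow_left k)
    refine le_trans (le_of_eq (if_pos ?_).symm) (single_le_sum h0 hpq)
    exact Nat.mem_divisors.2 ⟨pow_dvd_pow p (Nat.le_log_of_pow_le hp.one_lt (mem_Icc.1 hn).2),
      pow_ne_zero _ hp.ne_zero⟩
  refine (sum_le_sum h1).trans ?_
  rw [sum_comm]
  have h2 : ∑ p ∈ q.primeFactors, log p ≤ log q := by
    rw [← log_prod fun p hp => Nat.cast_ne_zero.2 (Nat.prime_of_mem_primeFactors hp).ne_zero,
      ← Nat.cast_prod]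
    exact log_le_log (Nat.cast_pos.2 (prod_pos fun p hp => Nat.pos_of_mem_primeFactors hp))
      (Nat.cast_le.2 (Nat.le_of_dvd (Nat.pos_of_ne_zero hq) (Nat.prod_primeFactors_dvd q)))
  refine le_trans (sum_le_sum (g := fun p : ℕ => log p * (2 * log Y)) fun p hp => ?_) ?_
  · have hp' := Nat.prime_of_mem_primeFactors hp
    rw [sum_ite_mem]
    refine (sum_le_sum_of_subset_of_nonneg inter_subset_right
      fun _ _ _ => ArithmeticFunction.vonMangoldt_nonneg).trans ?_
    rw [ArithmeticFunction.vonMangoldt_sum]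
    have a1 : log ((p ^ Nat.log p ⌊Y⌋₊ : ℕ) : ℝ) ≤ log Y :=
      log_le_log (Nat.cast_pos.2 (pow_pos hp'.pos _))
        ((Nat.cast_le.2 (Nat.pow_log_le_self p hN)).trans (Nat.floor_le (by linarith)))
    have a2 : log 2 ≤ log p := log_le_log two_pos (by exact_mod_cast hp'.two_le)
    have := log_two_gt_d9
    nlinarith
  · rw [← sum_mul]
    nlinarith

theorem BVa_prim {q : ℕ} [NeZero q] (F : (r : ℕ) → DirichletCharacter ℂ r → ℝ)
    (hF : ∀ r χ, 0 ≤ F r χ) :
    ∑ χ ∈ (univ : Finset (DirichletCharacter ℂ q)).erase 1, F _ χ.primitiveCharacter ≤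
      ∑ r ∈ q.divisors.erase 1, ∑ χ ∈ prim r, F r χ := by
  classical
  let f : DirichletCharacter ℂ q → Σ r : ℕ, DirichletCharacter ℂ r :=
    fun χ => ⟨_, χ.primitiveCharacter⟩
  have key : ∀ (d d' : ℕ) (h : d ∣ q) (h' : d' ∣ q) (ψ : DirichletCharacter ℂ d)
      (ψ' : DirichletCharacter ℂ d'), (⟨d, ψ⟩ : Σ r : ℕ, DirichletCharacter ℂ r) = ⟨d', ψ'⟩ →
      DirichletCharacter.changeLevel h ψ = DirichletCharacter.changeLevel h' ψ' := by
    intro d d' h h' ψ ψ' e
    cases e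
    rfl
  have hf : Function.Injective f := fun χ χ' e => by
    rw [← χ.changeLevel_primitiveCharacter, ← χ'.changeLevel_primitiveCharacter]
    exact key _ _ _ _ _ _ e
  rw [sum_sigma', ← sum_image (g := f) (f := fun x => F x.1 x.2) fun _ _ _ _ e => hf e]
  refine sum_le_sum_of_subset_of_nonneg (fun x hx => ?_) fun _ _ _ => hF _ _
  obtain ⟨χ, hχ, rfl⟩ := mem_image.1 hx
  refine mem_sigma.2 ⟨mem_erase.2 ⟨fun e => (mem_erase.1 hχ).1
    (DirichletCharacter.eq_one_iff_conductor_eq_one.2 e), Nat.mem_divisors.2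
      ⟨χ.conductor_dvd_level, NeZero.ne q⟩⟩, (mem_prim χ.conductor_ne_zero).2
        χ.primitiveCharacter_isPrimitive⟩

/-- reduction to primitive characters -/
theorem EE1_le {ε : ℝ} {W : ℝ → ℝ} (hW : Cut ε W) {X : ℝ} (hX : 1 ≤ X) {q : ℕ} (hq : q ≠ 0) :
    |EE1 W X q| ≤ 1 / Nat.totient q * ∑ r ∈ q.divisors.erase 1,
      ∑ χ ∈ prim r, ‖SW W X (lamChi χ)‖ + 2 * log q * log (3 * X) := by
  haveI : NeZero q := ⟨hq⟩
  have hφ : (0 : ℝ) < Nat.totient q := Nat.cast_pos.2 (Nat.totient_pos.2 (Nat.pos_of_ne_zero hq))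
  have hcard : (univ : Finset (DirichletCharacter ℂ q)).card = q.totient := by
    rw [card_univ, ← Nat.card_eq_fintype_card,
      DirichletCharacter.card_eq_totient_of_hasEnoughRootsOfUnity]
  have h1 : ∑ χ : DirichletCharacter ℂ q, SW W X (lamChi χ) = (q.totient : ℂ) *
      ((∑ n ∈ (Icc 1 ⌊3 * X⌋₊).filter (fun n => n ≡ 1 [MOD q]),
        ArithmeticFunction.vonMangoldt n * W (n / X) : ℝ) : ℂ) := by
    simp only [SW, lamChi]
    rw [sum_comm, sum_filter, Complex.ofReal_sum, mul_sum]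
    refine sum_congr rfl fun n _ => ?_
    rw [← sum_mul, ← mul_sum, DirichletCharacter.sum_characters_eq]
    have e : (n : ZMod q) = 1 ↔ n ≡ 1 [MOD q] := by
      rw [← ZMod.natCast_eq_natCast_iff, Nat.cast_one]
    by_cases h : n ≡ 1 [MOD q]
    · rw [if_pos h, if_pos (e.2 h)]; push_cast; ring
    · rw [if_neg h, if_neg (mt e.1 h)]; simp
  have h2 : SW W X (lamChi (1 : DirichletCharacter ℂ q).primitiveCharacter) =
      ((∑ n ∈ Icc 1 ⌊3 * X⌋₊, ArithmeticFunction.vonMangoldt n * W (n / X) : ℝ) : ℂ) := by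
    simp only [SW, lamChi]
    rw [Complex.ofReal_sum]
    refine sum_congr rfl fun n _ => ?_
    have e : ∀ (d : ℕ) (ψ : DirichletCharacter ℂ d), d = 1 → ψ n = 1 := by
      rintro d ψ rfl
      rw [Subsingleton.elim (n : ZMod 1) 1, map_one]
    rw [e _ _ DirichletCharacter.conductor_one]
    push_cast; ring
  have h3 : ∀ χ : DirichletCharacter ℂ q, ‖SW W X (lamChi χ) -
      SW W X (lamChi χ.primitiveCharacter)‖ ≤ 2 * log q * log (3 * X) := fun χ => by
    refine le_trans ?_ (BVa_bad (by linarith) hq)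
    rw [SW, SW, ← sum_sub_distrib]
    refine (norm_sum_le _ _).trans (sum_le_sum fun n _ => ?_)
    split_ifs with h
    · have := χ.primitiveCharacter_apply_of_isCoprime (a := n) (Nat.isCoprime_iff_coprime.2 h)
      rw [Int.cast_natCast, Int.cast_natCast] at this
      rw [lamChi, lamChi, this, sub_self, norm_zero]
    · rw [lamChi, lamChi, χ.map_nonunit (mt (ZMod.isUnit_iff_coprime n q).1 h), mul_zero, zero_mul,
        zero_sub, norm_neg, norm_mul, norm_mul, Complex.norm_real, Complex.norm_real,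
        Real.norm_of_nonneg ArithmeticFunction.vonMangoldt_nonneg,
        Real.norm_of_nonneg (hW.nonneg _), mul_assoc]
      exact mul_le_of_le_one_right ArithmeticFunction.vonMangoldt_nonneg
        (mul_le_one₀ (DirichletCharacter.norm_le_one _ _) (hW.nonneg _) (hW.le _))
  have h4 : ((q.totient * EE1 W X q : ℝ) : ℂ) =
      ∑ χ ∈ (univ : Finset (DirichletCharacter ℂ q)).erase 1, SW W X (lamChi χ.primitiveCharacter)
      + ∑ χ : DirichletCharacter ℂ q,
        (SW W X (lamChi χ) - SW W X (lamChi χ.primitiveCharacter)) := by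
    rw [sum_sub_distrib, h1, ← add_sum_erase _ _ (mem_univ 1), h2, EE1, mul_sub, ← mul_assoc,
      mul_one_div_cancel hφ.ne', one_mul, Complex.ofReal_sub, Complex.ofReal_mul,
      Complex.ofReal_natCast]
    ring
  have h5 := congrArg norm h4
  rw [Complex.norm_real, Real.norm_eq_abs, abs_mul, abs_of_pos hφ] at h5
  have h6 := (norm_sum_le _ _).trans (BVa_prim (q := q) (fun r χ => ‖SW W X (lamChi χ)‖)
    fun _ _ => norm_nonneg _)
  have h7 := (norm_sum_le _ _).trans (sum_le_card_nsmul univ _ _ fun χ _ => h3 χ)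
  rw [hcard, nsmul_eq_mul] at h7
  have h8 := h5.le.trans (norm_add_le_of_le h6 h7)
  rw [← le_div_iff₀' hφ] at h8
  refine h8.trans (le_of_eq ?_)
  field_simp

end Vale.Agent.P031
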