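import Vale.Agent.P031.LSa

namespace Vale.Agent.P031

open Finset Real Filter

theorem LSm_orth {ι κ : Type*} [Fintype ι] [Fintype κ] [DecidableEq κ] (e : ι → κ → ℂ)
    (w : κ → ℝ) (h : ∀ a b, ∑ i, e i a * (starRingEnd ℂ) (e i b) = if a = b then (w a : ℂ) else 0)
    (u : κ → ℂ) : ∑ i, ‖∑ a, e i a * u a‖ ^ 2 = ∑ a, w a * ‖u a‖ ^ 2 := by
  apply Complex.ofReal_injective
  push_cast
  simp only [← Complex.mul_conj', map_sum, sum_mul_sum, map_mul]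
  rw [sum_comm]
  refine sum_congr rfl fun a _ => ?_
  rw [sum_comm]
  have : ∀ b, ∑ i, e i a * u a * ((starRingEnd ℂ) (e i b) * (starRingEnd ℂ) (u b)) =
      if a = b then w a * (u a * (starRingEnd ℂ) (u b)) else 0 := by
    intro b
    rw [← ite_zero_mul, ← h, sum_mul]
    exact sum_congr rfl fun i _ => by ring
  simp only [this]
  rw [sum_ite_eq, if_pos (mem_univ _)]

theorem LSm_add {r : ℕ} [NeZero r] (u : ZMod r → ℂ) :
    ∑ n : ZMod r, ‖∑ a, ZMod.stdAddChar (n * a) * u a‖ ^ 2 = r * ∑ a, ‖u a‖ ^ 2 := by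
  rw [LSm_orth (fun n a : ZMod r => ZMod.stdAddChar (n * a)) (fun _ => r) ?_ u, mul_sum]
  intro a b
  simp only [← AddChar.map_neg_eq_conj, ← AddChar.map_add_eq_mul, ← sub_eq_add_neg, ← mul_sub]
  rw [AddChar.sum_mulShift _ (ZMod.isPrimitive_stdAddChar r)]
  simp [sub_eq_zero]

open Classical in
theorem LSm_mul {r : ℕ} [NeZero r] (u : ZMod r → ℂ) :
    ∑ χ : DirichletCharacter ℂ r, ‖∑ a, χ⁻¹ a * u a‖ ^ 2 =
      Nat.totient r * ∑ a with IsUnit a, ‖u a‖ ^ 2 := by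
  rw [LSm_orth (fun (χ : DirichletCharacter ℂ r) (a : ZMod r) => χ⁻¹ a)
    (fun a => if IsUnit a then Nat.totient r else 0) ?_ u, mul_sum, sum_filter]
  · exact sum_congr rfl fun a _ => by split_ifs <;> simp
  intro a b
  by_cases ha : IsUnit a
  · rw [if_pos ha]
    have := DirichletCharacter.sum_char_inv_mul_char_eq ℂ ha b
    rw [Complex.ofReal_natCast, ← this]
    refine sum_congr rfl fun χ _ => ?_
    have e1 : (starRingEnd ℂ) (χ⁻¹ b) = χ b := by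
      have := MulChar.star_apply' χ⁻¹ b
      rwa [inv_inv] at this
    rw [e1, MulChar.inv_apply_eq_inv']
    congr 1
    apply inv_eq_of_mul_eq_one_right
    rw [← map_mul, ZMod.mul_inv_of_unit a ha, map_one]
  · simp [MulChar.map_nonunit _ ha, ha]

theorem LSm_gauss {r : ℕ} [NeZero r] {χ : DirichletCharacter ℂ r} (h : χ.IsPrimitive)
    (n : ZMod r) : ∑ a, ZMod.stdAddChar (n * a) * χ⁻¹ a = χ n * gaussSum χ⁻¹ ZMod.stdAddChar := by
  have h' : χ⁻¹.IsPrimitive := by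
    rwa [DirichletCharacter.isPrimitive_def, DirichletCharacter.conductor_inv]
  have := gaussSum_mulShift_of_isPrimitive ZMod.stdAddChar h' n
  rw [inv_inv] at this
  rw [← this, gaussSum]
  exact sum_congr rfl fun a _ => by rw [AddChar.mulShift_apply, mul_comm]

theorem LSm_tau {r : ℕ} [NeZero r] {χ : DirichletCharacter ℂ r} (h : χ.IsPrimitive) :
    ‖gaussSum χ⁻¹ ZMod.stdAddChar‖ ^ 2 = r := by
  have h1 := LSm_add fun a => χ⁻¹ a
  simp only [LSm_gauss h, norm_mul, mul_pow] at h1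
  have h2 : ∀ a, ‖χ⁻¹ a‖ = ‖χ a‖ := fun a => by rw [← MulChar.star_apply', norm_star]
  simp only [h2] at h1
  rw [← sum_mul, mul_comm] at h1
  refine mul_right_cancel₀ (ne_of_gt ?_) h1
  exact sum_pos' (fun _ _ => by positivity) ⟨1, mem_univ _, by simp⟩

theorem LSm_one (r : ℕ) (hr : r ≠ 0) (s : Finset ℕ) (c : ℕ → ℂ) :
    (r : ℝ) / Nat.totient r * ∑ χ ∈ prim r, ‖∑ n ∈ s, c n * χ n‖ ^ 2 ≤
      ∑ a ∈ (range r).filter (fun a => a.Coprime r),
        ‖∑ n ∈ s, c n * Complex.exp (2 * π * Complex.I * n * a / r)‖ ^ 2 := by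
  classical
  haveI : NeZero r := ⟨hr⟩
  set S : ZMod r → ℂ := fun a => ∑ n ∈ s, c n * ZMod.stdAddChar ((n : ZMod r) * a) with hS
  have h1 : ∀ χ ∈ prim r, (r : ℝ) * ‖∑ n ∈ s, c n * χ n‖ ^ 2 = ‖∑ a, χ⁻¹ a * S a‖ ^ 2 := by
    intro χ hχ
    have hp := (mem_prim hr).1 hχ
    rw [← LSm_tau hp, ← mul_pow, ← norm_mul]
    congr 2
    simp only [hS, mul_sum]
    rw [sum_comm]
    refine sum_congr rfl fun n _ => ?_
    rw [mul_comm, mul_assoc, ← LSm_gauss hp, mul_sum]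
    exact sum_congr rfl fun a _ => by ring
  have hφ : (0 : ℝ) < Nat.totient r := by exact_mod_cast Nat.totient_pos.2 (Nat.pos_of_ne_zero hr)
  rw [div_mul_eq_mul_div, div_le_iff₀ hφ, mul_sum, sum_congr rfl h1]
  refine (sum_le_sum_of_subset_of_nonneg (subset_univ _) fun _ _ _ => by positivity).trans ?_
  rw [LSm_mul, mul_comm]
  refine mul_le_mul_of_nonneg_right (le_of_eq ?_) hφ.le
  symm
  refine sum_nbij' (fun a : ℕ => (a : ZMod r)) (fun a => a.val) ?_ ?_ ?_ ?_ ?_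
  · intro a ha
    simp only [mem_filter, mem_range, mem_univ, true_and] at ha ⊢
    exact (ZMod.isUnit_iff_coprime a r).2 ha.2
  · intro a ha
    simp only [mem_filter, mem_range, mem_univ, true_and] at ha ⊢
    refine ⟨ZMod.val_lt a, (ZMod.isUnit_iff_coprime a.val r).1 ?_⟩
    rwa [ZMod.natCast_zmod_val]
  · intro a ha
    exact ZMod.val_cast_of_lt (mem_range.1 (mem_filter.1 ha).1)
  · intro a _
    exact ZMod.natCast_zmod_val a
  · intro a _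
    congr 2
    refine sum_congr rfl fun n _ => ?_
    have := ZMod.stdAddChar_coe (N := r) ((n * a : ℕ) : ℤ)
    push_cast at this
    rw [this, mul_assoc (2 * π * Complex.I : ℂ)]

theorem large_sieve_mul : ∃ C : ℝ, 0 ≤ C ∧ ∀ (Q M N : ℕ) (c : ℕ → ℂ),
    ∑ r ∈ Icc 1 Q, (r : ℝ) / Nat.totient r * ∑ χ ∈ prim r, ‖∑ n ∈ Ioc M (M + N), c n * χ n‖ ^ 2
      ≤ C * (N + Q ^ 2) * ∑ n ∈ Ioc M (M + N), ‖c n‖ ^ 2 := by
  obtain ⟨C, hC, h⟩ := large_sieve_add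
  refine ⟨C, hC, fun Q M N c => le_trans (sum_le_sum fun r hr => ?_) (h Q M N c)⟩
  exact LSm_one r (by have := (mem_Icc.1 hr).1; omega) _ c

theorem LSm_blocks {E : Type*} [AddCommMonoid E] (F : ℕ → E) (U J : ℕ) :
    ∑ n ∈ Ioc U (U * 2 ^ J), F n =
      ∑ j ∈ range J, ∑ n ∈ Ioc (U * 2 ^ j) (U * 2 ^ j + U * 2 ^ j), F n := by
  induction J with
  | zero => simp
  | succ J ih =>
    rw [sum_range_succ, ← ih, sum_Ioc_consecutive _ (Nat.le_mul_of_pos_right _ (by positivity))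
      (Nat.le_add_right _ _), pow_succ, ← mul_assoc, mul_two]

theorem large_sieve_dyadic : ∃ C : ℝ, 0 ≤ C ∧ ∀ (Q U Z : ℕ) (c : ℕ → ℂ), 1 ≤ U → Q ^ 2 ≤ U →
    ∑ r ∈ Icc 1 Q, (r : ℝ) / Nat.totient r * ∑ χ ∈ prim r, ‖∑ n ∈ Ioc U Z, c n * χ n‖ ^ 2
      ≤ C * (1 + log Z) * ∑ n ∈ Ioc U Z, (n : ℝ) * ‖c n‖ ^ 2 := by
  obtain ⟨C, hC, h⟩ := large_sieve_mul
  refine ⟨4 * C, by positivity, fun Q U Z c hU hQ => ?_⟩
  set J := Nat.log 2 Z + 1 with hJ
  have hZ : Z ≤ U * 2 ^ J :=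
    (Nat.lt_pow_succ_log_self (by norm_num) Z).le.trans (Nat.le_mul_of_pos_left _ hU)
  have hJ2 : (J : ℝ) ≤ 2 * (1 + log Z) := by
    have h1 := Real.natLog_le_logb Z 2
    have h2 : (0 : ℝ) ≤ log Z := log_natCast_nonneg Z
    have h3 := log_two_gt_d9
    rw [logb, Nat.cast_ofNat, le_div_iff₀ (by linarith)] at h1
    have h4 : (0 : ℝ) ≤ Nat.log 2 Z := Nat.cast_nonneg _
    rw [hJ]
    push_cast
    nlinarith
  set c' : ℕ → ℂ := fun n => if n ≤ Z then c n else 0 with hc'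
  have ext : ∀ {E : Type} [AddCommMonoid E] (F G : ℕ → E), (∀ n, n ≤ Z → F n = G n) →
      (∀ n, Z < n → G n = 0) → ∑ n ∈ Ioc U Z, F n =
      ∑ j ∈ range J, ∑ n ∈ Ioc (U * 2 ^ j) (U * 2 ^ j + U * 2 ^ j), G n := by
    intro E _ F G h1 h2
    rw [← LSm_blocks, sum_congr rfl fun n hn => h1 n (mem_Ioc.1 hn).2]
    refine sum_subset (Ioc_subset_Ioc_right hZ) fun n hn hn' => h2 n ?_
    simp only [mem_Ioc] at hn hn'
    omega
  have h1 : ∀ (r : ℕ) (χ : DirichletCharacter ℂ r), ‖∑ n ∈ Ioc U Z, c n * χ n‖ ^ 2 ≤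
      J * ∑ j ∈ range J, ‖∑ n ∈ Ioc (U * 2 ^ j) (U * 2 ^ j + U * 2 ^ j), c' n * χ n‖ ^ 2 := by
    intro r χ
    rw [ext (fun n => c n * χ n) (fun n => c' n * χ n) (fun n hn => by simp [hc', hn])
      (fun n hn => by simp [hc', hn])]
    refine (pow_le_pow_left₀ (norm_nonneg _) (norm_sum_le _ _) 2).trans ?_
    simpa using sq_sum_le_card_mul_sum_sq (s := range J)
      (f := fun j => ‖∑ n ∈ Ioc (U * 2 ^ j) (U * 2 ^ j + U * 2 ^ j), c' n * χ n‖)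
  rw [ext (fun n => (n : ℝ) * ‖c n‖ ^ 2) (fun n => (n : ℝ) * ‖c' n‖ ^ 2)
    (fun n hn => by simp [hc', hn]) (fun n hn => by simp [hc', hn])]
  calc _ ≤ ∑ r ∈ Icc 1 Q, (r : ℝ) / Nat.totient r * ∑ χ ∈ prim r, J * ∑ j ∈ range J,
        ‖∑ n ∈ Ioc (U * 2 ^ j) (U * 2 ^ j + U * 2 ^ j), c' n * χ n‖ ^ 2 :=
        sum_le_sum fun r _ =>
          mul_le_mul_of_nonneg_left (sum_le_sum fun χ _ => h1 r χ) (by positivity)
    _ = J * ∑ j ∈ range J, ∑ r ∈ Icc 1 Q, (r : ℝ) / Nat.totient r * ∑ χ ∈ prim r,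
        ‖∑ n ∈ Ioc (U * 2 ^ j) (U * 2 ^ j + U * 2 ^ j), c' n * χ n‖ ^ 2 := by
        rw [sum_comm, mul_sum]
        refine sum_congr rfl fun r _ => ?_
        rw [← mul_sum, ← mul_sum, sum_comm]
        ring
    _ ≤ J * ∑ j ∈ range J, 2 * C *
        ∑ n ∈ Ioc (U * 2 ^ j) (U * 2 ^ j + U * 2 ^ j), (n : ℝ) * ‖c' n‖ ^ 2 := by
        refine mul_le_mul_of_nonneg_left (sum_le_sum fun j _ => (h Q _ _ c').trans ?_)
          (by positivity)
        rw [mul_sum, mul_sum]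
        refine sum_le_sum fun n hn => ?_
        have a1 : U * 2 ^ j + Q ^ 2 ≤ 2 * n := by
          have := (mem_Ioc.1 hn).1
          have : U ≤ U * 2 ^ j := Nat.le_mul_of_pos_right _ (by positivity)
          omega
        have a2 : ((U * 2 ^ j : ℕ) : ℝ) + Q ^ 2 ≤ 2 * n := by exact_mod_cast a1
        have := mul_le_mul_of_nonneg_left a2 (by positivity : 0 ≤ C * ‖c' n‖ ^ 2)
        nlinarith
    _ ≤ _ := by
        rw [← mul_sum, ← mul_assoc]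
        refine mul_le_mul_of_nonneg_right ?_
          (sum_nonneg fun _ _ => sum_nonneg fun _ _ => by positivity)
        nlinarith

end Vale.Agent.P031
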