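import Vale.Agent.P031.VauA
import Vale.Agent.P031.LSm

namespace Vale.Agent.P031

open Finset Real Filter

namespace VauB

open MeasureTheory

theorem norm_e (t v : ℝ) : ‖Complex.exp (Complex.I * t * v)‖ = 1 := by
  rw [mul_assoc, mul_comm, ← Complex.ofReal_mul, Complex.norm_exp_ofReal_mul_I]

theorem int_term {g : ℝ → ℂ} (hg : Continuous g) (hi : Integrable fun t => ‖g t‖) (v : ℝ) :
    Integrable fun t : ℝ => g t * Complex.exp (Complex.I * t * v) :=
  hi.mono' (Continuous.aestronglyMeasurable (by fun_prop))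
    (Eventually.of_forall fun t => by rw [norm_mul, norm_e, mul_one])

theorem bV_nonneg (U n : ℕ) : 0 ≤ bV U n :=
  sum_nonneg fun _ _ => ArithmeticFunction.vonMangoldt_nonneg

theorem bV_le (U n : ℕ) : bV U n ≤ log n := by
  rw [← ArithmeticFunction.vonMangoldt_sum]
  exact sum_le_sum_of_subset_of_nonneg (filter_subset _ _) fun _ _ _ =>
    ArithmeticFunction.vonMangoldt_nonneg

theorem harm (U Z : ℕ) : ∑ n ∈ Ioc U Z, (n : ℝ)⁻¹ ≤ 1 + log Z := by
  have h := harmonic_le_one_add_log Z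
  rw [harmonic_eq_sum_Icc] at h
  push_cast at h
  refine le_trans (sum_le_sum_of_subset_of_nonneg (fun n hn => ?_) fun _ _ _ => by positivity) h
  rw [mem_Ioc] at hn
  exact mem_Icc.2 ⟨by omega, hn.2⟩

/-- the twisted Dirichlet polynomial -/
noncomputable def co (a : ℕ → ℝ) (t : ℝ) (n : ℕ) : ℂ :=
  (a n : ℂ) / n * Complex.exp (Complex.I * t * (log n : ℝ))

theorem sum_co {a : ℕ → ℝ} {U Z : ℕ} {K : ℝ} (ha : ∀ n ∈ Ioc U Z, |a n| ≤ K) (t : ℝ) :
    ∑ n ∈ Ioc U Z, (n : ℝ) * ‖co a t n‖ ^ 2 ≤ K ^ 2 * (1 + log Z) := by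
  refine le_trans ?_ (mul_le_mul_of_nonneg_left (harm U Z) (sq_nonneg K))
  rw [mul_sum]
  refine sum_le_sum fun n hn => ?_
  have h0 : (0 : ℝ) < n := by exact_mod_cast (Nat.zero_le U).trans_lt (mem_Ioc.1 hn).1
  rw [co, norm_mul, norm_e, mul_one, norm_div, Complex.norm_real, Complex.norm_natCast,
    Real.norm_eq_abs, show (n : ℝ) * (|a n| / n) ^ 2 = |a n| ^ 2 * (n : ℝ)⁻¹ by field_simp]
  gcongr
  exact ha n hn

/-- the integrand -/
noncomputable def ig (g : ℝ → ℂ) (X : ℝ) (U : ℕ) {r : ℕ} (χ : DirichletCharacter ℂ r) (t : ℝ) : ℂ :=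
  ∑ m ∈ Ioc U ⌊3 * X⌋₊, ∑ n ∈ Ioc U ⌊3 * X⌋₊,
    ((ArithmeticFunction.moebius m : ℤ) : ℂ) * (bV U n : ℂ) * χ m * χ n / (m * n) *
      (g t * Complex.exp (Complex.I * t * (log m + log n - log X : ℝ)))

theorem ig_int {g : ℝ → ℂ} (hg : Continuous g) (hi : Integrable fun t => ‖g t‖) (X : ℝ) (U : ℕ)
    {r : ℕ} (χ : DirichletCharacter ℂ r) : Integrable (ig g X U χ) :=
  integrable_finset_sum _ fun _ _ => integrable_finset_sum _ fun _ _ =>
    (int_term hg hi _).const_mul _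

theorem ig_norm (g : ℝ → ℂ) (X : ℝ) (U : ℕ) {r : ℕ} (χ : DirichletCharacter ℂ r) (t : ℝ) :
    ‖ig g X U χ t‖ = ‖g t‖ *
      (‖∑ m ∈ Ioc U ⌊3 * X⌋₊, co (fun m => (ArithmeticFunction.moebius m : ℤ)) t m * χ m‖ *
        ‖∑ n ∈ Ioc U ⌊3 * X⌋₊, co (bV U) t n * χ n‖) := by
  rw [← norm_mul, ← mul_one ‖g t‖, ← norm_e t (-log X), ← norm_mul, ← norm_mul, sum_mul_sum,
    mul_sum, ig]
  congr 1
  refine sum_congr rfl fun m _ => ?_
  rw [mul_sum]
  refine sum_congr rfl fun n _ => ?_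
  rw [co, co, sub_eq_add_neg, Complex.ofReal_add, Complex.ofReal_add, mul_add, mul_add,
    Complex.exp_add, Complex.exp_add, Complex.ofReal_intCast]
  ring

theorem II_eq {W : ℝ → ℝ} {g : ℝ → ℂ} (hg : Continuous g) (hi : Integrable fun t => ‖g t‖)
    (h : ∀ v : ℝ, ((exp v * W (exp v) : ℝ) : ℂ) = ∫ t : ℝ, g t * Complex.exp (Complex.I * t * v))
    {X : ℝ} (hX : 0 < X) (U : ℕ) {r : ℕ} (χ : DirichletCharacter ℂ r) :
    II W X U χ = X * ∫ t, ig g X U χ t := by
  unfold ig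
  rw [integral_finset_sum _ fun _ _ => integrable_finset_sum _ fun _ _ =>
    (int_term hg hi _).const_mul _, II, mul_sum]
  refine sum_congr rfl fun m hm => ?_
  rw [integral_finset_sum _ fun _ _ => (int_term hg hi _).const_mul _, mul_sum]
  refine sum_congr rfl fun n hn => ?_
  have hm0 : (0 : ℝ) < m := by exact_mod_cast (Nat.zero_le U).trans_lt (mem_Ioc.1 hm).1
  have hn0 : (0 : ℝ) < n := by exact_mod_cast (Nat.zero_le U).trans_lt (mem_Ioc.1 hn).1
  have hm1 : (m : ℂ) ≠ 0 := by exact_mod_cast hm0.ne'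
  have hn1 : (n : ℂ) ≠ 0 := by exact_mod_cast hn0.ne'
  have hX1 : (X : ℂ) ≠ 0 := by exact_mod_cast hX.ne'
  rw [integral_const_mul, ← h, exp_sub, exp_add, exp_log hm0, exp_log hn0, exp_log hX]
  push_cast
  field_simp

end VauB

open VauB MeasureTheory in
theorem typeII {ε : ℝ} {W : ℝ → ℝ} (hW : Cut ε W) : ∃ C : ℝ, ∀ (X R : ℝ) (Q U : ℕ), 1 ≤ X →
    0 < R → 1 ≤ U → Q ^ 2 ≤ U →
    ∑ r ∈ (Icc 1 Q).filter (fun r : ℕ => R < r), (1 : ℝ) / Nat.totient r *
      ∑ χ ∈ prim r, ‖II W X U χ‖ ≤ C * X * (1 + log (3 * X)) ^ 3 / R := by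
  obtain ⟨h, hh⟩ := hW.sch
  obtain ⟨g, hg, hi, he⟩ := exists_sep h
  have hi : Integrable fun t => ‖g t‖ := by simpa using hi 0
  obtain ⟨C, hC, hL⟩ := large_sieve_dyadic
  refine ⟨(∫ t, ‖g t‖) * C, fun X R Q U hX hR hU hQ => ?_⟩
  have hX0 : 0 < X := by linarith
  set L := 1 + log (3 * X) with hLd
  have hZ : 3 ≤ ⌊3 * X⌋₊ := Nat.le_floor (by push_cast; linarith)
  have hZ0 : (1 : ℝ) ≤ ⌊3 * X⌋₊ := by exact_mod_cast (by omega : 1 ≤ ⌊3 * X⌋₊)
  have hZ1 : 0 ≤ log ⌊3 * X⌋₊ := log_nonneg hZ0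
  have hZL : 1 + log ⌊3 * X⌋₊ ≤ L := by
    have := log_le_log (by linarith) (Nat.floor_le (by linarith : 0 ≤ 3 * X))
    linarith
  have hL0 : 0 < L := by linarith
  have key : ∀ t, ∑ r ∈ (Icc 1 Q).filter (fun r : ℕ => R < r), (1 : ℝ) / Nat.totient r *
      ∑ χ ∈ prim r, ‖ig g X U χ t‖ ≤ ‖g t‖ * (C * L ^ 3 / R) := by
    intro t
    have a1 := (hL Q U ⌊3 * X⌋₊ (co (fun m => (ArithmeticFunction.moebius m : ℤ)) t) hU hQ).trans
      (mul_le_mul (mul_le_mul_of_nonneg_left hZL hC) ((sum_co (K := 1) (fun n _ => by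
        rw [← Int.cast_abs]; exact_mod_cast ArithmeticFunction.abs_moebius_le_one) t).trans
        (mul_le_mul_of_nonneg_left hZL (by norm_num)))
        (sum_nonneg fun _ _ => by positivity) (by positivity))
    have a2 := (hL Q U ⌊3 * X⌋₊ (co (bV U) t) hU hQ).trans
      (mul_le_mul (mul_le_mul_of_nonneg_left hZL hC) ((sum_co (K := L) (fun n hn => by
        rw [abs_of_nonneg (bV_nonneg _ _)]
        have h1 := mem_Ioc.1 hn
        have : log n ≤ log ⌊3 * X⌋₊ := log_le_log (by exact_mod_cast (by omega : 0 < n))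
          (by exact_mod_cast h1.2)
        linarith [bV_le U n]) t).trans
        (mul_le_mul_of_nonneg_left hZL (by positivity)))
        (sum_nonneg fun _ _ => by positivity) (by positivity))
    calc _ ≤ ∑ r ∈ Icc 1 Q, ‖g t‖ / R * (L / 2 * ((r : ℝ) / Nat.totient r * ∑ χ ∈ prim r,
          ‖∑ m ∈ Ioc U ⌊3 * X⌋₊, co (fun m => (ArithmeticFunction.moebius m : ℤ)) t m * χ m‖ ^ 2) +
          1 / (2 * L) * ((r : ℝ) / Nat.totient r * ∑ χ ∈ prim r,
          ‖∑ n ∈ Ioc U ⌊3 * X⌋₊, co (bV U) t n * χ n‖ ^ 2)) := by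
          refine (sum_le_sum fun r hr => ?_).trans (sum_le_sum_of_subset_of_nonneg
            (filter_subset _ _) fun _ _ _ => by positivity)
          have h1 : (1 : ℝ) / Nat.totient r ≤ 1 / R * (r / Nat.totient r) := by
            rw [← mul_div_assoc]
            gcongr
            rw [one_div_mul_eq_div, one_le_div hR]
            exact (mem_filter.1 hr).2.le
          refine (mul_le_mul_of_nonneg_right h1 (sum_nonneg fun _ _ => norm_nonneg _)).trans ?_
          simp only [mul_sum, ← sum_add_distrib]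
          refine sum_le_sum fun χ _ => ?_
          rw [ig_norm]
          generalize ‖∑ m ∈ Ioc U ⌊3 * X⌋₊,
            co (fun m => (ArithmeticFunction.moebius m : ℤ)) t m * χ m‖ = A
          generalize ‖∑ n ∈ Ioc U ⌊3 * X⌋₊, co (bV U) t n * χ n‖ = B
          have h2 : A * B ≤ L / 2 * A ^ 2 + 1 / (2 * L) * B ^ 2 := by
            have : L / 2 * A ^ 2 + 1 / (2 * L) * B ^ 2 - A * B = (L * A - B) ^ 2 / (2 * L) := by
              field_simp
              ring
            have h3 : 0 ≤ (L * A - B) ^ 2 / (2 * L) := by positivity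
            linarith
          calc _ = ‖g t‖ / R * (r / Nat.totient r) * (A * B) := by ring
            _ ≤ ‖g t‖ / R * (r / Nat.totient r) * (L / 2 * A ^ 2 + 1 / (2 * L) * B ^ 2) := by
              gcongr
            _ = _ := by ring
      _ ≤ ‖g t‖ / R * (L / 2 * (C * L * (1 ^ 2 * L)) + 1 / (2 * L) * (C * L * (L ^ 2 * L))) := by
          rw [← mul_sum, sum_add_distrib, ← mul_sum, ← mul_sum]
          gcongr
      _ = _ := by field_simp; ring
  calc _ ≤ ∑ r ∈ (Icc 1 Q).filter (fun r : ℕ => R < r), (1 : ℝ) / Nat.totient r *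
        ∑ χ ∈ prim r, X * ∫ t, ‖ig g X U χ t‖ := by
        gcongr with r _ χ _
        rw [II_eq hg hi (fun v => (hh v).symm.trans (he v)) hX0, norm_mul, Complex.norm_real,
          Real.norm_of_nonneg hX0.le]
        gcongr
        exact norm_integral_le_integral_norm _
    _ = X * ∫ t, ∑ r ∈ (Icc 1 Q).filter (fun r : ℕ => R < r), (1 : ℝ) / Nat.totient r *
        ∑ χ ∈ prim r, ‖ig g X U χ t‖ := by
        rw [integral_finset_sum _ fun r _ =>
          (integrable_finset_sum _ fun χ _ => (ig_int hg hi X U χ).norm).const_mul _, mul_sum]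
        refine sum_congr rfl fun r _ => ?_
        rw [integral_const_mul, integral_finset_sum _ fun χ _ => (ig_int hg hi X U χ).norm,
          ← mul_sum]
        ring
    _ ≤ X * ∫ t, ‖g t‖ * (C * L ^ 3 / R) := by
        gcongr X * ?_
        exact integral_mono_of_nonneg (Eventually.of_forall fun t => by positivity)
          (hi.mul_const _) (Eventually.of_forall key)
    _ = _ := by rw [integral_mul_const]; ring

end Vale.Agent.P031
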