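import Vale.Agent.P031.BVa
import Vale.Agent.P031.VauB
import Vale.Agent.P031.SWal
import Vale.Agent.P031.EulA

namespace Vale.Agent.P031

open Finset Real Filter

theorem bvb_avg {r : ℕ} (hr : r ≠ 0) (f : DirichletCharacter ℂ r → ℝ) {M : ℝ} (hM : 0 ≤ M)
    (h : ∀ χ ∈ prim r, f χ ≤ M) : (1 : ℝ) / Nat.totient r * ∑ χ ∈ prim r, f χ ≤ M := by
  have : NeZero r := ⟨hr⟩
  have h0 : (0 : ℝ) < Nat.totient r := by exact_mod_cast Nat.totient_pos.2 (Nat.pos_of_ne_zero hr)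
  have h1 : (prim r).card ≤ Nat.totient r := by
    rw [← DirichletCharacter.card_eq_totient_of_hasEnoughRootsOfUnity ℂ r, Nat.card_eq_fintype_card]
    exact card_le_univ _
  have h2 := sum_le_card_nsmul _ _ _ h
  rw [nsmul_eq_mul] at h2
  rw [one_div, inv_mul_le_iff₀ h0]
  exact h2.trans (mul_le_mul_of_nonneg_right (by exact_mod_cast h1) hM)

theorem bvb_ne_one {r : ℕ} (hr : 2 ≤ r) {χ : DirichletCharacter ℂ r} (h : χ.IsPrimitive) :
    χ ≠ 1 := by
  have : NeZero r := ⟨by omega⟩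
  rintro rfl
  have h1 := (DirichletCharacter.isPrimitive_def _).1 h
  rw [DirichletCharacter.conductor_one] at h1
  omega

theorem bvb_swap (Q : ℕ) (S : ℕ → ℝ) (hS : ∀ r, 0 ≤ S r) :
    ∑ q ∈ Icc 1 Q, (1 : ℝ) / Nat.totient q * ∑ r ∈ q.divisors.erase 1, S r ≤
      (∑ q ∈ Icc 1 Q, (1 : ℝ) / Nat.totient q) * ∑ r ∈ Icc 2 Q, 1 / Nat.totient r * S r := by
  simp only [mul_sum]
  rw [sum_comm' (t' := Icc 2 Q) (s' := fun r => (Icc 1 Q).filter (r ∣ ·)) fun q r => by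
    simp only [mem_Icc, mem_erase, Nat.mem_divisors, mem_filter]
    constructor
    · rintro ⟨⟨h1, h2⟩, h3, h4, h5⟩
      have := Nat.le_of_dvd h1 h4
      have := Nat.pos_of_dvd_of_pos h4 h1
      exact ⟨⟨⟨h1, h2⟩, h4⟩, by omega, by omega⟩
    · rintro ⟨⟨⟨h1, h2⟩, h4⟩, h3, h5⟩
      exact ⟨⟨h1, h2⟩, by omega, h4, by omega⟩]
  refine sum_le_sum fun r hr => ?_
  have hr2 := (mem_Icc.1 hr).1
  rw [← sum_mul, ← mul_assoc]
  refine mul_le_mul_of_nonneg_right ?_ (hS r)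
  calc _ ≤ ∑ q ∈ (Icc 1 Q).image (r * ·), (1 : ℝ) / Nat.totient q := by
        refine sum_le_sum_of_subset_of_nonneg (fun q hq => ?_) fun _ _ _ => by positivity
        obtain ⟨h1, k, rfl⟩ := mem_filter.1 hq
        rw [mem_Icc] at h1
        refine mem_image.2 ⟨k, mem_Icc.2 ⟨Nat.pos_of_mul_pos_left h1.1, ?_⟩, rfl⟩
        exact (Nat.le_mul_of_pos_left k (by omega)).trans h1.2
    _ = ∑ q ∈ Icc 1 Q, (1 : ℝ) / Nat.totient (r * q) :=
        sum_image fun a _ b _ h => Nat.eq_of_mul_eq_mul_left (by omega) h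
    _ ≤ _ := by
        rw [sum_mul]
        refine sum_le_sum fun q hq => ?_
        have a1 : (0 : ℝ) < Nat.totient r := by exact_mod_cast Nat.totient_pos.2 (by omega)
        have a2 : (0 : ℝ) < Nat.totient q := by exact_mod_cast Nat.totient_pos.2 (mem_Icc.1 hq).1
        rw [div_mul_div_comm, one_mul]
        refine one_div_le_one_div_of_le (by positivity) ?_
        rw [mul_comm]
        exact_mod_cast Nat.totient_super_multiplicative r q

theorem bvb_log (k : ℕ) : ∀ᶠ X : ℝ in atTop, log X ^ k ≤ X := by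
  filter_upwards [(isLittleO_pow_log_id_atTop (n := k)).bound one_pos, eventually_ge_atTop 0]
    with X h h0
  rw [one_mul, id, Real.norm_of_nonneg h0] at h
  exact (le_abs_self _).trans h

theorem bvb_Q {X : ℝ} (hX : 1 ≤ X) :
    1 ≤ ⌊X ^ (1 / 20 : ℝ)⌋₊ ∧ (⌊X ^ (1 / 20 : ℝ)⌋₊ : ℝ) ^ 20 ≤ X := by
  refine ⟨Nat.le_floor (by simpa using Real.one_le_rpow hX (by norm_num)), ?_⟩
  refine (pow_le_pow_left₀ (Nat.cast_nonneg _) (Nat.floor_le (by positivity)) 20).trans_eq ?_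
  rw [← Real.rpow_natCast, ← Real.rpow_mul (by linarith)]
  norm_num

/-- smoothed Bombieri-Vinogradov theorem of level `X^{1/20}` -/
theorem bv {ε : ℝ} {W : ℝ → ℝ} (hW : Cut ε W) (A : ℕ) : ∀ᶠ X : ℝ in atTop,
    ∑ q ∈ Icc 1 ⌊X ^ (1 / 20 : ℝ)⌋₊, |EE1 W X q| ≤ X / log X ^ A := by
  obtain ⟨C1, h1⟩ := sum_inv_totient_smooth
  obtain ⟨C2, h2⟩ := typeII hW
  obtain ⟨C3, h3⟩ := vaughan hW
  filter_upwards [siegel_walfisz hW (A + 5) (2 * A + 7), eventually_ge_atTop 3,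
    tendsto_log_atTop.eventually_ge_atTop 1, bvb_log (2 * A + 8),
    tendsto_log_atTop.eventually_ge_atTop (|C1| * (1 + 27 * |C2| + 4 * |C3|) + 4)]
    with X hsw hX hL hLX hLC
  have hX1 : 1 ≤ X := by linarith
  obtain ⟨hQ1, hQ⟩ := bvb_Q hX1
  set Q := ⌊X ^ (1 / 20 : ℝ)⌋₊
  set L := log X with hLdef
  have hL0 : 0 < L := by linarith
  have hQ1' : (1 : ℝ) ≤ Q := by exact_mod_cast hQ1
  have hQk : ∀ k ≤ 20, (Q : ℝ) ^ k ≤ X := fun k hk => (pow_le_pow_right₀ hQ1' hk).trans hQ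
  have hQX : (Q : ℝ) ≤ X := by simpa using hQk 1 (by norm_num)
  have h3X : log (3 * X) ≤ 2 * L := by
    rw [log_mul (by norm_num) (by linarith)]
    linarith [log_le_log (by norm_num) hX]
  have h3X0 : 0 ≤ log (3 * X) := log_nonneg (by linarith)
  have key : (Q : ℝ) ^ 6 * L ^ 3 ≤ X / L ^ (A + 1) := by
    rw [le_div_iff₀ (by positivity)]
    have a1 := hQk 12 (by norm_num)
    have a2 : (Q : ℝ) ^ 12 = ((Q : ℝ) ^ 6) ^ 2 := by ring
    have a3 : L ^ (2 * A + 8) = (L ^ 3 * L ^ (A + 1)) ^ 2 := by ring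
    rw [a2] at a1
    rw [a3] at hLX
    nlinarith [sq_nonneg ((Q : ℝ) ^ 6 - L ^ 3 * L ^ (A + 1))]
  set Y := X / L ^ (A + 1) with hY
  have hY0 : 0 ≤ Y := by positivity
  let S : ℕ → ℝ := fun r => ∑ χ ∈ prim r, ‖SW W X (lamChi χ)‖
  have s1 : ∑ r ∈ (Icc 2 Q).filter (fun r : ℕ => ¬ L ^ (A + 5) < r), 1 / Nat.totient r * S r
      ≤ Y / L := by
    have a1 : ∀ r ∈ (Icc 2 Q).filter (fun r : ℕ => ¬ L ^ (A + 5) < r),
        1 / Nat.totient r * S r ≤ X / L ^ (2 * A + 7) := fun r hr => by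
      obtain ⟨b1, b2⟩ := mem_filter.1 hr
      have b3 := (mem_Icc.1 b1).1
      exact bvb_avg (by omega) _ (by positivity) fun χ hχ => hsw r χ (by omega) (not_lt.1 b2)
        ((mem_prim (by omega)).1 hχ) (bvb_ne_one b3 ((mem_prim (by omega)).1 hχ))
    have a2 : (((Icc 2 Q).filter (fun r : ℕ => ¬ L ^ (A + 5) < r)).card : ℝ) ≤ L ^ (A + 5) := by
      refine le_trans ?_ (Nat.floor_le (by positivity))
      have := card_le_card (s := (Icc 2 Q).filter (fun r : ℕ => ¬ L ^ (A + 5) < r))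
        (t := Icc 1 ⌊L ^ (A + 5)⌋₊) fun r hr => by
          obtain ⟨b1, b2⟩ := mem_filter.1 hr
          have b3 := (mem_Icc.1 b1).1
          exact mem_Icc.2 ⟨by omega, Nat.le_floor (not_lt.1 b2)⟩
      simpa using this
    refine (sum_le_card_nsmul _ _ _ a1).trans ?_
    rw [nsmul_eq_mul]
    refine (mul_le_mul_of_nonneg_right a2 (by positivity)).trans_eq ?_
    rw [hY]
    field_simp
    ring
  have s2 : ∑ r ∈ (Icc 2 Q).filter (fun r : ℕ => L ^ (A + 5) < r), 1 / Nat.totient r * S r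
      ≤ 27 * |C2| * (Y / L) + 4 * |C3| * (Y / L) := by
    have a1 : ∀ r ∈ (Icc 2 Q).filter (fun r : ℕ => L ^ (A + 5) < r), 1 / Nat.totient r * S r ≤
        1 / Nat.totient r * ∑ χ ∈ prim r, ‖II W X (Q ^ 2) χ‖ + 4 * |C3| * Q ^ 5 * L ^ 2 :=
      fun r hr => by
      obtain ⟨b3, b4⟩ := mem_Icc.1 (mem_filter.1 hr).1
      rw [← sub_le_iff_le_add', ← mul_sub, ← sum_sub_distrib]
      refine bvb_avg (by omega) _ (by positivity) fun χ hχ => (norm_sub_norm_le _ _).trans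
        ((h3 X (Q ^ 2) r χ hX1 (Nat.one_le_pow _ _ hQ1) (by exact_mod_cast hQk 2 (by norm_num))
          (by omega) (bvb_ne_one b3 ((mem_prim (by omega)).1 hχ))).trans ?_)
      have b5 : (r : ℝ) ≤ Q := by exact_mod_cast b4
      push_cast
      calc _ ≤ |C3| * Q * ((Q : ℝ) ^ 2) ^ 2 * (2 * L) ^ 2 := by
            gcongr
            exact le_abs_self _
        _ = _ := by ring
    refine (sum_le_sum a1).trans ?_
    rw [sum_add_distrib]
    refine add_le_add ?_ ?_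
    · refine le_trans (sum_le_sum_of_subset_of_nonneg
        (filter_subset_filter _ (Icc_subset_Icc_left one_le_two)) fun _ _ _ => by positivity)
        ((h2 X (L ^ (A + 5)) Q (Q ^ 2) hX1 (by positivity) (Nat.one_le_pow _ _ hQ1) le_rfl).trans ?_)
      calc _ ≤ |C2| * X * (3 * L) ^ 3 / L ^ (A + 5) := by
            gcongr
            · exact le_abs_self _
            · linarith
        _ = _ := by
            rw [hY]
            field_simp
            ring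
    · rw [sum_const, nsmul_eq_mul]
      have a2 : (((Icc 2 Q).filter (fun r : ℕ => L ^ (A + 5) < r)).card : ℝ) ≤ Q := by
        have := (card_filter_le (Icc 2 Q) fun r : ℕ => L ^ (A + 5) < r)
        rw [Nat.card_Icc] at this
        exact_mod_cast this.trans (by omega)
      calc _ ≤ Q * (4 * |C3| * Q ^ 5 * L ^ 2) := by gcongr
        _ = 4 * |C3| * (Q ^ 6 * L ^ 3 / L) := by field_simp
        _ ≤ _ := by gcongr
  have s3 : ∑ q ∈ Icc 1 Q, (1 : ℝ) / Nat.totient q ≤ |C1| * L :=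
    (h1 X (by linarith) _ fun d hd => ⟨by have := (mem_Icc.1 hd).1; omega, fun q _ hq => by
      have : q ≤ Q := (Nat.le_of_dvd (mem_Icc.1 hd).1 hq).trans (mem_Icc.1 hd).2
      exact le_trans (by exact_mod_cast this) hQX⟩).trans
      (mul_le_mul_of_nonneg_right (le_abs_self _) hL0.le)
  have s4 : ∑ q ∈ Icc 1 Q, 2 * log (q : ℝ) * log (3 * X) ≤ 4 * Y := by
    have a1 : ∀ q ∈ Icc 1 Q, 2 * log (q : ℝ) * log (3 * X) ≤ 2 * L * (2 * L) := fun q hq => by
      have b1 : (1 : ℝ) ≤ q := by exact_mod_cast (mem_Icc.1 hq).1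
      have b2 : (q : ℝ) ≤ Q := by exact_mod_cast (mem_Icc.1 hq).2
      have b3 : log (q : ℝ) ≤ L := log_le_log (by linarith) (b2.trans hQX)
      gcongr
    refine (sum_le_card_nsmul _ _ _ a1).trans ?_
    rw [nsmul_eq_mul, Nat.card_Icc, Nat.add_sub_cancel]
    have b1 : (Q : ℝ) ≤ Q ^ 6 := le_self_pow₀ hQ1' (by norm_num)
    have b2 : L ^ 2 ≤ L ^ 3 := pow_le_pow_right₀ hL (by norm_num)
    have b3 : Q * L ^ 2 ≤ Q ^ 6 * L ^ 3 := by gcongr
    linarith
  have s5 := bvb_swap Q S fun r => sum_nonneg fun _ _ => norm_nonneg _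
  rw [← sum_filter_add_sum_filter_not (Icc 2 Q) (fun r : ℕ => L ^ (A + 5) < r)] at s5
  have s6 := s5.trans (mul_le_mul s3 (add_le_add s2 s1) (add_nonneg
    (sum_nonneg fun _ _ => by positivity) (sum_nonneg fun _ _ => by positivity)) (by positivity))
  refine (sum_le_sum fun q hq => EE1_le hW hX1 (by have := (mem_Icc.1 hq).1; omega)).trans ?_
  rw [sum_add_distrib]
  refine (add_le_add s6 s4).trans ?_
  calc _ = (|C1| * (1 + 27 * |C2| + 4 * |C3|) + 4) * Y := by field_simp; ring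
    _ ≤ L * Y := mul_le_mul_of_nonneg_right hLC hY0
    _ = _ := by rw [hY]; field_simp; ring

end Vale.Agent.P031
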