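import Vale.Agent.P031.EulA

namespace Vale.Agent.P031

open Finset Real Filter

/-- local weights of `nu` -/
noncomputable def EulB_w (q j : ℕ) : ℝ :=
  if q = 2 then 1 / 2 else if j = 0 then 1 - 1 / ((q : ℝ) - 1) else 1

theorem EulB_three {q : ℕ} (hq : q.Prime) (h2 : q ≠ 2) : (3 : ℝ) ≤ q := by
  have := hq.two_le
  exact_mod_cast (by omega : 3 ≤ q)

theorem EulB_nu_eq {y : ℝ} (hy : 2 ≤ y) {d : ℕ} (hd : Smooth y d) :
    nu y d = ∏ q ∈ PP y, EulB_w q (d.factorization q) * (1 / (q : ℝ)) ^ d.factorization q := by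
  have h2 : 2 ∈ PP y := mem_PP.2 ⟨Nat.prime_two, by exact_mod_cast hy⟩
  have e1 : ∏ q ∈ PP y, (1 / (q : ℝ)) ^ d.factorization q = 1 / d := by
    conv_rhs => rw [← sm_of_smooth hd, sm]
    push_cast
    simp only [one_div, inv_pow, prod_inv_distrib]
  rw [prod_mul_distrib, e1, ← mul_prod_erase _ _ h2, nu, prod_filter]
  have e2 : ∏ q ∈ (PP y).erase 2, EulB_w q (d.factorization q) =
      ∏ q ∈ (PP y).erase 2, if ¬ q ∣ d then 1 - 1 / ((q : ℝ) - 1) else 1 := by
    refine prod_congr rfl fun q hq => ?_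
    have hq' := mem_erase.1 hq
    rw [EulB_w, if_neg hq'.1]
    refine if_congr ?_ rfl rfl
    rw [(mem_PP.1 hq'.2).1.dvd_iff_one_le_factorization hd.1]
    omega
  rw [e2, EulB_w, if_pos rfl]
  ring

theorem EulB_geom {u : ℝ} (h0 : 0 ≤ u) (h1 : u < 1) (J : ℕ) :
    ∑ j ∈ range J, u ^ (j + 1) ≤ u / (1 - u) := by
  simp only [pow_succ', ← mul_sum]
  rw [div_eq_mul_inv]
  refine mul_le_mul_of_nonneg_left ?_ h0
  rw [← tsum_geometric_of_lt_one h0 h1]
  exact (summable_geometric_of_lt_one h0 h1).sum_le_tsum _ fun _ _ => pow_nonneg h0 _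

theorem EulB_main {y : ℝ} (hy : 2 ≤ y) (l : ℕ → ℝ) (hl : ∀ q, 0 ≤ l q) {t : ℝ} (h0 : 0 ≤ t)
    (h2 : t < 2) (b : ℕ → ℝ)
    (hb : ∀ q ∈ PP y, EulB_w q 0 + l q * EulB_w q 1 * (t / (q - t)) ≤ b q)
    (T : Finset ℕ) (hT : ∀ d ∈ T, Smooth y d) :
    ∑ d ∈ T, nu y d * ∏ q ∈ PP y, (if d.factorization q = 0 then 1 else
      l q * t ^ d.factorization q) ≤ ∏ q ∈ PP y, b q := by
  have hw : ∀ q ∈ PP y, ∀ j, 0 ≤ EulB_w q j := by
    intro q hq j
    unfold EulB_w
    split_ifs with h1 h3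
    · norm_num
    · have := EulB_three (mem_PP.1 hq).1 h1
      rw [sub_nonneg, div_le_one (by linarith)]; linarith
    · norm_num
  have := euler_le (PP y) (fun q hq => (mem_PP.1 hq).1)
    (fun q j => if q ∈ PP y then EulB_w q j * (1 / (q : ℝ)) ^ j *
      (if j = 0 then 1 else l q * t ^ j) else 0) (fun q j => by
      split_ifs with h1 h3
      · have := hw q h1 j; positivity
      · have := hw q h1 j; have := hl q; positivity
      · exact le_rfl) b (fun q hq J => ?_) T fun d hd => smooth_iff_over.1 (hT d hd)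
  · refine le_trans (le_of_eq (sum_congr rfl fun d hd => ?_)) this
    rw [EulB_nu_eq hy (hT d hd), ← prod_mul_distrib]
    exact prod_congr rfl fun q hq => by rw [if_pos hq]
  · have hq2 : (2 : ℝ) ≤ q := by exact_mod_cast (mem_PP.1 hq).1.two_le
    have hc : 0 ≤ l q * EulB_w q 1 := mul_nonneg (hl q) (hw q hq 1)
    refine le_trans ?_ (hb q hq)
    simp only [if_pos hq]
    cases J with
    | zero =>
      have := hw q hq 0
      have : 0 ≤ t / (q - t) := div_nonneg h0 (by linarith)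
      rw [sum_range_zero]; positivity
    | succ J =>
      rw [sum_range_succ', add_comm]
      refine add_le_add (by simp) ?_
      have e : ∀ j, EulB_w q (j + 1) * (1 / (q : ℝ)) ^ (j + 1) *
          (if j + 1 = 0 then 1 else l q * t ^ (j + 1)) = l q * EulB_w q 1 * (t / q) ^ (j + 1) := by
        intro j
        have : EulB_w q (j + 1) = EulB_w q 1 := by simp [EulB_w]
        rw [if_neg (by omega), this, div_eq_mul_one_div t, mul_pow]
        ring
      simp only [e, ← mul_sum]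
      refine mul_le_mul_of_nonneg_left ?_ hc
      refine (EulB_geom (by positivity) ((div_lt_one (by linarith)).2 (by linarith)) J).trans
        (le_of_eq ?_)
      have : (q : ℝ) - t ≠ 0 := by linarith
      field_simp

theorem nu_low {y : ℝ} (hy : 2 ≤ y) (S : Finset ℕ) (hS : S ⊆ PP y) {l : ℝ} (hl0 : 0 ≤ l)
    (hl1 : l ≤ 1) (T : Finset ℕ) (hT : ∀ d ∈ T, Smooth y d) :
    ∑ d ∈ T, nu y d * l ^ omS S d ≤ exp (-((1 - l) * rs S)) := by
  have := EulB_main hy (fun q => if q ∈ S then l else 1) (fun q => by split_ifs <;> positivity)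
    (t := 1) (by norm_num) (by norm_num)
    (fun q => exp (if q ∈ S then -((1 - l) * (1 / q)) else 0)) (fun q hq => ?_) T hT
  · refine le_trans (le_of_eq (sum_congr rfl fun d hd => ?_)) (this.trans (le_of_eq ?_))
    · congr 1
      rw [omS, ← prod_const, prod_filter, ← prod_subset hS]
      · refine prod_congr rfl fun q hq => ?_
        have h1 := (mem_PP.1 (hS hq)).1.dvd_iff_one_le_factorization (hT d hd).1
        rw [if_pos hq]
        by_cases h : d.factorization q = 0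
        · rw [if_pos h, if_neg (by rw [h1]; omega)]
        · rw [if_neg h, if_pos (by rw [h1]; omega), one_pow, mul_one]
      · intro q _ hq
        simp [hq]
    · rw [← exp_sum, ← sum_filter, filter_mem_eq_inter, inter_eq_right.2 hS, rs, mul_sum,
        sum_neg_distrib]
  · refine le_trans ?_ (add_one_le_exp _)
    unfold EulB_w
    by_cases h2 : q = 2
    · subst h2
      split_ifs <;> first | contradiction | (norm_num; try linarith)
    · have h3 := EulB_three (mem_PP.1 hq).1 h2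
      have h4 : 1 / (q : ℝ) ≤ 1 / ((q : ℝ) - 1) :=
        one_div_le_one_div_of_le (by linarith) (by linarith)
      simp only [if_neg h2, if_true, one_ne_zero, if_false]
      split_ifs
      · nlinarith
      · linarith

theorem sum_nu_le_one {y : ℝ} (hy : 2 ≤ y) (T : Finset ℕ) (hT : ∀ d ∈ T, Smooth y d) :
    ∑ d ∈ T, nu y d ≤ 1 := by
  simpa using nu_low hy ∅ (empty_subset _) (l := 1) (by norm_num) le_rfl T hT

theorem nu_up {y : ℝ} (hy : 2 ≤ y) {l : ℝ} (hl1 : 1 ≤ l) (hl2 : l ≤ 3 / 2)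
    (T : Finset ℕ) (hT : ∀ d ∈ T, Smooth y d) :
    ∑ d ∈ T, nu y d * l ^ Om d ≤ 2 * exp ((l - 1) * (rs (PP y) + 6)) := by
  have h2 : 2 ∈ PP y := mem_PP.2 ⟨Nat.prime_two, by exact_mod_cast hy⟩
  have := EulB_main hy (fun _ => 1) (fun q => by norm_num) (t := l) (by linarith) (by linarith)
    (fun q => (if q = 2 then 2 else 1) * exp ((l - 1) * (1 / q + 6 * (1 / q ^ 2))))
    (fun q hq => ?_) T hT
  · refine le_trans (le_of_eq (sum_congr rfl fun d hd => ?_)) (this.trans ?_)
    · congr 1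
      have e : Om d = ∑ q ∈ PP y, d.factorization q := by
        rw [Om, ArithmeticFunction.cardFactors_eq_sum_factorization]
        refine Finsupp.sum_of_support_subset _ (fun q hq => ?_) _ fun _ _ => rfl
        have h3 := Nat.mem_primeFactors.1 (Nat.support_factorization d ▸ hq)
        exact mem_PP.2 ⟨h3.1, (hT d hd).2 q h3.1 h3.2.1⟩
      rw [e, ← prod_pow_eq_pow_sum]
      refine prod_congr rfl fun q _ => ?_
      split_ifs with h
      · rw [h, pow_zero]
      · rw [one_mul]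
    · rw [prod_mul_distrib, prod_ite_eq', if_pos h2, ← exp_sum, ← mul_sum, sum_add_distrib,
        ← mul_sum]
      have := sum_inv_sq_le (PP y) fun q hq => (mem_PP.1 hq).1
      refine mul_le_mul_of_nonneg_left (exp_le_exp.2 (mul_le_mul_of_nonneg_left ?_
        (by linarith))) (by norm_num)
      rw [rs]
      linarith
  · unfold EulB_w
    by_cases h2 : q = 2
    · subst h2
      have a1 : 1 ≤ exp ((l - 1) * (1 / ((2 : ℕ) : ℝ) + 6 * (1 / ((2 : ℕ) : ℝ) ^ 2))) :=
        one_le_exp (mul_nonneg (by linarith) (by positivity))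
      have a2 : l / (((2 : ℕ) : ℝ) - l) ≤ 3 := by
        push_cast
        rw [div_le_iff₀ (by linarith)]; linarith
      simp only [if_true]
      linarith
    · have h3 := EulB_three (mem_PP.1 hq).1 h2
      simp only [if_neg h2, if_true, one_ne_zero, if_false, one_mul]
      refine le_trans ?_ (add_one_le_exp _)
      have a1 : (0 : ℝ) < q - 1 := by linarith
      have a2 : (0 : ℝ) < q - l := by linarith
      have e : 1 - 1 / ((q : ℝ) - 1) + l / (q - l) = (l - 1) * (q / ((q - 1) * (q - l))) + 1 := by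
        field_simp; ring
      rw [e]
      refine add_le_add_left (mul_le_mul_of_nonneg_left ?_ (by linarith)) _
      have e2 : 1 / (q : ℝ) + 6 * (1 / q ^ 2) = (q + 6) / q ^ 2 := by field_simp
      rw [e2, div_le_div_iff₀ (by positivity) (by positivity)]
      have a3 : ((q : ℝ) + 6) * ((q - 1) * (q - 3 / 2)) ≤ (q + 6) * ((q - 1) * (q - l)) := by
        gcongr
      nlinarith

/-- lower tail for the number of primes of `S` dividing `d` -/
theorem nu_low_tail {y : ℝ} (hy : 2 ≤ y) (S : Finset ℕ) (hS : S ⊆ PP y) {δ : ℝ} (h0 : 0 ≤ δ)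
    (h1 : δ ≤ 1 / 2) (T : Finset ℕ)
    (hT : ∀ d ∈ T, Smooth y d ∧ (omS S d : ℝ) ≤ (1 - δ) * rs S) :
    ∑ d ∈ T, nu y d ≤ exp (-(δ ^ 2 / 2 * rs S)) := by
  have hl : 0 < 1 - δ := by linarith
  have hlog : log (1 - δ) ≤ 0 := log_nonpos hl.le (by linarith)
  have hr : 0 ≤ rs S := sum_nonneg fun _ _ => by positivity
  have key := nu_low hy S hS hl.le (by linarith) T fun d hd => (hT d hd).1
  have h2 : (∑ d ∈ T, nu y d) * exp ((1 - δ) * rs S * log (1 - δ)) ≤
      ∑ d ∈ T, nu y d * (1 - δ) ^ omS S d := by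
    rw [sum_mul]
    refine sum_le_sum fun d hd => mul_le_mul_of_nonneg_left ?_ (nu_nonneg _ _)
    conv_rhs => rw [← exp_log hl, ← exp_nat_mul]
    exact exp_le_exp.2 (mul_le_mul_of_nonpos_right (hT d hd).2 hlog)
  have h3 := (le_div_iff₀ (exp_pos _)).2 (h2.trans key)
  rw [← exp_sub] at h3
  refine h3.trans (exp_le_exp.2 ?_)
  have h4 := sinh_le_self_iff.2 hlog
  rw [sinh_log hl] at h4
  have h5 : -δ + δ ^ 2 / 2 ≤ (1 - δ) * log (1 - δ) := by
    have := mul_le_mul_of_nonneg_left h4 hl.le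
    have e : (1 - δ) * ((1 - δ - (1 - δ)⁻¹) / 2) = -δ + δ ^ 2 / 2 := by field_simp; ring
    linarith
  nlinarith [mul_le_mul_of_nonneg_right h5 hr]

/-- upper tail for the number of prime factors with multiplicity -/
theorem nu_up_tail {y : ℝ} (hy : 2 ≤ y) {δ : ℝ} (h0 : 0 ≤ δ) (h1 : δ ≤ 1 / 2) (T : Finset ℕ)
    (hT : ∀ d ∈ T, Smooth y d ∧ (1 + δ) * rs (PP y) ≤ Om d) :
    ∑ d ∈ T, nu y d ≤ 50 * exp (-(δ ^ 2 / 4 * rs (PP y))) := by
  have hl : 0 < 1 + δ := by linarith
  have hlog : 0 ≤ log (1 + δ) := log_nonneg (by linarith)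
  have hr : 0 ≤ rs (PP y) := sum_nonneg fun _ _ => by positivity
  have key := nu_up hy (l := 1 + δ) (by linarith) (by linarith) T fun d hd => (hT d hd).1
  have h2 : (∑ d ∈ T, nu y d) * exp ((1 + δ) * rs (PP y) * log (1 + δ)) ≤
      ∑ d ∈ T, nu y d * (1 + δ) ^ Om d := by
    rw [sum_mul]
    refine sum_le_sum fun d hd => mul_le_mul_of_nonneg_left ?_ (nu_nonneg _ _)
    conv_rhs => rw [← exp_log hl, ← exp_nat_mul]
    exact exp_le_exp.2 (mul_le_mul_of_nonneg_right (hT d hd).2 hlog)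
  have h3 := (le_div_iff₀ (exp_pos _)).2 (h2.trans key)
  rw [mul_div_assoc, ← exp_sub] at h3
  have h4 := le_log_one_add_of_nonneg h0
  have h5 : δ + δ ^ 2 / 4 ≤ (1 + δ) * log (1 + δ) := by
    refine le_trans ?_ (mul_le_mul_of_nonneg_left h4 hl.le)
    rw [← mul_div_assoc, le_div_iff₀ (by linarith)]
    nlinarith [mul_nonneg h0 (mul_nonneg h0 (by linarith : 0 ≤ 2 - δ))]
  have h6 : (1 + δ - 1) * (rs (PP y) + 6) - (1 + δ) * rs (PP y) * log (1 + δ) ≤
      3 + -(δ ^ 2 / 4 * rs (PP y)) := by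
    nlinarith [mul_le_mul_of_nonneg_right h5 hr]
  have h7 : exp 3 ≤ 25 := by
    have a := exp_one_lt_d9
    have b := exp_pos 1
    rw [show (3 : ℝ) = (3 : ℕ) * 1 by norm_num, exp_nat_mul]
    calc exp 1 ^ 3 ≤ 2.8 ^ 3 := pow_le_pow_left₀ b.le (by linarith) 3
      _ ≤ 25 := by norm_num
  have h8 := exp_le_exp.2 h6
  rw [exp_add] at h8
  nlinarith [exp_pos (-(δ ^ 2 / 4 * rs (PP y)))]

/-- the rate at which the prime `q` is inserted -/
noncomputable def rr (q : ℕ) : ℝ := if q = 2 then 1 / 2 else ((q : ℝ) - 1) / (q * (q - 2))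

theorem EulB_inv_le_rr {q : ℕ} (hq : q.Prime) : 1 / (q : ℝ) ≤ rr q := by
  unfold rr
  split_ifs with h
  · subst h; norm_num
  · have h3 := EulB_three hq h
    rw [div_le_div_iff₀ (by linarith) (mul_pos (by linarith) (by linarith))]
    nlinarith

theorem rr_nonneg {q : ℕ} (hq : q.Prime) : 0 ≤ rr q :=
  le_trans (by positivity) (EulB_inv_le_rr hq)

theorem sum_rr_le (y : ℝ) : ∑ q ∈ PP y, rr q ≤ rs (PP y) + 3 := by
  have h1 := sum_inv_sq_le (PP y) fun q hq => (mem_PP.1 hq).1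
  have h2 : ∑ q ∈ PP y, rr q ≤ ∑ q ∈ PP y, (1 / (q : ℝ) + 3 * (1 / (q : ℝ) ^ 2)) := by
    refine sum_le_sum fun q hq => ?_
    unfold rr
    split_ifs with h
    · subst h; norm_num
    · have h3 := EulB_three (mem_PP.1 hq).1 h
      have e2 : 1 / (q : ℝ) + 3 * (1 / q ^ 2) = (q + 3) / q ^ 2 := by field_simp
      rw [e2, div_le_div_iff₀ (mul_pos (by linarith) (by linarith)) (by positivity)]
      nlinarith [mul_nonneg (by linarith : (0 : ℝ) ≤ q) (by linarith : (0 : ℝ) ≤ q - 3)]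
  rw [sum_add_distrib, ← mul_sum] at h2
  rw [rs]
  linarith

theorem EulB_step (y : ℝ) {d : ℕ} (hd : d ≠ 0) {q : ℕ} (hq : q ∈ PP y) :
    nu y (d * q) ≤ nu y d * rr q := by
  have hp := (mem_PP.1 hq).1
  have hd' : (0 : ℝ) < d := by positivity
  have hq' : (0 : ℝ) < q := by exact_mod_cast hp.pos
  have hdv : ∀ p ∈ (PP y).erase 2, p ∣ d * q ↔ p ∣ d ∨ p = q := fun p h => by
    rw [(mem_PP.1 (mem_erase.1 h).2).1.dvd_mul,
      Nat.prime_dvd_prime_iff_eq (mem_PP.1 (mem_erase.1 h).2).1 hp]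
  by_cases h : q = 2 ∨ q ∣ d
  · have e : nu y (d * q) = nu y d * (1 / q) := by
      unfold nu
      rw [filter_congr (q := fun p => ¬ p ∣ d) fun p hp' => by
        rw [hdv p hp']
        refine not_congr ⟨fun h1 => h1.elim id fun e => ?_, Or.inl⟩
        subst e
        exact h.resolve_left (mem_erase.1 hp').1]
      push_cast
      field_simp
    rw [e]
    exact mul_le_mul_of_nonneg_left (EulB_inv_le_rr hp) (nu_nonneg _ _)
  · rw [not_or] at h
    have h3 := EulB_three hp h.1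
    have e : ((PP y).erase 2).filter (fun p => ¬ p ∣ d) =
        insert q (((PP y).erase 2).filter fun p => ¬ p ∣ d * q) := by
      ext p
      rw [mem_insert, mem_filter, mem_filter]
      constructor
      · rintro ⟨h1, h2⟩
        by_cases e : p = q
        · exact Or.inl e
        · exact Or.inr ⟨h1, by rw [hdv p h1]; tauto⟩
      · rintro (rfl | ⟨h1, h2⟩)
        · exact ⟨mem_erase.2 ⟨h.1, hq⟩, h.2⟩
        · exact ⟨h1, fun h4 => h2 (h4.mul_right _)⟩
    unfold nu rr
    rw [e, prod_insert (by simp), if_neg h.1]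
    have a1 : (q : ℝ) - 1 ≠ 0 := by linarith
    have a2 : (q : ℝ) - 2 ≠ 0 := by linarith
    push_cast
    apply le_of_eq
    field_simp
    ring

theorem nu_mul_prod_le (y : ℝ) {d : ℕ} (hd : d ≠ 0) (Q : Finset ℕ) (hQ : Q ⊆ PP y) :
    nu y (d * ∏ q ∈ Q, q) ≤ nu y d * ∏ q ∈ Q, rr q := by
  induction Q using Finset.induction_on with
  | empty => simp
  | insert q Q hq ih =>
    have h1 := hQ (mem_insert_self _ _)
    have h2 : Q ⊆ PP y := (subset_insert _ _).trans hQ
    rw [prod_insert hq, prod_insert hq, mul_comm q, ← mul_assoc, mul_comm (rr q), ← mul_assoc]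
    refine (EulB_step y (mul_ne_zero hd (prod_ne_zero_iff.2 fun p hp =>
      (mem_PP.1 (h2 hp)).1.ne_zero)) h1).trans ?_
    exact mul_le_mul_of_nonneg_right (ih h2) (rr_nonneg (mem_PP.1 h1).1)

end Vale.Agent.P031
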