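import Vale.Agent.P031.TVa
import Vale.Agent.P031.EulB

namespace Vale.Agent.P031

open Finset Real Filter

noncomputable def tvbG (y : ℝ) (S : Finset ℕ) (f : ℕ → ℝ) (n : ℕ) : ℝ :=
  if dd y n ∈ S then f (dd y n) else 0

noncomputable def tvbF (y : ℝ) (S : Finset ℕ) (f : ℕ → ℝ) (n : ℕ) : ℝ :=
  if sm y (n - 1) = 2 * dd y n then tvbG y S f n else 0

noncomputable def tvbT (W : ℝ → ℝ) (X : ℝ) (F : ℕ → ℝ) : ℝ :=
  ∑ n ∈ Icc 1 ⌊3 * X⌋₊, ArithmeticFunction.vonMangoldt n * W (n / X) * F n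

theorem tvb_G {y : ℝ} {S : Finset ℕ} {f : ℕ → ℝ} (hf : ∀ d, 0 ≤ f d ∧ f d ≤ 1) (n : ℕ) :
    0 ≤ tvbG y S f n ∧ tvbG y S f n ≤ 1 := by
  unfold tvbG
  split_ifs
  exacts [hf _, ⟨le_rfl, zero_le_one⟩]

theorem tvb_F {y : ℝ} {S : Finset ℕ} {f : ℕ → ℝ} (hf : ∀ d, 0 ≤ f d ∧ f d ≤ 1) (n : ℕ) :
    0 ≤ tvbF y S f n ∧ tvbF y S f n ≤ tvbG y S f n := by
  unfold tvbF
  split_ifs
  exacts [⟨(tvb_G hf n).1, le_rfl⟩, ⟨le_rfl, (tvb_G hf n).1⟩]

theorem tvb_sum (y : ℝ) (S : Finset ℕ) (f : ℕ → ℝ) (n : ℕ) :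
    tvbF y S f n = ∑ d ∈ S, if sm y (n - 1) = 2 * d then f d else 0 := by
  have h : ∀ d, sm y (n - 1) = 2 * d → dd y n = d := fun d h => by rw [dd, h]; omega
  by_cases hS : dd y n ∈ S
  · rw [tvbF, tvbG, if_pos hS,
      sum_eq_single_of_mem _ hS fun d _ hd => if_neg fun e => hd (h d e).symm]
  · rw [tvbF, tvbG, if_neg hS, ite_self]
    exact (sum_eq_zero fun d hd => if_neg fun e => hS (h d e ▸ hd)).symm

theorem tvb_theta {W : ℝ → ℝ} {X y E : ℝ} {S : Finset ℕ} {f : ℕ → ℝ}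
    (hf : ∀ d, 0 ≤ f d ∧ f d ≤ 1)
    (h : ∑ d ∈ S, |∑ n ∈ (Icc 1 ⌊3 * X⌋₊).filter (fun n => sm y (n - 1) = 2 * d),
        ArithmeticFunction.vonMangoldt n * W (n / X) -
      nu y d * ∑ n ∈ Icc 1 ⌊3 * X⌋₊, ArithmeticFunction.vonMangoldt n * W (n / X)| ≤ E) :
    |tvbT W X (tvbF y S f) - (∑ d ∈ S, nu y d * f d) *
      ∑ n ∈ Icc 1 ⌊3 * X⌋₊, ArithmeticFunction.vonMangoldt n * W (n / X)| ≤ E := by
  have e : tvbT W X (tvbF y S f) = ∑ d ∈ S, f d *
      ∑ n ∈ (Icc 1 ⌊3 * X⌋₊).filter (fun n => sm y (n - 1) = 2 * d),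
        ArithmeticFunction.vonMangoldt n * W (n / X) := by
    simp only [tvbT, tvb_sum, mul_sum, sum_filter]
    rw [sum_comm]
    refine sum_congr rfl fun d _ => sum_congr rfl fun n _ => ?_
    split_ifs <;> ring
  rw [e, sum_mul, ← sum_sub_distrib]
  refine (abs_sum_le_sum_abs _ _).trans ((sum_le_sum fun d _ => ?_).trans h)
  rw [mul_comm (nu y d), mul_assoc, ← mul_sub, abs_mul, abs_of_nonneg (hf d).1]
  exact mul_le_of_le_one_left (abs_nonneg _) (hf d).2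

theorem tvb_up {ε : ℝ} {W : ℝ → ℝ} (hW : Cut ε W) {X X0 y : ℝ} (hy : 2 ≤ y) (h0 : 2 ≤ X0)
    (hX : 0 < X) {S : Finset ℕ} {f : ℕ → ℝ} (hf : ∀ d, 0 ≤ f d ∧ f d ≤ 1) :
    ∑ p ∈ PP X, tvbG y S f p ≤ X0 + tvbT W X (tvbF y S f) / log X0 := by
  have hl : 0 < log X0 := log_pos (by linarith)
  rw [← sum_filter_add_sum_filter_not (PP X) fun p : ℕ => (p : ℝ) ≤ X0]
  refine add_le_add ?_ ?_
  · refine (sum_le_card_nsmul _ _ 1 fun p _ => (tvb_G hf p).2).trans ?_
    have := card_le_card (s := (PP X).filter fun p : ℕ => (p : ℝ) ≤ X0) (t := Icc 1 ⌊X0⌋₊)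
      fun p hp => mem_Icc.2 ⟨(mem_PP.1 (mem_filter.1 hp).1).1.one_le,
        Nat.le_floor (mem_filter.1 hp).2⟩
    rw [Nat.card_Icc, Nat.add_sub_cancel] at this
    rw [nsmul_one]
    exact le_trans (by exact_mod_cast this) (Nat.floor_le (by linarith))
  · rw [le_div_iff₀ hl, sum_mul]
    refine le_trans (sum_le_sum fun p hp => ?_) (sum_le_sum_of_subset_of_nonneg (fun p hp => ?_)
      fun n _ _ => mul_nonneg (mul_nonneg ArithmeticFunction.vonMangoldt_nonneg (hW.nonneg _))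
        (tvb_F hf n).1)
    · obtain ⟨h1, h2⟩ := mem_filter.1 hp
      obtain ⟨h3, h4⟩ := mem_PP.1 h1
      have h5 : p ≠ 2 := fun e => h2 (by rw [e]; exact_mod_cast h0)
      rw [ArithmeticFunction.vonMangoldt_apply_prime h3, hW.one _ ((div_le_one hX).2 h4), mul_one,
        tvbF, if_pos (two_mul_dd hy h3 h5).symm, mul_comm]
      exact mul_le_mul_of_nonneg_right (log_le_log (by linarith) (not_le.1 h2).le) (tvb_G hf p).1
    · obtain ⟨h3, h4⟩ := mem_PP.1 (mem_filter.1 hp).1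
      exact mem_Icc.2 ⟨h3.one_le, Nat.le_floor (by linarith)⟩

theorem tvb_low {ε : ℝ} {W : ℝ → ℝ} (hW : Cut ε W) (hε : 0 < ε) {X y : ℝ} (hX : 1 ≤ X)
    {S : Finset ℕ} {f : ℕ → ℝ} (hf : ∀ d, 0 ≤ f d ∧ f d ≤ 1) :
    tvbT W (X / (1 + ε)) (tvbF y S f) ≤ log X * ∑ p ∈ PP X, tvbG y S f p + 2 * √X * log X := by
  have hl : 0 ≤ log X := log_nonneg hX
  have hΛ : ∀ n, 0 ≤ ArithmeticFunction.vonMangoldt n := fun _ =>
    ArithmeticFunction.vonMangoldt_nonneg
  have h1 : ∀ n ∈ Icc 1 ⌊3 * (X / (1 + ε))⌋₊,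
      ArithmeticFunction.vonMangoldt n * W (n / (X / (1 + ε))) * tvbF y S f n ≤
      (if n ∈ PP X then log X * tvbG y S f n else 0) +
        if n ∈ (Ioc 0 ⌊X⌋₊).filter (fun n => ¬ n.Prime) then ArithmeticFunction.vonMangoldt n
        else 0 := fun n hn => by
    have a1 := (mem_Icc.1 hn).1
    by_cases hn : (n : ℝ) ≤ X
    · refine (mul_le_mul (mul_le_of_le_one_right (hΛ n) (hW.le _)) (tvb_F hf n).2 (tvb_F hf n).1
        (hΛ n)).trans ?_
      by_cases hp : n.Prime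
      · rw [if_pos (mem_PP.2 ⟨hp, hn⟩), if_neg (by simp [hp]), add_zero,
          ArithmeticFunction.vonMangoldt_apply_prime hp]
        exact mul_le_mul_of_nonneg_right (log_le_log (by exact_mod_cast a1) hn) (tvb_G hf n).1
      · rw [if_neg (fun h => hp (mem_PP.1 h).1),
          if_pos (mem_filter.2 ⟨mem_Ioc.2 ⟨a1, Nat.le_floor hn⟩, hp⟩), zero_add]
        exact mul_le_of_le_one_right (hΛ n) (tvb_G hf n).2
    · rw [hW.zero _ (by
        rw [le_div_iff₀ (by positivity), mul_div_cancel₀ _ (by positivity)]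
        exact (not_le.1 hn).le), mul_zero, zero_mul]
      have := (tvb_G (y := y) (S := S) hf n).1
      have := hΛ n
      positivity
  refine (sum_le_sum h1).trans ?_
  rw [sum_add_distrib, sum_ite_mem, sum_ite_mem, mul_sum]
  refine add_le_add (sum_le_sum_of_subset_of_nonneg inter_subset_right fun n _ _ =>
    mul_nonneg hl (tvb_G hf n).1) ((sum_le_sum_of_subset_of_nonneg inter_subset_right
      fun n _ _ => hΛ n).trans ?_)
  rw [← Chebyshev.psi_sub_theta_eq_sum_not_prime]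
  exact Chebyshev.psi_sub_theta_le hX

theorem tvb_r1 {X L ε δ s G T P E : ℝ} {B : ℕ} (hX0 : 0 < X) (hL : 16 ≤ L) (hLB : 2 * 2 ^ B ≤ L)
    (hX1 : L ^ (2 * B + 1) ≤ X) (hδ : 0 < δ) (hδε : δ ≤ ε / 8) (hs0 : 0 ≤ s)
    (c1 : |T - s * P| ≤ E) (c2 : T ≤ L * G + 2 * √X * L) (c3 : E ≤ X / (L / 2) ^ B)
    (p2 : (1 - δ) * (X / (1 + δ)) ≤ P) : (1 - ε) * (X * s / L) - X / L ^ B ≤ G := by
  have hL0 : 0 < L := by linarith
  set Y := X / L ^ B with hY
  have hY0 : 0 < Y := by positivity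
  have c3' : E ≤ Y / 2 * L := by
    calc _ ≤ X / (L / 2) ^ B := c3
      _ = Y / 2 * (2 * 2 ^ B) := by rw [hY, div_pow]; field_simp
      _ ≤ _ := by gcongr
  have c4 : 2 * √X ≤ Y / 2 := by
    have d1 : 4 * L ^ B ≤ √X := by
      refine le_sqrt_of_sq_le (le_trans ?_ hX1)
      rw [mul_pow, ← pow_mul, mul_comm B, pow_succ' L]
      gcongr
      linarith
    rw [hY, div_div, le_div_iff₀ (by positivity)]
    nlinarith [mul_self_sqrt hX0.le, sqrt_nonneg X]
  have c5 : (1 - ε) * X ≤ (1 - δ) * (X / (1 + δ)) := by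
    rw [← mul_div_assoc, le_div_iff₀ (by positivity), mul_right_comm]
    exact mul_le_mul_of_nonneg_right (by nlinarith) hX0.le
  have c6 := mul_le_mul_of_nonneg_left (c5.trans p2) hs0
  have c7 := mul_le_mul_of_nonneg_right c4 hL0.le
  have c8 : (1 - ε) * (X * s) - Y * L ≤ L * G := by linarith [(abs_le.1 c1).1]
  refine le_of_mul_le_mul_left (le_trans (le_of_eq ?_) c8) hL0
  field_simp

theorem tvb_r2 {X L ε δ s G T P l : ℝ} {B : ℕ} (hX0 : 0 < X) (hL : 16 ≤ L) (hδ : 0 < δ)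
    (hδ1 : δ ≤ 1 / 4) (hδε : δ ≤ ε / 8) (hs0 : 0 ≤ s) (c1 : |T - s * P| ≤ X / L ^ B)
    (c2 : G ≤ X / L ^ (B + 1) + T / l) (b2 : (1 - δ) * L ≤ l) (p1 : P ≤ (1 + δ + δ) * X) :
    G ≤ (1 + ε) * (X * s / L) + X / L ^ B := by
  have hL0 : 0 < L := by linarith
  set Y := X / L ^ B with hY
  have hY0 : 0 < Y := by positivity
  have hM : 0 ≤ X * s := by positivity
  have c3 := mul_le_mul_of_nonneg_left p1 hs0
  have c4 : T ≤ (1 + δ + δ) * (X * s) + Y := by linarith [(abs_le.1 c1).2]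
  have c5 : T / l ≤ (1 + ε) * (X * s / L) + Y / 2 := by
    have d0 : 0 < (1 - δ) * L := mul_pos (by linarith) hL0
    refine (div_le_div₀ (by positivity) c4 d0 b2).trans ?_
    rw [div_le_iff₀ d0]
    have e1 : (1 + δ + δ) * (X * s) ≤ (1 + ε) * (X * s / L) * ((1 - δ) * L) := by
      calc _ ≤ (1 + ε) * (1 - δ) * (X * s) := mul_le_mul_of_nonneg_right (by nlinarith) hM
        _ = _ := by field_simp
    have e2 : 2 ≤ (1 - δ) * L := by nlinarith
    nlinarith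
  have c6 : X / L ^ (B + 1) ≤ Y / 2 := by
    rw [hY, div_div, pow_succ]
    gcongr
    linarith
  linarith

theorem tvb_r3 {X δ : ℝ} (hX : 4 ≤ X) (hL : 16 ≤ log X) (hδ : 0 < δ) (hδ1 : δ ≤ 1 / 4) (B : ℕ) :
    log X / log (log X) ^ 3 ≤ 2 * log (X / (1 + δ)) / log (log (X / (1 + δ))) ^ 3 ∧
    X / (1 + δ) / log (X / (1 + δ)) ^ B ≤ X / (log X / 2) ^ B := by
  have hX0 : 0 < X := by linarith
  have b1 : √X ≤ X / 2 := by
    rw [sqrt_le_left (by positivity)]
    nlinarith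
  have b2 : X / 2 ≤ X / (1 + δ) := div_le_div_of_nonneg_left hX0.le (by positivity) (by linarith)
  have b3 : X / (1 + δ) ≤ X := div_le_self hX0.le (by linarith)
  have b4 : log X / 2 ≤ log (X / (1 + δ)) := by
    rw [← log_sqrt hX0.le]
    exact log_le_log (by positivity) (b1.trans b2)
  have b5 : log (X / (1 + δ)) ≤ log X := log_le_log (by positivity) b3
  have b6 : 0 < log (log (X / (1 + δ))) := log_pos (by linarith)
  have b7 : 0 < log X / 2 := by linarith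
  exact ⟨div_le_div₀ (by linarith) (by linarith) (by positivity)
    (pow_le_pow_left₀ b6.le (log_le_log (by linarith) b5) 3), by gcongr⟩

theorem tv {ε : ℝ} (hε : 0 < ε) (B : ℕ) : ∀ᶠ X : ℝ in atTop, ∀ y : ℝ, 8 ≤ y →
    log y ≤ log X / log (log X) ^ 3 → ∀ S : Finset ℕ, (∀ d ∈ S, Smooth y d) →
    ∀ f : ℕ → ℝ, (∀ d, 0 ≤ f d ∧ f d ≤ 1) →
    |∑ p ∈ (PP X).filter (fun p => dd y p ∈ S), f (dd y p) - X / log X * ∑ d ∈ S, nu y d * f d|
      ≤ ε * (X / log X * ∑ d ∈ S, nu y d * f d) + X / log X ^ B := by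
  obtain ⟨δ, hδ, hδ1, hδε⟩ : ∃ δ : ℝ, 0 < δ ∧ δ ≤ 1 / 4 ∧ δ ≤ ε / 8 :=
    ⟨min (1 / 4) (ε / 8), by positivity, min_le_left _ _, min_le_right _ _⟩
  obtain ⟨W, hW⟩ := exists_cut hδ (by linarith)
  have ht : Tendsto (fun X : ℝ => X / (1 + δ)) atTop atTop :=
    tendsto_id.atTop_div_const (by positivity)
  have hlog : ∀ᶠ L : ℝ in atTop, ((B + 1 : ℕ) : ℝ) * log L ≤ δ * L := by
    filter_upwards [(isLittleO_log_id_atTop.const_mul_left ((B + 1 : ℕ) : ℝ)).bound hδ,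
      eventually_ge_atTop 0] with L h h0
    rw [id, Real.norm_of_nonneg h0] at h
    exact (le_abs_self _).trans h
  filter_upwards [tv_smooth hW B, pnt_smooth hW hδ, ht.eventually (tv_smooth hW B),
    ht.eventually (pnt_smooth hW hδ), eventually_ge_atTop 4,
    tendsto_log_atTop.eventually_ge_atTop 16, tendsto_log_atTop.eventually_ge_atTop (2 * 2 ^ B),
    bvb_log (2 * B + 1), bvb_log (B + 2), tendsto_log_atTop.eventually hlog]
    with X t1 p1 t2 p2 hX hL hLB hX1 hX2 hlL y hy hyX S hS f hf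
  have hL0 : 0 < log X := by linarith
  have hX0 : 0 < X := by linarith
  have hl0 : 0 < log (log X) := log_pos (by linarith)
  have hs0 : 0 ≤ ∑ d ∈ S, nu y d * f d :=
    sum_nonneg fun d _ => mul_nonneg (nu_nonneg y d) (hf d).1
  have eG : ∑ p ∈ (PP X).filter (fun p => dd y p ∈ S), f (dd y p) = ∑ p ∈ PP X, tvbG y S f p :=
    sum_filter _ _
  obtain ⟨r1, r2⟩ := tvb_r3 hX hL hδ hδ1 B
  have b1 : 2 ≤ X / log X ^ (B + 1) := by
    rw [le_div_iff₀ (by positivity)]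
    refine le_trans ?_ hX2
    rw [pow_succ' _ (B + 1)]
    exact mul_le_mul_of_nonneg_right (by linarith only [hL]) (by positivity)
  have b2 : (1 - δ) * log X ≤ log (X / log X ^ (B + 1)) := by
    rw [log_div hX0.ne' (by positivity), log_pow]
    linarith only [hlL]
  have k1 := tvb_r1 hX0 hL hLB hX1 hδ hδε hs0 (tvb_theta hf (t2 y hy (hyX.trans r1) S hS))
    (tvb_low hW hδ (by linarith only [hX]) hf) r2 p2.1
  have k2 := tvb_r2 hX0 hL hδ hδ1 hδε hs0 (tvb_theta hf (t1 y hy (hyX.trans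
    (div_le_div_of_nonneg_right (by linarith only [hL0]) (by positivity))) S hS))
    (tvb_up hW (by linarith only [hy]) b1 hX0 hf) b2 p1.2
  rw [eG, abs_le, div_mul_eq_mul_div]
  constructor <;> linarith only [k1, k2]

theorem tvb_mono {a u : ℝ} (ha : 3 ≤ log a) (ha0 : 0 < a) (h : a ≤ u) :
    a / log a ^ 3 ≤ u / log u ^ 3 := by
  obtain ⟨k, hk, rfl⟩ : ∃ k, 1 ≤ k ∧ u = a * k :=
    ⟨u / a, (one_le_div ha0).2 h, by field_simp⟩
  have h1 := log_nonneg hk
  have h2 : log (a * k) = log a + log k := log_mul ha0.ne' (by linarith)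
  have h3 : log (a * k) ^ 3 ≤ log a ^ 3 * k := by
    calc _ ≤ (log a * exp (log k / 3)) ^ 3 := by
          refine pow_le_pow_left₀ (by linarith) ?_ 3
          nlinarith [add_one_le_exp (log k / 3)]
      _ = _ := by
          rw [mul_pow, ← exp_nat_mul]
          push_cast
          rw [mul_div_cancel₀ _ three_ne_zero, exp_log (by linarith)]
  rw [div_le_div_iff₀ (pow_pos (by linarith) 3) (pow_pos (by linarith) 3)]
  nlinarith [mul_le_mul_of_nonneg_left h3 ha0.le]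

theorem tvb_blk (F : ℕ → ℝ) (hF : ∀ p, 0 ≤ F p) {X Z : ℝ} (hX : 0 < X) (hZ : X ≤ Z) :
    (∑ p ∈ PP Z, F p - ∑ p ∈ PP X, F p) / Z ≤ ∑ p ∈ (PP Z).filter (fun p : ℕ => X < p), F p / p ∧
    ∑ p ∈ (PP Z).filter (fun p : ℕ => X < p), F p / p ≤ (∑ p ∈ PP Z, F p) / X := by
  constructor
  · have e : (PP Z).filter (fun p : ℕ => ¬ X < p) = PP X := by
      ext p
      simp only [mem_filter, mem_PP, not_lt]
      exact ⟨fun h => ⟨h.1.1, h.2⟩, fun h => ⟨⟨h.1, h.2.trans hZ⟩, h.2⟩⟩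
    rw [← sum_filter_add_sum_filter_not (PP Z) fun p : ℕ => X < p, e, add_sub_cancel_right, sum_div]
    exact sum_le_sum fun p hp => div_le_div_of_nonneg_left (hF p)
      (hX.trans (mem_filter.1 hp).2) (mem_PP.1 (mem_filter.1 hp).1).2
  · rw [sum_div]
    exact (sum_le_sum fun p hp => div_le_div_of_nonneg_left (hF p) hX
      (mem_filter.1 hp).2.le).trans (sum_le_sum_of_subset_of_nonneg (filter_subset _ _)
      fun p _ _ => div_nonneg (hF p) hX.le)

theorem tvb_lg {u v : ℝ} (hu : 0 < u) (hv : 0 < v) :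
    (v - u) / v ≤ log v - log u ∧ log v - log u ≤ (v - u) / u := by
  rw [← log_div hv.ne' hu.ne', sub_div, sub_div, div_self hu.ne', div_self hv.ne']
  refine ⟨?_, log_le_sub_one_of_pos (by positivity)⟩
  simpa using one_sub_inv_le_log_of_pos (by positivity : 0 < v / u)

theorem tvb_num {u v c : ℝ} (hu : 6 ≤ u) (hv : v = u + log 2) (hc : 0 ≤ c) :
    c / v ^ 2 ≤ c / u ^ 2 ∧ 2 * (c / u ^ 2) ≤ 4 * c * (1 / u - 1 / v) ∧
    (log v - log u) / 4 ≤ 0.9 / v - 0.55 / u ∧ 2.2 / v ≤ 4 * (log v - log u) := by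
  have l1 : 0.69 < v - u := by linarith [log_two_gt_d9]
  have l2 : v - u < 0.7 := by linarith [log_two_lt_d9]
  have hu0 : 0 < u := by linarith
  have hv0 : 0 < v := by linarith
  obtain ⟨m1, m2⟩ := tvb_lg hu0 hv0
  have n0 : 1 / u - 1 / v = (v - u) / (u * v) := by field_simp
  refine ⟨by gcongr; linarith, ?_, ?_, ?_⟩
  · rw [n0, ← mul_div_assoc, ← mul_div_assoc, div_le_div_iff₀ (by positivity) (by positivity)]
    nlinarith [mul_nonneg (mul_nonneg hc hu0.le) (by nlinarith : 0 ≤ 2 * (v - u) * u - v)]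
  · have h1 : (v - u) / u ≤ 0.7 / u := div_le_div_of_nonneg_right l2.le hu0.le
    have h2 : 0.725 / u ≤ 0.9 / v := by
      rw [div_le_div_iff₀ hu0 hv0]
      linarith
    have h3 : 0.725 / u = 0.7 / u / 4 + 0.55 / u := by ring
    linarith
  · refine le_trans ?_ (mul_le_mul_of_nonneg_left m1 (by norm_num))
    rw [← mul_div_assoc]
    exact div_le_div_of_nonneg_right (by linarith) hv0.le

theorem tvb_base (F : ℕ → ℝ) (hF : ∀ p, 0 ≤ F p) {A s c Z : ℝ} (hA : 1 ≤ A) (ha : 6 ≤ log A)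
    (hs : 0 ≤ s) (hc : 0 ≤ c) (hG : |∑ p ∈ PP Z, F p - Z / log Z * s| ≤
      1 / 10 * (Z / log Z * s) + Z * (c / log Z ^ 2)) (h1 : A ≤ Z) (h2 : Z < A * 2) :
      (log (log Z) - log (log A) - 1) / 4 * s - 4 * c * (1 / log A - 1 / log Z) ≤
        ∑ p ∈ (PP Z).filter (fun p : ℕ => A < p), F p / p ∧
      ∑ p ∈ (PP Z).filter (fun p : ℕ => A < p), F p / p ≤
        4 * (log (log Z) - log (log A) + 1) * s + c / log A
          + 4 * c * (1 / log A - 1 / log Z) := by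
  have a1 : log A ≤ log Z := log_le_log (by linarith) h1
  have a2 : log Z ≤ log A + log 2 := by
    rw [← log_mul (by linarith) two_ne_zero]
    exact log_le_log (by linarith) h2.le
  have a3 : 0 ≤ 4 * c * (1 / log A - 1 / log Z) :=
    mul_nonneg (by positivity) (sub_nonneg.2 (one_div_le_one_div_of_le (by linarith) a1))
  have a4 : log (log A) ≤ log (log Z) := log_le_log (by linarith) a1
  have a5 : log (log Z) - log (log A) ≤ 1 := (tvb_lg (by linarith) (by linarith)).2.trans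
    ((div_le_one (by linarith)).2 (by linarith [log_two_lt_d9]))
  constructor
  · refine le_trans ?_ (sum_nonneg fun p _ => div_nonneg (hF p) (Nat.cast_nonneg _))
    nlinarith
  · refine (tvb_blk F hF (by linarith) h1).2.trans ?_
    have b1 := (abs_le.1 hG).2
    have b2 : Z / log Z * s ≤ A * s := mul_le_mul_of_nonneg_right (by
      rw [div_le_iff₀ (by linarith)]
      nlinarith) hs
    have b3 : Z * (c / log Z ^ 2) ≤ A * (c / log A) := by
      calc _ ≤ A * 2 * (c / (log A * 2)) := by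
            gcongr
            nlinarith
        _ = _ := by field_simp
    have b4 : (∑ p ∈ PP Z, F p) / A ≤ 4 * s + c / log A := by
      rw [div_le_iff₀ (by linarith)]
      linarith [mul_nonneg hs (by linarith : 0 ≤ A)]
    linarith [mul_nonneg (sub_nonneg.2 a4) hs]

theorem tvb_dyad (F : ℕ → ℝ) (hF : ∀ p, 0 ≤ F p) {A s c : ℝ} (hA : 1 ≤ A) (ha : 6 ≤ log A)
    (hs : 0 ≤ s) (hc : 0 ≤ c)
    (hG : ∀ X, A ≤ X → |∑ p ∈ PP X, F p - X / log X * s| ≤
      1 / 10 * (X / log X * s) + X * (c / log X ^ 2)) (j : ℕ) :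
    ∀ Z, A ≤ Z → Z < A * 2 ^ (j + 1) →
      (log (log Z) - log (log A) - 1) / 4 * s - 4 * c * (1 / log A - 1 / log Z) ≤
        ∑ p ∈ (PP Z).filter (fun p : ℕ => A < p), F p / p ∧
      ∑ p ∈ (PP Z).filter (fun p : ℕ => A < p), F p / p ≤
        4 * (log (log Z) - log (log A) + 1) * s + c / log A
          + 4 * c * (1 / log A - 1 / log Z) := by
  induction j with
  | zero => exact fun Z h1 h2 => tvb_base F hF hA ha hs hc (hG Z h1) h1 (by simpa using h2)
  | succ j ih =>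
    intro Z h1 h2
    by_cases h3 : Z < A * 2
    · exact tvb_base F hF hA ha hs hc (hG Z h1) h1 h3
    obtain ⟨X, rfl⟩ : ∃ X, Z = 2 * X := ⟨Z / 2, by ring⟩
    have hAX : A ≤ X := by linarith
    have hX0 : 0 < X := by linarith
    obtain ⟨i1, i2⟩ := ih X hAX (by rw [pow_succ] at h2; linarith)
    have e : ∑ p ∈ (PP (2 * X)).filter (fun p : ℕ => A < p), F p / p =
        ∑ p ∈ (PP (2 * X)).filter (fun p : ℕ => X < p), F p / p
          + ∑ p ∈ (PP X).filter (fun p : ℕ => A < p), F p / p := by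
      rw [← sum_filter_add_sum_filter_not _ fun p : ℕ => X < p]
      congr 2
      · ext p
        simp only [mem_filter]
        exact ⟨fun h => ⟨h.1.1, h.2⟩, fun h => ⟨⟨h.1, hAX.trans_lt h.2⟩, h.2⟩⟩
      · ext p
        simp only [mem_filter, mem_PP, not_lt]
        exact ⟨fun h => ⟨⟨h.1.1.1, h.2⟩, h.1.2⟩,
          fun h => ⟨⟨⟨h.1.1, by linarith [h.1.2]⟩, h.2⟩, h.1.2⟩⟩
    obtain ⟨k1, k2⟩ := tvb_blk F hF hX0 (by linarith : X ≤ 2 * X)
    have g1 := abs_le.1 (hG X hAX)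
    have g2 := abs_le.1 (hG _ h1)
    obtain ⟨n1, n2, n3, n4⟩ := tvb_num (v := log (2 * X)) (ha.trans (log_le_log (by linarith) hAX))
      (by rw [log_mul two_ne_zero hX0.ne', add_comm]) hc
    have n5 := mul_le_mul_of_nonneg_right n3 hs
    have n6 := mul_le_mul_of_nonneg_right n4 hs
    have n7 : 0 ≤ c / log X ^ 2 := by positivity
    rw [e]
    constructor
    · have : (0.9 / log (2 * X) - 0.55 / log X) * s - c / log (2 * X) ^ 2 - c / log X ^ 2 / 2 ≤
          (∑ p ∈ PP (2 * X), F p - ∑ p ∈ PP X, F p) / (2 * X) := by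
        rw [le_div_iff₀ (by positivity)]
        refine le_trans (le_of_eq ?_) (sub_le_sub (le_sub_iff_add_le.1 g2.1)
          (sub_le_iff_le_add.1 g1.2))
        ring
      linarith only [this, k1, i1, n1, n2, n5, n7]
    · have : (∑ p ∈ PP (2 * X), F p) / X ≤ 2.2 / log (2 * X) * s + 2 * (c / log (2 * X) ^ 2) := by
        rw [div_le_iff₀ hX0]
        refine (sub_le_iff_le_add.1 g2.2).trans_eq ?_
        ring
      linarith only [this, k2, i2, n1, n2, n6]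

/-- reciprocal sums over a range of primes -/
theorem tv_rec (B : ℕ) : ∀ᶠ A : ℝ in atTop, ∀ Z y : ℝ, A ≤ Z → 8 ≤ y →
    log y ≤ log A / log (log A) ^ 3 → ∀ S : Finset ℕ, (∀ d ∈ S, Smooth y d) →
    ∀ f : ℕ → ℝ, (∀ d, 0 ≤ f d ∧ f d ≤ 1) →
    (log (log Z) - log (log A) - 1) / 4 * ∑ d ∈ S, nu y d * f d - 1 / log A ^ B ≤
      ∑ p ∈ (PP Z).filter (fun p : ℕ => A < p ∧ dd y p ∈ S), f (dd y p) / p ∧
    ∑ p ∈ (PP Z).filter (fun p : ℕ => A < p ∧ dd y p ∈ S), f (dd y p) / p ≤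
      4 * (log (log Z) - log (log A) + 1) * ∑ d ∈ S, nu y d * f d + 1 / log A ^ B := by
  filter_upwards [eventually_forall_ge_atTop.2 (tv (ε := 1 / 10) (by norm_num) (B + 2)),
    eventually_ge_atTop 1, tendsto_log_atTop.eventually_ge_atTop 6,
    (tendsto_log_atTop.comp tendsto_log_atTop).eventually_ge_atTop 3]
    with A h hA ha hl Z y hZ hy hyA S hS f hf
  have ha0 : 0 < log A := by linarith
  obtain ⟨j, hj⟩ := pow_unbounded_of_one_lt (Z / A) one_lt_two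
  have e : ∑ p ∈ (PP Z).filter (fun p : ℕ => A < p ∧ dd y p ∈ S), f (dd y p) / p =
      ∑ p ∈ (PP Z).filter (fun p : ℕ => A < p), tvbG y S f p / p := by
    rw [← filter_filter, sum_filter]
    refine sum_congr rfl fun p _ => ?_
    rw [tvbG]
    split_ifs <;> simp
  obtain ⟨k1, k2⟩ := tvb_dyad (tvbG y S f) (fun p => (tvb_G hf p).1) (c := 1 / log A ^ B) hA ha
    (sum_nonneg fun d (_ : d ∈ S) => mul_nonneg (nu_nonneg y d) (hf d).1) (by positivity)
    (fun X hX => by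
      have a1 : log A ≤ log X := log_le_log (by linarith) hX
      have a2 := h X hX y hy (hyA.trans (tvb_mono hl ha0 a1)) S hS f hf
      rw [sum_filter] at a2
      refine a2.trans (add_le_add le_rfl ?_)
      have a3 : 0 < log X := by linarith
      rw [div_div, mul_one_div, pow_add]
      gcongr
      linarith) j Z hZ (by
      rw [div_lt_iff₀ (by linarith)] at hj
      rw [pow_succ]
      nlinarith)
  have a1 : 0 < 1 / log Z := one_div_pos.2 (ha0.trans_le (log_le_log (by linarith) hZ))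
  have a2 : 1 / log A ≤ 1 / 6 := one_div_le_one_div_of_le (by norm_num) ha
  have a3 : 0 < 1 / log A ^ B := by positivity
  rw [div_eq_mul_one_div (1 / log A ^ B)] at k2
  rw [e]
  constructor <;> nlinarith [mul_pos a1 a3, mul_le_mul_of_nonneg_left a2 a3.le]

end Vale.Agent.P031
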