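import Vale.Agent.P031.CoA1
import Vale.Agent.P031.TVb

namespace Vale.Agent.P031

open Finset Real Filter

noncomputable def c2aS (x : ℝ) (w d1 : ℕ) : Finset ℕ :=
  (SS (zz x) (ZZ x)).filter fun d0 => (w, d0, d1) ∈ EE x

noncomputable def c2aG (x : ℝ) (w d1 : ℕ) : ℝ := ∑ d ∈ c2aS x w d1, nu (zz x) d

theorem c2a_smooth {x : ℝ} {w d1 d : ℕ} (h : d ∈ c2aS x w d1) : Smooth (zz x) d :=
  (mem_SS.1 (mem_filter.1 h).1).1

theorem c2a_G {x : ℝ} (hx : Par x) (w d1 : ℕ) : 0 ≤ c2aG x w d1 ∧ c2aG x w d1 ≤ 1 :=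
  ⟨sum_nonneg fun _ _ => nu_nonneg _ _,
    sum_nu_le_one (by linarith [hx.z1_ge, hx.z1_zz]) _ fun _ h => c2a_smooth h⟩

theorem c2a_G2 (x : ℝ) :
    G2 x = ∑ w ∈ Wz x, 1 / (w : ℝ) * ∑ d ∈ SS (zz x) (ZZ x), nu (zz x) d * c2aG x w d := by
  have e : EE x = (Wz x ×ˢ SS (zz x) (ZZ x) ×ˢ SS (zz x) (ZZ x)).filter (· ∈ EE x) := by
    ext t
    rw [mem_filter]
    exact ⟨fun h => ⟨(mem_filter.1 (mem_filter.1 h).1).1, h⟩, fun h => h.2⟩
  rw [G2, e, sum_filter, sum_product]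
  refine sum_congr rfl fun w _ => ?_
  rw [sum_product_right]
  simp only [c2aG, c2aS, sum_filter, mul_sum]
  refine sum_congr rfl fun d1 _ => sum_congr rfl fun d0 _ => ?_
  split_ifs
  · simp only [m2]
    ring
  · simp

theorem c2a_log {x X : ℝ} (hx : Par x) (h1 : √x ≤ X) (h2 : X ≤ x) :
    ll x / 2 ≤ log X ∧ log X ≤ ll x ∧ log (zz x) ≤ log X / log (log X) ^ 3 := by
  have x0 : 0 < x := by linarith [hx.x16]
  have a1 : ll x / 2 ≤ log X := by
    rw [ll, ← log_sqrt x0.le]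
    exact log_le_log (by positivity) h1
  have a2 : log X ≤ ll x := log_le_log (lt_of_lt_of_le (by positivity) h1) h2
  have a3 := hx.L100
  have a4 : 100 ≤ ll x := by rw [hx.ll_eq]; linarith [add_one_le_exp (LL x)]
  have a5 : 0 < log (log X) := log_pos (by linarith)
  have a6 : log (log X) ≤ LL x := log_le_log (by linarith) a2
  refine ⟨a1, a2, (log_le_log (exp_pos _) (show zz x ≤ yy x by
    linarith [hx.zz_ZZ, hx.ZZ_z2, hx.z2_z3, hx.z3_y8, hx.y8_yy, hx.z1_ge, hx.z1_zz])).trans ?_⟩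
  rw [yy, log_exp]
  calc _ ≤ ll x / 2 / LL x ^ 3 := by
        rw [div_div, pow_succ' _ 3]
        gcongr
        linarith
    _ ≤ _ := by
        gcongr
        linarith

theorem c2a_X {x : ℝ} (hx : Par x) {p w : ℕ} (h1 : z2 x < p) (h2 : (p : ℝ) ≤ z3 x)
    (hw : w ∈ Wz x) : x / (p * w) ≤ x / ((p - 1) * w) + 1 ∧ x / ((p - 1) * w) + 1 ≤ 4 * (x / (p * w))
      ∧ √x * ll x ^ 3 ≤ x / ((p - 1) * w) + 1 ∧ x / ((p - 1) * w) + 1 ≤ x := by
  obtain ⟨⟨w1, w2⟩, -⟩ := mem_Wz.1 hw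
  have x0 := hx.x16
  have a1 : (1 : ℝ) ≤ w := by exact_mod_cast Nat.pos_of_ne_zero w1.1
  have a2 : (3 : ℝ) ≤ p := by linarith [hx.z1_ge, hx.z1_zz, hx.zz_ZZ, hx.ZZ_z2]
  have y1 : 8 ≤ YY x := by
    linarith [hx.z1_ge, hx.z1_zz, hx.zz_ZZ, hx.ZZ_z2, hx.z2_z3, hx.z3_y8, hx.y8_yy, hx.yy_YY]
  have a3 : (p : ℝ) * w ≤ YY x ^ 2 := by
    rw [sq]
    refine mul_le_mul ?_ ?_ (by linarith) (by linarith) <;>
      linarith [hx.ZZ_z2, hx.z2_z3, hx.z3_y8, hx.y8_yy, hx.yy_YY]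
  have a4 : 0 < ((p : ℝ) - 1) * w := mul_pos (by linarith) (by linarith)
  have a5 : x / (p * w) ≤ x / ((p - 1) * w) :=
    div_le_div_of_nonneg_left (by linarith) a4 (by nlinarith)
  have a6 : x / ((p - 1) * w) ≤ 2 * (x / (p * w)) := by
    rw [← mul_div_assoc, div_le_div_iff₀ a4 (by positivity)]
    nlinarith [mul_nonneg (mul_nonneg (by linarith : 0 ≤ x) (by linarith : (0 : ℝ) ≤ w))
      (by linarith : (0 : ℝ) ≤ p - 2)]
  have l1 : 1 ≤ ll x := by rw [hx.ll_eq]; exact one_le_exp (by linarith [hx.L100])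
  have a7 : ll x ^ 3 * (p * w) ≤ √x := by
    have b1 : ll x ^ 2 ≤ YY x := by
      linarith [hx.ll_z1, hx.z1_zz, hx.zz_ZZ, hx.ZZ_z2, hx.z2_z3, hx.z3_y8, hx.y8_yy, hx.yy_YY]
    refine le_sqrt_of_sq_le ?_
    calc _ = (ll x ^ 2) ^ 3 * (p * w) ^ 2 := by ring
      _ ≤ YY x ^ 3 * (YY x ^ 2) ^ 2 := by gcongr
      _ = YY x ^ 7 := by ring
      _ ≤ _ := ((pow_le_pow_right₀ (by linarith) (by norm_num)).trans
        (pow_le_pow_left₀ (by linarith) (by linarith) 20)).trans hx.YY_x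
  have a8 : √x * ll x ^ 3 ≤ x / (p * w) := by
    rw [le_div_iff₀ (by positivity), mul_assoc]
    exact (mul_le_mul_of_nonneg_left a7 (sqrt_nonneg _)).trans_eq (mul_self_sqrt (by linarith))
  have a9 : 1 ≤ √x * ll x ^ 3 :=
    one_le_mul_of_one_le_of_one_le (one_le_sqrt.2 (by linarith)) (one_le_pow₀ l1)
  have a10 : x / ((p - 1) * w) ≤ x / 2 :=
    div_le_div_of_nonneg_left (by linarith) two_pos (by nlinarith)
  exact ⟨by linarith, by linarith, by linarith, by linarith⟩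

theorem c2a_fib : ∀ᶠ x in atTop, ∀ p w : ℕ, p ∈ PP (z3 x) → z2 x < p → w ∈ Wz x →
    9 / 10 * (x / ll x) * (1 / w) * (c2aG x w (dd (zz x) p) / p)
      - 40 * (x / ll x ^ 3) * (1 / w) * (1 / p) ≤
      (((Tr2 x).filter fun t => (t.2.2, t.2.1) = (w, p)).card : ℝ) := by
  obtain ⟨C, hC⟩ := card_sm_gt
  filter_upwards [ev_par, tendsto_sqrt_atTop.eventually
    (eventually_forall_ge_atTop.2 (tv (ε := 1 / 10) (by norm_num) 3)), ev_LL |C|]
    with x hx h hL p w hp h1 hw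
  obtain ⟨b1, b2, b3, b4⟩ := c2a_X hx h1 (mem_PP.1 hp).2 hw
  have w0 : (0 : ℝ) < w := by exact_mod_cast Nat.pos_of_ne_zero (mem_Wz.1 hw).1.1.1
  have z8 : 8 ≤ zz x := hx.z1_ge.trans hx.z1_zz
  have p2 : (2 : ℝ) ≤ p := by exact_mod_cast (mem_PP.1 hp).1.two_le
  have L0 := hx.L100
  have l1 : 1 ≤ ll x := by rw [hx.ll_eq]; exact one_le_exp (by linarith)
  have x0 := hx.x16
  set X := x / ((p - 1) * w) + 1 with hX
  have b5 : √x ≤ X := (le_mul_of_one_le_right (sqrt_nonneg _) (one_le_pow₀ l1)).trans b3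
  have X0 : 0 < X := lt_of_lt_of_le (by positivity) b5
  obtain ⟨c1, c2, c3⟩ := c2a_log hx b5 b4
  have t1 := (abs_le.1 (h X b5 (zz x) z8 c3 _ (fun _ => c2a_smooth (w := w) (d1 := dd (zz x) p))
    (fun _ => 1) fun _ => ⟨zero_le_one, le_rfl⟩)).1
  simp only [mul_one, sum_const, nsmul_one, ← c2aG.eq_1] at t1
  have hsub : (PP X).filter (fun q => dd (zz x) q ∈ c2aS x w (dd (zz x) p)) ⊆
      (((Tr2 x).filter fun t => (t.2.2, t.2.1) = (w, p)).image Prod.fst ∪ Icc 1 ⌊√x⌋₊) ∪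
        (PP X).filter fun q => YY x < sm (z3 x) (q - 1) := fun q hq => by
    obtain ⟨q1, q2⟩ := mem_filter.1 hq
    obtain ⟨q3, q4⟩ := mem_PP.1 q1
    by_cases k1 : YY x < sm (z3 x) (q - 1)
    · exact mem_union_right _ (mem_filter.2 ⟨q1, k1⟩)
    by_cases k2 : (q : ℝ) ≤ √x
    · exact mem_union_left _ (mem_union_right _ (mem_Icc.2 ⟨q3.one_le, Nat.le_floor k2⟩))
    refine mem_union_left _ (mem_union_left _ (mem_image.2 ⟨(q, p, w), mem_filter.2
      ⟨mem_filter.2 ⟨mem_product.2 ⟨mem_PP.2 ⟨q3, by linarith⟩, mem_product.2 ⟨hp, hw⟩⟩,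
        not_le.1 k2, h1, ?_, (mem_filter.1 q2).2, not_lt.1 k1⟩, rfl⟩, rfl⟩))
    rw [hX, ← sub_le_iff_le_add, le_div_iff₀ (mul_pos (by linarith) w0)] at q4
    simp only [val]
    push_cast [q3.one_le, (mem_PP.1 hp).1.one_le]
    linarith
  have d1 := (card_le_card hsub).trans ((card_union_le _ _).trans
    (Nat.add_le_add_right ((card_union_le _ _).trans (Nat.add_le_add_right card_image_le _)) _))
  rw [Nat.card_Icc, Nat.add_sub_cancel] at d1
  have d2 : (⌊√x⌋₊ : ℝ) ≤ X / ll x ^ 3 :=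
    (Nat.floor_le (sqrt_nonneg _)).trans ((le_div_iff₀ (by positivity)).2 b3)
  have d3 : (((PP X).filter fun q => YY x < sm (z3 x) (q - 1)).card : ℝ) ≤ X / ll x ^ 3 := by
    have z3' : 8 ≤ z3 x := by linarith [hx.zz_ZZ, hx.ZZ_z2, hx.z2_z3]
    have z4 : log (z3 x) ≤ ll x / LL x ^ 8 := (log_le_log (by linarith) hx.z3_y8).trans_eq (log_exp _)
    have z5 : 0 < log (z3 x) := log_pos (by linarith)
    rw [← card_image_of_injOn (f := (· - 1)) fun a ha b hb e => by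
      have := (mem_PP.1 (mem_filter.1 ha).1).1.one_le
      have := (mem_PP.1 (mem_filter.1 hb).1).1.one_le
      simp only at e
      omega]
    refine (hC (z3 x) (YY x) X z3' (by linarith [hx.z3_y8, hx.y8_yy, hx.yy_YY]) X0.le _
      fun v hv => ?_).trans ?_
    · obtain ⟨q, hq, rfl⟩ := mem_image.1 hv
      obtain ⟨q1, q2⟩ := mem_filter.1 hq
      obtain ⟨q3, q4⟩ := mem_PP.1 q1
      refine ⟨by have := q3.two_le; omega, le_trans ?_ q4, q2⟩
      exact_mod_cast Nat.sub_le q 1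
    · have e1 : LL x ^ 2 ≤ log (YY x) / log (z3 x) := by
        rw [YY, log_exp, le_div_iff₀ z5]
        calc _ ≤ LL x ^ 2 * (ll x / LL x ^ 8) := by gcongr
          _ = ll x / LL x ^ 6 := by field_simp
          _ ≤ _ := by
            gcongr
            · linarith
            · norm_num
      have e2 : log (z3 x) ≤ ll x := z4.trans (div_le_self (by linarith) (one_le_pow₀ (by linarith)))
      have e3 : C ≤ ll x := by
        rw [hx.ll_eq]
        linarith [le_abs_self C, add_one_le_exp (LL x)]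
      calc _ ≤ ll x * X * ll x ^ 12 * exp (-LL x ^ 2) := by gcongr
        _ = X / ll x ^ 3 * (ll x ^ 16 * exp (-LL x ^ 2)) := by field_simp
        _ ≤ _ := by
          refine mul_le_of_le_one_right (by positivity) ?_
          rw [hx.ll_eq, ← exp_nat_mul, ← exp_add, exp_le_one_iff]
          push_cast
          nlinarith
  have d4 : X / log X ^ 3 ≤ 8 * (X / ll x ^ 3) := by
    calc _ ≤ X / (ll x / 2) ^ 3 := by gcongr
      _ = _ := by field_simp; norm_num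
  have d5 : X / ll x ^ 3 ≤ 4 * ((x / ll x ^ 3) * (1 / w) * (1 / p)) := by
    refine (div_le_div_of_nonneg_right b2 (by positivity)).trans_eq ?_
    field_simp
  have d6 : x / ll x * (1 / w) * (c2aG x w (dd (zz x) p) / p)
      ≤ X / log X * c2aG x w (dd (zz x) p) := by
    calc _ = x / (p * w) / ll x * c2aG x w (dd (zz x) p) := by field_simp
      _ ≤ _ := by
        gcongr
        · exact (c2a_G hx _ _).1
        · linarith
  have d7 : (((PP X).filter (fun q => dd (zz x) q ∈ c2aS x w (dd (zz x) p))).card : ℝ) ≤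
      ((Tr2 x).filter fun t => (t.2.2, t.2.1) = (w, p)).card + ⌊√x⌋₊ +
      ((PP X).filter fun q => YY x < sm (z3 x) (q - 1)).card := by exact_mod_cast d1
  linarith only [t1, d2, d3, d4, d5, d6, d7]

theorem c2a_rec : ∀ᶠ x in atTop, ∀ w : ℕ,
    √(LL x) / 8 * ∑ d ∈ SS (zz x) (ZZ x), nu (zz x) d * c2aG x w d - 1 / log (z2 x) ^ 2 ≤
      ∑ p ∈ (PP (z3 x)).filter (fun p : ℕ => z2 x < p), c2aG x w (dd (zz x) p) / p := by
  filter_upwards [ev_par, tendsto_zz.eventually (eventually_forall_ge_atTop.2 (tv_rec 2)),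
    tendsto_LL.eventually (ev_log_pow 4 1 (κ := 1 / 4) (b := 1 / 2) (by norm_num) (by norm_num))]
    with x hx h hL w
  rw [pow_one, ← sqrt_eq_rpow] at hL
  have L0 := hx.L100
  have s1 : 10 ≤ √(LL x) := le_sqrt_of_sq_le (by linarith)
  have s2 : √(LL x) ≤ LL x / 10 := by nlinarith [mul_self_sqrt (by linarith : 0 ≤ LL x)]
  have s3 : 0 ≤ log (LL x) := log_nonneg (by linarith)
  have q2 : log (log (z2 x)) = 9 / 10 * LL x + 4 * log (LL x) := by
    rw [z2, log_exp, log_mul (exp_pos _).ne' (by positivity), log_exp, log_pow]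
    norm_num
  have q3 : log (log (z3 x)) = 9 / 10 * LL x + √(LL x) := by rw [z3, log_exp, ← exp_add, log_exp]
  have z8 : 8 ≤ zz x := hx.z1_ge.trans hx.z1_zz
  have t := (h (z2 x) (by linarith [hx.zz_ZZ, hx.ZZ_z2]) (z3 x) (zz x) hx.z2_z3 z8 (by
    rw [q2, zz, z2, log_exp, log_exp, le_div_iff₀ (by positivity)]
    refine mul_le_mul_of_nonneg_left ((pow_le_pow_left₀ (by positivity) (by linarith) 3).trans
      (pow_le_pow_right₀ (by linarith) (by norm_num))) (exp_pos _).le) (SS (zz x) (ZZ x))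
    (fun d hd => (mem_SS.1 hd).1) (c2aG x w) (c2a_G hx w)).1
  refine le_trans (sub_le_sub_right (mul_le_mul_of_nonneg_right (by rw [q2, q3]; linarith)
    (sum_nonneg fun d _ => mul_nonneg (nu_nonneg _ _) (c2a_G hx w d).1)) _) (t.trans ?_)
  exact sum_le_sum_of_subset_of_nonneg (monotone_filter_right _ fun p _ hp => And.left hp)
    fun p _ _ => div_nonneg (c2a_G hx w _).1 (Nat.cast_nonneg _)

theorem tr2_lower : ∀ᶠ x in atTop,
    1 / 20 * (x / ll x) * √(LL x) * G2 x - x / ll x ≤ (Tr2 x).card := by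
  obtain ⟨C, hC⟩ := sum_inv_smooth
  filter_upwards [ev_par, c2a_fib, c2a_rec, ev_LL |C|,
    tendsto_LL.eventually (ev_pow_exp (80 * |C|) 0 1 one_pos)] with x hx h1 h2 hL hL'
  rw [zero_mul, exp_zero, mul_one, one_mul, pow_one, ← hx.ll_eq] at hL'
  have L0 := hx.L100
  have l1 : 1 ≤ ll x := by rw [hx.ll_eq]; exact one_le_exp (by linarith)
  have x0 := hx.x16
  have z8 : 8 ≤ zz x := hx.z1_ge.trans hx.z1_zz
  have E1 : 1 ≤ exp (9 / 10 * LL x) := one_le_exp (by linarith)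
  have E2 : exp (9 / 10 * LL x) ≤ ll x := by rw [hx.ll_eq]; exact exp_le_exp.2 (by linarith)
  set P := (PP (z3 x)).filter fun p : ℕ => z2 x < p
  have a1 : ∑ w ∈ Wz x, (1 : ℝ) / w ≤ |C| * exp (9 / 10 * LL x) := by
    refine (hC (zz x) (by linarith) _ fun w hw => (mem_Wz.1 hw).1.1).trans ?_
    rw [zz, log_exp]
    exact mul_le_mul_of_nonneg_right (le_abs_self _) (exp_pos _).le
  have a2 : ∑ p ∈ P, (1 : ℝ) / p ≤ LL x := le_trans (sum_le_sum_of_subset_of_nonneg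
    (fun p hp => mem_PP.2 ⟨(mem_PP.1 (mem_filter.1 hp).1).1,
      (mem_PP.1 (mem_filter.1 hp).1).2.trans (hx.z3_y8.trans hx.y8_yy)⟩)
    fun _ _ _ => by positivity) hx.rs_yy.2
  have a3 := card_eq_sum_card_fiberwise (s := Tr2 x) (t := Wz x ×ˢ P)
    (f := fun t => (t.2.2, t.2.1)) fun t ht => by
      obtain ⟨b1, -, b2, -⟩ := mem_filter.1 ht
      obtain ⟨b3, b4⟩ := mem_product.1 (mem_product.1 b1).2
      exact mem_coe.2 (mem_product.2 ⟨b4, mem_filter.2 ⟨b3, b2⟩⟩)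
  rw [a3, sum_product]
  push_cast
  have a4 : ∀ w ∈ Wz x, 9 / 80 * (x / ll x) * √(LL x) *
      (1 / w * ∑ d ∈ SS (zz x) (ZZ x), nu (zz x) d * c2aG x w d) -
      (9 / 10 * (x / ll x) / log (z2 x) ^ 2 + 40 * (x / ll x ^ 3) * LL x) * (1 / w) ≤
      ∑ p ∈ P, (((Tr2 x).filter fun t => (t.2.2, t.2.1) = (w, p)).card : ℝ) := fun w hw => by
    refine le_trans ?_ (sum_le_sum fun p hp => h1 p w (mem_filter.1 hp).1 (mem_filter.1 hp).2 hw)
    rw [sum_sub_distrib, ← mul_sum, ← mul_sum]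
    have b1 := mul_le_mul_of_nonneg_left (h2 w)
      (by positivity : 0 ≤ 9 / 10 * (x / ll x) * (1 / w))
    have b2 := mul_le_mul_of_nonneg_left a2 (by positivity : 0 ≤ 40 * (x / ll x ^ 3) * (1 / w))
    refine le_trans (le_of_eq ?_) (sub_le_sub b1 b2)
    ring
  refine le_trans ?_ (sum_le_sum a4)
  rw [sum_sub_distrib, ← mul_sum, ← mul_sum, ← c2a_G2]
  refine sub_le_sub (mul_le_mul_of_nonneg_right (mul_le_mul_of_nonneg_right
    (mul_le_mul_of_nonneg_right (by norm_num) (by positivity)) (sqrt_nonneg _)) (G2_nonneg x))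
    ((mul_le_mul_of_nonneg_left a1 (by positivity)).trans ?_)
  have b1 : |C| * exp (9 / 10 * LL x) / log (z2 x) ^ 2 ≤ 1 / 2 := by
    rw [z2, log_exp, div_le_iff₀ (by positivity), mul_pow, ← pow_mul,
      show 4 * 2 = 8 from rfl]
    have c1 : LL x ^ 2 ≤ LL x ^ 8 := pow_le_pow_right₀ (by linarith) (by norm_num)
    have c0 : 2 * LL x ≤ LL x ^ 2 := by nlinarith only [L0]
    have c2 : |C| ≤ 1 / 2 * LL x ^ 8 := by linarith only [c0, c1, hL]
    calc _ ≤ 1 / 2 * LL x ^ 8 * exp (9 / 10 * LL x) ^ 2 := by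
          gcongr
          exact le_self_pow₀ E1 two_ne_zero
      _ = _ := by ring
  have b2 : 40 * LL x * (|C| * exp (9 / 10 * LL x)) / ll x ^ 2 ≤ 1 / 2 := by
    rw [div_le_iff₀ (by positivity)]
    nlinarith [mul_le_mul hL' E2 (by linarith) (by linarith)]
  calc _ = x / ll x * (9 / 10 * (|C| * exp (9 / 10 * LL x) / log (z2 x) ^ 2)
        + 40 * LL x * (|C| * exp (9 / 10 * LL x)) / ll x ^ 2) := by field_simp
    _ ≤ _ := mul_le_of_le_one_right (by positivity) (by linarith)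

theorem tr2_tot {x : ℝ} (hx : Par x) {t : ℕ × ℕ × ℕ} (ht : t ∈ Tr2 x) : val t ∈ Vs x := by
  obtain ⟨h1, a1, a2, a3, -⟩ := mem_filter.1 ht
  obtain ⟨h2, h3⟩ := mem_product.1 h1
  obtain ⟨p0, -⟩ := mem_PP.1 h2
  obtain ⟨p1, p2⟩ := mem_PP.1 (mem_product.1 h3).1
  obtain ⟨-, m, hm, e⟩ := mem_Wz.1 (mem_product.1 h3).2
  have b1 : zz x < t.2.1 := by linarith [hx.z1_ge, hx.z1_zz, hx.zz_ZZ, hx.ZZ_z2]
  have b2 : (t.2.1 : ℝ) < t.1 := by linarith [hx.z3_y8, hx.y8_yy, hx.yy_YY, hx.coa_sqrt.2.1]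
  refine mem_Vs.2 ⟨⟨t.1 * (t.2.1 * m), Nat.mul_pos p0.pos (Nat.mul_pos p1.pos
    (Nat.pos_of_ne_zero hm.1)), ?_⟩, a3⟩
  rw [Nat.totient_mul_of_prime_of_not_dvd p0 fun h => ?_,
    Nat.totient_mul_of_prime_of_not_dvd p1 fun h => absurd (hm.2 _ p1 h) (not_le.2 b1), e, val,
    mul_assoc]
  rcases (Nat.Prime.dvd_mul p0).1 h with h | h
  · rw [(Nat.prime_dvd_prime_iff_eq p0 p1).1 h] at b2
    exact lt_irrefl _ b2
  · linarith [hm.2 _ p0 h]

end Vale.Agent.P031
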