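import Vale.Agent.P031.MB

namespace Vale.Agent.P031

open Finset Real Filter

theorem CI_log_yy (x : ℝ) : log (yy x) = ll x / LL x ^ 4 := log_exp _
theorem CI_log_y8 (x : ℝ) : log (y8 x) = ll x / LL x ^ 8 := log_exp _
theorem CI_log_zz (x : ℝ) : log (zz x) = exp (9 / 10 * LL x) := log_exp _

theorem CI_zz8 {x : ℝ} (h : Par x) : 8 ≤ zz x := h.z1_ge.trans h.z1_zz

theorem CI_ZZ_YY {x : ℝ} (h : Par x) : ZZ x ≤ YY x := by
  have := h.ZZ_z2; have := h.z2_z3; have := h.z3_y8; have := h.y8_yy; have := h.yy_YY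
  have := h.zz_ZZ; have := CI_zz8 h
  linarith

theorem CI_zz_y8 {x : ℝ} (h : Par x) : zz x ≤ y8 x := by
  have := h.ZZ_z2; have := h.z2_z3; have := h.z3_y8
  have := h.zz_ZZ; have := CI_zz8 h
  linarith

theorem CI_YY_pow {x : ℝ} (h : Par x) {k : ℕ} (hk : k ≤ 20) : YY x ^ k ≤ x := by
  have h1 : 1 ≤ YY x := by linarith [CI_ZZ_YY h, h.zz_ZZ, CI_zz8 h]
  exact (pow_le_pow_right₀ h1 hk).trans
    ((pow_le_pow_left₀ (by linarith) (by linarith) 20).trans h.YY_x)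

theorem CI_ZZ_x {x : ℝ} (h : Par x) : ZZ x ≤ x :=
  (CI_ZZ_YY h).trans (by simpa using CI_YY_pow h (k := 1) (by norm_num))

theorem CI_ll_pos {x : ℝ} (h : Par x) : 0 < ll x := by rw [h.ll_eq]; exact exp_pos _

theorem CI_ll_ge {x : ℝ} (h : Par x) : 100 ≤ ll x := by
  have := add_one_le_exp (LL x)
  rw [h.ll_eq]; linarith [h.L100]

/-- the level condition at a point of size comparable to `x` -/
theorem CI_level {x X : ℝ} (h : Par x) (h1 : ll x / 3 ≤ log X) (h2 : log X ≤ 2 * ll x) :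
    ll x / LL x ^ 4 ≤ log X / log (log X) ^ 3 := by
  have hl := CI_ll_ge h
  have hL := h.L100
  have a1 : 0 < log (log X) := log_pos (by linarith)
  have a2 : log (log X) ≤ 2 * LL x := by
    have := log_le_log (by linarith) h2
    rw [log_mul two_ne_zero (by linarith)] at this
    have e : log (ll x) = LL x := rfl
    linarith [log_two_lt_d9]
  have a3 : log (log X) ^ 3 ≤ (2 * LL x) ^ 3 := pow_le_pow_left₀ a1.le a2 3
  rw [div_le_div_iff₀ (by positivity) (by positivity)]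
  have a4 : 24 * LL x ^ 3 ≤ LL x ^ 4 := by
    rw [pow_succ' (LL x) 3]
    exact mul_le_mul_of_nonneg_right (by linarith) (by positivity)
  have a5 := mul_le_mul h1 a4 (by positivity) (by linarith)
  nlinarith [mul_le_mul_of_nonneg_left a3 (show 0 ≤ ll x by linarith)]

theorem CI_Wz {x : ℝ} (h : Par x) : ∑ w ∈ Wz x, (1 : ℝ) / w ≤ MM x := by
  refine sum_le_sum_of_subset_of_nonneg (fun w hw => ?_) fun _ _ _ => by positivity
  obtain ⟨⟨-, h1⟩, m, hm, e⟩ := mem_Wz.1 hw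
  refine mem_Vs.2 ⟨⟨m, Nat.one_le_iff_ne_zero.2 hm.1, e⟩, h1.trans ((CI_ZZ_x h).trans ?_)⟩
  nlinarith [h.x16]

theorem CI_mem_Tri {x : ℝ} {t : ℕ × ℕ × ℕ} : t ∈ Tri x ↔ t.1 ∈ Wz x ∧ t.2.1 ∈ SS (zz x) (ZZ x) ∧
    t.2.2 ∈ SS (zz x) (ZZ x) ∧ (pr t : ℝ) ≤ ZZ x := by
  simp only [Tri, mem_filter, mem_product, and_assoc]

theorem CI_sum_mul (U A B : Finset ℕ) (h : ∀ u ∈ U, ∃ a ∈ A, ∃ b ∈ B, u = a * b) :
    ∑ u ∈ U, (1 : ℝ) / u ≤ (∑ a ∈ A, (1 : ℝ) / a) * ∑ b ∈ B, (1 : ℝ) / b := by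
  have h1 : U ⊆ (A ×ˢ B).image fun q => q.1 * q.2 := fun u hu => by
    obtain ⟨a, ha, b, hb, rfl⟩ := h u hu
    exact mem_image.2 ⟨(a, b), mem_product.2 ⟨ha, hb⟩, rfl⟩
  refine (sum_le_sum_of_subset_of_nonneg h1 fun _ _ _ => by positivity).trans
    ((sum_image_le_of_nonneg fun _ _ => by positivity).trans (le_of_eq ?_))
  rw [sum_mul_sum, sum_product]
  refine sum_congr rfl fun a _ => sum_congr rfl fun b _ => ?_
  rw [Nat.cast_mul, one_div_mul_one_div]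

/-- final numerical comparison -/
theorem CI_ev (C : ℝ) (k : ℕ) {κ : ℝ} (hκ : 0 < κ) : ∀ᶠ x in atTop,
    C * LL x ^ k * exp (LL x ^ (3 / 4 : ℝ)) ≤ exp (κ * LL x) := by
  refine tendsto_LL.eventually (p := fun L => C * L ^ k * exp (L ^ (3 / 4 : ℝ)) ≤ exp (κ * L)) ?_
  filter_upwards [ev_pow_exp C 0 k (half_pos hκ),
    ev_rpow 1 (a := 3 / 4) (b := 1) (half_pos hκ) (by norm_num)] with L h1 h2
  rw [zero_mul, exp_zero, mul_one] at h1
  rw [one_mul, rpow_one] at h2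
  refine (mul_le_mul h1 (exp_le_exp.2 h2) (exp_pos _).le (exp_pos _).le).trans (le_of_eq ?_)
  rw [← exp_add]; congr 1; ring

end Vale.Agent.P031
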