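import Vale.Agent.P031.MB
import Vale.Agent.P031.Sv
import Vale.Agent.P031.CI0

namespace Vale.Agent.P031

open Finset Real Filter

theorem CIa_Om (S : Finset ℕ) (hS : ∀ q ∈ S, q.Prime) (f : ℕ → ℕ) :
    Om (∏ q ∈ S, q ^ f q) = ∑ q ∈ S, f q := by
  induction S using Finset.induction_on with
  | empty => simp [Om]
  | insert a S ha ih =>
    have h1 := fun q hq => hS q (mem_insert_of_mem hq)
    have h2 := hS a (mem_insert_self a S)
    rw [prod_insert ha, sum_insert ha, ← ih h1, Om, Om, ArithmeticFunction.cardFactors_mul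
      (pow_ne_zero _ h2.ne_zero) (prod_ne_zero_iff.2 fun q hq => pow_ne_zero _ (h1 q hq).ne_zero),
      ArithmeticFunction.cardFactors_apply_prime_pow h2]

theorem CIa_over (S : Finset ℕ) (hS : ∀ q ∈ S, q.Prime) (f : ℕ → ℕ) :
    Over S (∏ q ∈ S, q ^ f q) := by
  refine ⟨prod_ne_zero_iff.2 fun q hq => pow_ne_zero _ (hS q hq).ne_zero, fun q hq hd => ?_⟩
  obtain ⟨p, hp, h⟩ := (Prime.dvd_finsetProd_iff hq.prime _).1 hd
  rwa [(Nat.prime_dvd_prime_iff_eq hq (hS p hp)).1 (hq.dvd_of_dvd_pow h)]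

theorem CIa_split {x : ℝ} (h : Par x) (v : ℕ) :
    sm (y8 x) v = sm (zz x) v * ∏ q ∈ S2 x, q ^ v.factorization q := by
  rw [sm, sm, S2, ← prod_filter_not_mul_prod_filter (PP (y8 x)) fun q : ℕ => zz x < q]
  congr 2
  ext q
  simp only [mem_filter, mem_PP, not_lt]
  exact ⟨fun a => ⟨a.1.1, a.2⟩, fun a => ⟨⟨a.1, a.2.trans (CI_zz_y8 h)⟩, a.2⟩⟩

theorem CIa_e {x : ℝ} (h : Par x) (B : Finset ℕ)
    (hB : ∀ e ∈ B, Over (S2 x) e ∧ 198 / 100 * rs (S2 x) ≤ Om e) :
    ∑ e ∈ B, (1 : ℝ) / e ≤ exp (634 / 10000 * LL x + 16) := by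
  have h1 := sum_pow_Om_div_le (S2 x) (fun q hq => (mem_PP.1 (mem_filter.1 hq).1).1) (l := 2)
    zero_le_two (fun q hq => by linarith [(mem_filter.1 hq).2, CI_zz8 h]) B fun e he => (hB e he).1
  have h0 : 0 ≤ rs (S2 x) := sum_nonneg fun _ _ => by positivity
  have h2 : ∀ e ∈ B, (1 : ℝ) / e ≤ exp (-(13723 / 10000 * rs (S2 x))) * (2 ^ Om e / e) := by
    intro e he
    rw [← mul_div_assoc]
    refine div_le_div_of_nonneg_right ?_ (Nat.cast_nonneg _)
    rw [← exp_log two_pos, ← exp_nat_mul, ← exp_add, one_le_exp_iff]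
    have := mul_le_mul (hB e he).2 log_two_gt_d9.le (by norm_num) (Nat.cast_nonneg _)
    linarith
  refine (sum_le_sum h2).trans ?_
  rw [← mul_sum]
  refine (mul_le_mul_of_nonneg_left h1 (exp_pos _).le).trans ?_
  rw [← exp_add, exp_le_exp]
  linarith [h.rs_S2.2, h.L100]

theorem CIa_s {x C : ℝ} (h : Par x) (hC : ∑ d ∈ SS (zz x) (ZZ x), (1 : ℝ) / d ≤ C * log (zz x))
    (A : Finset ℕ) (hA : ∀ s ∈ A, exp (47 / 25 * LL x) < D2 x s) :
    ∑ s ∈ A, (1 : ℝ) / s ≤ C ^ 2 * MM x * exp (-(2 / 25 * LL x)) := by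
  have h1 : exp (47 / 25 * LL x) * ∑ s ∈ A, (1 : ℝ) / s ≤ ∑ t ∈ Tri x, (1 : ℝ) / pr t := by
    refine le_trans ?_ (sum_fiberwise_le_sum_of_sum_fiber_nonneg (t := A) (g := pr)
      fun _ _ => sum_nonneg fun _ _ => by positivity)
    rw [mul_sum]
    refine sum_le_sum fun s hs => ?_
    rw [sum_congr rfl (g := fun _ => (1 : ℝ) / s) fun t ht => by rw [(mem_filter.1 ht).2],
      sum_const, nsmul_eq_mul]
    exact mul_le_mul_of_nonneg_right (hA s hs).le (by positivity)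
  have h2 : ∑ t ∈ Tri x, (1 : ℝ) / pr t ≤ MM x * (C * log (zz x)) ^ 2 := by
    refine (sum_le_sum_of_subset_of_nonneg (filter_subset _ _) fun _ _ _ => by positivity).trans ?_
    have e : ∑ t ∈ Wz x ×ˢ SS (zz x) (ZZ x) ×ˢ SS (zz x) (ZZ x), (1 : ℝ) / pr t =
        (∑ w ∈ Wz x, (1 : ℝ) / w) * (∑ d ∈ SS (zz x) (ZZ x), (1 : ℝ) / d) ^ 2 := by
      rw [sq, sum_mul_sum, sum_mul_sum, sum_product]
      refine sum_congr rfl fun w _ => ?_
      rw [sum_product]
      refine sum_congr rfl fun a _ => ?_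
      rw [mul_sum]
      refine sum_congr rfl fun b _ => ?_
      simp only [pr, Nat.cast_mul, one_div_mul_one_div, mul_assoc]
    have h0 : 0 ≤ ∑ d ∈ SS (zz x) (ZZ x), (1 : ℝ) / d := sum_nonneg fun _ _ => by positivity
    rw [e]
    exact mul_le_mul (CI_Wz h) (pow_le_pow_left₀ h0 hC 2) (by positivity)
      (sum_nonneg fun _ _ => by positivity)
  have h3 := h1.trans h2
  rw [← le_div_iff₀' (exp_pos _), CI_log_zz, mul_pow, ← exp_nat_mul, ← mul_assoc, mul_div_assoc,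
    ← exp_sub] at h3
  refine h3.trans (le_of_eq ?_)
  rw [mul_comm (MM x)]
  congr 2
  push_cast; ring

theorem cl1_sat {c ε : ℝ} (hc : 1 ≤ c) (hε : 0 < ε) : ∀ᶠ x in atTop, ∀ T : Finset ℕ,
    (∀ v ∈ T, v ≠ 0 ∧ (v : ℝ) ≤ c * x ∧ (sm (yy x) v : ℝ) ≤ YY x ∧
      198 / 100 * rs (S2 x) ≤ OmS (S2 x) v ∧
      ∃ s, sm (zz x) v = 4 * s ∧ exp (47 / 25 * LL x) < D2 x s) →
    (T.card : ℝ) ≤ ε * (x / ll x) := by
  obtain ⟨C, hC⟩ := prod_le
  obtain ⟨C', hC'⟩ := sum_inv_smooth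
  have hr := tendsto_sqrt_atTop.eventually rough_card
  filter_upwards [ev_par, hr, MM_le, CI_ev (2 * c * |C| * C' ^ 2 * exp 16 / ε) 8
    (κ := 166 / 10000) (by norm_num)] with x h hr hM hn T hT
  have hx : 0 < x := by linarith [h.x16]
  have hl := CI_ll_pos h
  have hL : 0 < LL x := by linarith [h.L100]
  have hy8 : 8 ≤ y8 x := (CI_zz8 h).trans (CI_zz_y8 h)
  have hlev : log (y8 x) ≤ log √x / log (log √x) ^ 3 := by
    have e : log √x = ll x / 2 := log_sqrt hx.le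
    refine (log_le_log (by linarith) h.y8_yy).trans ((CI_log_yy x).trans_le
      (CI_level h ?_ ?_)) <;> linarith
  have h1 : ∀ u ∈ T.image (sm (y8 x)), (((T.filter fun v => sm (y8 x) v = u).card : ℕ) : ℝ) ≤
      2 * c * |C| * LL x ^ 8 * (x / ll x) * (1 / u) := fun u hu => by
    obtain ⟨v0, hv0, rfl⟩ := mem_image.1 hu
    have hu0 : (0 : ℝ) < sm (y8 x) v0 := Nat.cast_pos.2 (Nat.pos_of_ne_zero (sm_ne_zero _ _))
    have huY : (sm (y8 x) v0 : ℝ) ≤ √x := by
      refine (Nat.cast_le.2 (Nat.le_of_dvd (Nat.pos_of_ne_zero (sm_ne_zero _ _))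
        (sm_dvd_sm h.y8_yy (hT v0 hv0).1))).trans ((hT v0 hv0).2.2.1.trans ?_)
      exact le_sqrt_of_sq_le (CI_YY_pow h (by norm_num))
    have hR : √x ≤ c * x / sm (y8 x) v0 := by
      rw [le_div_iff₀ hu0]
      have := mul_le_mul_of_nonneg_left huY (sqrt_nonneg x)
      rw [mul_self_sqrt hx.le] at this
      nlinarith
    have key : ∀ v ∈ T.filter (fun v => sm (y8 x) v = sm (y8 x) v0),
        sm (y8 x) v0 * (v / sm (y8 x) v0) = v := fun v hv => by
      rw [← (mem_filter.1 hv).2]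
      exact Nat.mul_div_cancel' (sm_dvd _ (hT v (mem_filter.1 hv).1).1)
    have h2 := hr (y8 x) _ (by linarith) hlev hR ((T.filter fun v => sm (y8 x) v =
      sm (y8 x) v0).image (· / sm (y8 x) v0)) fun r hr => by
        obtain ⟨v, hv, rfl⟩ := mem_image.1 hr
        have hv' := hT v (mem_filter.1 hv).1
        refine ⟨fun e => hv'.1 (by rw [← key v hv, e, mul_zero]), ?_, ?_⟩
        · rw [le_div_iff₀' hu0, ← Nat.cast_mul, key v hv]; exact hv'.2.1
        · rw [← (mem_filter.1 hv).2]; exact rough_div_sm _ hv'.1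
    rw [card_image_of_injOn fun a ha b hb e => by
      rw [← key a ha, ← key b hb]; exact congrArg _ e] at h2
    have h3 := (hC (y8 x) (by linarith)).trans (div_le_div_of_nonneg_right (le_abs_self C)
      (log_nonneg (by linarith)))
    refine (h2.trans (mul_le_mul_of_nonneg_left h3 (by positivity))).trans (le_of_eq ?_)
    rw [CI_log_y8]
    field_simp
  choose! s hs using fun v hv => (hT v hv).2.2.2.2
  have h2 := CI_sum_mul (T.image (sm (y8 x))) (T.image fun v => 4 * s v)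
    (T.image fun v => ∏ q ∈ S2 x, q ^ v.factorization q) fun u hu => by
      obtain ⟨v, hv, rfl⟩ := mem_image.1 hu
      exact ⟨_, mem_image_of_mem _ hv, _, mem_image_of_mem _ hv, by rw [CIa_split h, (hs v hv).1]⟩
  have h3 := CIa_e h (T.image fun v => ∏ q ∈ S2 x, q ^ v.factorization q) fun e he => by
    obtain ⟨v, hv, rfl⟩ := mem_image.1 he
    have hp : ∀ q ∈ S2 x, q.Prime := fun q hq => (mem_PP.1 (mem_filter.1 hq).1).1
    exact ⟨CIa_over _ hp _, by rw [CIa_Om _ hp]; exact (hT v hv).2.2.2.1⟩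
  have h4 := CIa_s h (hC' (zz x) (by linarith [CI_zz8 h]) _ fun d hd => (mem_SS.1 hd).1)
    (T.image s) fun a ha => by
      obtain ⟨v, hv, rfl⟩ := mem_image.1 ha
      exact (hs v hv).2
  have h5 : ∑ a ∈ T.image (fun v => 4 * s v), (1 : ℝ) / a ≤ ∑ a ∈ T.image s, (1 : ℝ) / a := by
    rw [show T.image (fun v => 4 * s v) = (T.image s).image (4 * ·) from image_image.symm]
    refine (sum_image_le_of_nonneg fun _ _ => by positivity).trans (sum_le_sum fun a _ => ?_)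
    have : (0 : ℝ) ≤ 1 / a := by positivity
    rw [Nat.cast_mul, ← one_div_mul_one_div]
    push_cast
    linarith
  have h6 := h2.trans (mul_le_mul (h5.trans (h4.trans (mul_le_mul_of_nonneg_right
    (mul_le_mul_of_nonneg_left hM (sq_nonneg C')) (exp_pos _).le))) h3
    (sum_nonneg fun _ _ => by positivity) (by positivity))
  rw [card_eq_sum_card_image (sm (y8 x)), Nat.cast_sum]
  refine (sum_le_sum h1).trans ?_
  rw [← mul_sum]
  refine (mul_le_mul_of_nonneg_left h6 (by positivity)).trans ?_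
  have e : exp (-(2 / 25 * LL x)) * exp (634 / 10000 * LL x + 16) =
      exp 16 / exp (166 / 10000 * LL x) := by
    rw [← exp_add, ← exp_sub]; congr 1; ring
  have h7 := mul_le_mul_of_nonneg_right ((div_le_one (exp_pos _)).2 hn)
    (show 0 ≤ ε * (x / ll x) by positivity)
  rw [one_mul] at h7
  refine le_of_eq_of_le ?_ h7
  rw [mul_assoc (C' ^ 2 * _), e]
  field_simp

end Vale.Agent.P031
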