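import Vale.Agent.P031.MB
import Vale.Agent.P031.CI0

namespace Vale.Agent.P031

open Finset Real Filter

theorem CIb_tau {n : ℕ} (hn : n ≠ 0) : 2 ^ om n ≤ n.divisors.card := by
  rw [Nat.card_divisors hn, om]
  refine pow_card_le_prod _ _ _ fun q hq => ?_
  have := (Nat.mem_primeFactors.1 hq).1.factorization_pos_of_dvd hn (Nat.mem_primeFactors.1 hq).2.1
  omega

/-- many cofactors give many triples -/
theorem CIb_D2 {x : ℝ} {s d : ℕ} (hs : Smooth (zz x) s) (hd : Smooth (zz x) d)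
    (hZ : ((s * d : ℕ) : ℝ) ≤ ZZ x) :
    ∑ w ∈ (Wz x).filter (· ∣ s), (s / w * d).divisors.card ≤ D2 x (s * d) := by
  rw [← card_sigma, D2]
  refine card_le_card_of_injOn (fun q => (q.1, q.2, s / q.1 * d / q.2)) (fun q hq => ?_) ?_
  · obtain ⟨h1, h2⟩ := mem_sigma.1 (mem_coe.1 hq)
    obtain ⟨h3, h4⟩ := mem_filter.1 h1
    have h5 := (Nat.mem_divisors.1 h2).1
    have e : pr (q.1, q.2, s / q.1 * d / q.2) = s * d := by
      simp only [pr]
      rw [mul_assoc, Nat.mul_div_cancel' h5, ← mul_assoc, Nat.mul_div_cancel' h4]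
    have h6 : ∀ a, a ∣ s * d → a ∈ SS (zz x) (ZZ x) := fun a ha => mem_SS.2 ⟨(hs.mul hd).of_dvd ha,
      (Nat.cast_le.2 (Nat.le_of_dvd (Nat.pos_of_ne_zero (hs.mul hd).1) ha)).trans hZ⟩
    refine mem_coe.2 (mem_filter.2 ⟨CI_mem_Tri.2 ⟨h3, h6 _ ?_, h6 _ ?_, by rw [e]; exact hZ⟩, e⟩)
    · rw [← e]; exact (dvd_mul_left _ _).mul_right _
    · rw [← e]; exact dvd_mul_left _ _
  · rintro ⟨a, b⟩ - ⟨a', b'⟩ - e
    simp only [Prod.mk.injEq] at e
    rw [e.1, e.2.1]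

/-- the good triples -/
noncomputable def CIbG (x : ℝ) : Finset (ℕ × ℕ × ℕ) := (Tri x).filter fun t =>
  (2 : ℝ) ^ om (t.2.1 * t.2.2) ≤ 2 * exp (103 / 100 * LL x)

theorem CIb_fibre {x : ℝ} (h : Par x) {s d : ℕ} (hs : Smooth (zz x) s) (hd : Smooth (zz x) d)
    (hZ : ((s * d : ℕ) : ℝ) ≤ ZZ x) (h1 : (D2 x (s * d) : ℝ) ≤ exp (47 / 25 * LL x))
    (h2 : exp (17 / 20 * LL x) < DD (Wz x) s) (F : Finset (ℕ × ℕ × ℕ))
    (hF : ∀ t ∈ F, t.1 ∈ Wz x ∧ (t.1 * t.2.1, t.2.2) = (s, d)) :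
    ∑ t ∈ F, m2 x t ≤ 2 * LL x ^ 4 *
      ∑ t ∈ (CIbG x).filter (fun t => (t.1 * t.2.1, t.2.2) = (s, d)), m2 x t := by
  set W := (Wz x).filter (· ∣ s) with hW
  let good : ℕ → Prop := fun w => (2 : ℝ) ^ om (s / w * d) ≤ 2 * exp (103 / 100 * LL x)
  have hs0 : (0 : ℝ) < s := Nat.cast_pos.2 (Nat.pos_of_ne_zero hs.1)
  have hP : 0 ≤ Py (zz x) := by
    have := nu_nonneg (zz x) 1
    simp only [nu, Nat.cast_one, mul_one] at this
    rw [filter_true_of_mem fun q hq => (mem_PP.1 (mem_erase.1 hq).2).1.not_dvd_one] at this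
    exact nonneg_of_mul_nonneg_right this (by norm_num)
  have hdiv : ∀ w ∈ W, w * (s / w) = s ∧ s / w ≠ 0 ∧ (0 : ℝ) < w := fun w hw => by
    have e := Nat.mul_div_cancel' (mem_filter.1 hw).2
    exact ⟨e, fun e' => hs.1 (by rw [← e, e', mul_zero]),
      Nat.cast_pos.2 (Nat.pos_of_ne_zero fun e' => hs.1 (by rw [← e, e', zero_mul]))⟩
  have c1 : (W.card : ℝ) ≤ 2 * (W.filter good).card := by
    have a1 : ((W.filter fun w => ¬ good w).card : ℝ) * (2 * exp (103 / 100 * LL x)) ≤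
        exp (47 / 25 * LL x) := by
      refine le_trans ?_ ((Nat.cast_le.2 (CIb_D2 hs hd hZ)).trans h1)
      rw [Nat.cast_sum, ← nsmul_eq_mul]
      refine (card_nsmul_le_sum _ _ _ fun w hw => ?_).trans
        (sum_le_sum_of_subset_of_nonneg (filter_subset _ _) fun _ _ _ => Nat.cast_nonneg _)
      refine (not_le.1 (mem_filter.1 hw).2).le.trans ?_
      exact_mod_cast CIb_tau (mul_ne_zero (hdiv w (mem_filter.1 hw).1).2.1 hd.1)
    have a2 : exp (47 / 25 * LL x) = exp (17 / 20 * LL x) * exp (103 / 100 * LL x) := by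
      rw [← exp_add]; congr 1; ring
    have a3 : ((W.filter good).card : ℝ) + (W.filter fun w => ¬ good w).card = W.card := by
      exact_mod_cast card_filter_add_card_filter_not (s := W) good
    rw [a2, ← mul_assoc] at a1
    have a4 := le_of_mul_le_mul_right a1 (exp_pos _)
    have a5 : exp (17 / 20 * LL x) < W.card := h2
    linarith
  have hn := nu_nonneg (zz x) d
  have c2 : ∑ t ∈ F, m2 x t ≤ W.card * (LL x ^ 4 * (Py (zz x) / (2 * s) * nu (zz x) d)) := by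
    have hm : ∀ t ∈ F, t.1 ∈ W := fun t ht =>
      mem_filter.2 ⟨(hF t ht).1, Dvd.intro _ (congrArg Prod.fst (hF t ht).2)⟩
    refine (sum_le_card_nsmul _ _ (LL x ^ 4 * (Py (zz x) / (2 * s) * nu (zz x) d))
      fun t ht => ?_).trans ?_
    rotate_left
    · rw [nsmul_eq_mul]
      refine mul_le_mul_of_nonneg_right (Nat.cast_le.2 (card_le_card_of_injOn Prod.fst hm ?_))
        (by positivity)
      rintro ⟨a, b, c⟩ ha ⟨a', b', c'⟩ hb e
      have e1 := (hF _ ha).2.trans (hF _ hb).2.symm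
      have e2 := (hdiv _ (hm _ ha)).2.2
      simp only [Prod.mk.injEq] at e e1 e2 ⊢
      subst e
      exact ⟨rfl, Nat.eq_of_mul_eq_mul_left (Nat.cast_pos.1 e2) e1.1, e1.2⟩
    obtain ⟨e1, e2⟩ := Prod.mk.inj (hF t ht).2
    have a0 : t.2.1 ≠ 0 := fun e => hs.1 (by rw [← e1, e, mul_zero])
    have a1 : (t.2.1 : ℝ) ≤ x := by
      refine le_trans (Nat.cast_le.2 (Nat.le_of_dvd (Nat.pos_of_ne_zero (hs.mul hd).1) ?_))
        (hZ.trans (CI_ZZ_x h))
      rw [← e1]; exact (dvd_mul_left _ _).mul_right _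
    have a2 := (nu_le (zz x) a0).trans (mul_le_mul_of_nonneg_left (h.rho _ a0 a1) (by positivity))
    rw [m2, e2]
    refine (div_le_div_of_nonneg_right (mul_le_mul_of_nonneg_right a2 hn)
      (Nat.cast_nonneg _)).trans (le_of_eq ?_)
    rw [← e1, Nat.cast_mul]
    ring
  have c3 : ((W.filter good).card : ℝ) * (Py (zz x) / (2 * s) * nu (zz x) d) ≤
      ∑ t ∈ (CIbG x).filter (fun t => (t.1 * t.2.1, t.2.2) = (s, d)), m2 x t := by
    rw [← nsmul_eq_mul]
    refine (card_nsmul_le_sum _ (fun w => m2 x (w, s / w, d)) _ fun w hw => ?_).trans ?_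
    · obtain ⟨e1, e2, e3⟩ := hdiv w (mem_filter.1 hw).1
      refine le_trans (le_of_eq ?_) (div_le_div_of_nonneg_right
        (mul_le_mul_of_nonneg_right (nu_ge (zz x) e2) hn) e3.le)
      conv_lhs => rw [← e1, Nat.cast_mul]
      ring
    · rw [← sum_image (g := fun w => (w, s / w, d)) fun a _ b _ e => congrArg Prod.fst e]
      refine sum_le_sum_of_subset_of_nonneg (fun t ht => ?_) fun _ _ _ => m2_nonneg _ _
      obtain ⟨w, hw, rfl⟩ := mem_image.1 ht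
      obtain ⟨hw1, hw2⟩ := mem_filter.1 hw
      have e1 := (hdiv w hw1).1
      have h6 : ∀ a, a ∣ s * d → a ∈ SS (zz x) (ZZ x) := fun a ha => mem_SS.2
        ⟨(hs.mul hd).of_dvd ha,
          (Nat.cast_le.2 (Nat.le_of_dvd (Nat.pos_of_ne_zero (hs.mul hd).1) ha)).trans hZ⟩
      refine mem_filter.2 ⟨mem_filter.2 ⟨CI_mem_Tri.2 ⟨(mem_filter.1 hw1).1, h6 _ ?_,
        h6 _ (dvd_mul_left _ _), ?_⟩, hw2⟩, by simp only [e1]⟩
      · exact (Nat.div_dvd_of_dvd (mem_filter.1 hw1).2).mul_right _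
      · simpa only [pr, e1] using hZ
  have c4 := mul_le_mul_of_nonneg_right c1
    (show 0 ≤ LL x ^ 4 * (Py (zz x) / (2 * s) * nu (zz x) d) by positivity)
  have c5 := mul_le_mul_of_nonneg_left c3 (show 0 ≤ 2 * LL x ^ 4 by positivity)
  exact c2.trans (c4.trans (le_of_eq_of_le (by ring) c5))

theorem CIb_om {y : ℝ} {a b : ℕ} (ha : a ≠ 0) (hb : b ≠ 0) :
    omS (PP y \ b.primeFactors) a + omS (PP y) b ≤ om (a * b) := by
  rw [omS, omS, om, ← card_union_of_disjoint]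
  · refine card_le_card (union_subset (fun q hq => ?_) fun q hq => ?_)
    · obtain ⟨h1, h2⟩ := mem_filter.1 hq
      exact Nat.mem_primeFactors.2 ⟨(mem_PP.1 (mem_sdiff.1 h1).1).1, h2.mul_right _,
        mul_ne_zero ha hb⟩
    · obtain ⟨h1, h2⟩ := mem_filter.1 hq
      exact Nat.mem_primeFactors.2 ⟨(mem_PP.1 h1).1, h2.mul_left _, mul_ne_zero ha hb⟩
  · refine disjoint_left.2 fun q h1 h2 => (mem_sdiff.1 (mem_filter.1 h1).1).2 ?_
    exact Nat.mem_primeFactors.2 ⟨(mem_PP.1 (mem_filter.1 h2).1).1, (mem_filter.1 h2).2, hb⟩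

theorem CIb_good {x : ℝ} (h : Par x) : ∑ t ∈ CIbG x, m2 x t ≤
    MM x * (3 * LL x ^ 4 * exp (-(247 / 10000 * LL x))) := by
  have hz : 2 ≤ zz x := by linarith [CI_zz8 h]
  have hsm : ∀ d ∈ SS (zz x) (ZZ x), Smooth (zz x) d := fun d hd => (mem_SS.1 hd).1
  let g : ℕ × ℕ × ℕ → ℝ := fun t => 1 / (t.1 : ℝ) * (nu (zz x) t.2.2 * (5 / 6) ^ omS (PP (zz x)) t.2.2 *
    (nu (zz x) t.2.1 * (5 / 6) ^ omS (PP (zz x) \ t.2.2.primeFactors) t.2.1))
  have hg : ∀ t, 0 ≤ g t := fun t => by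
    have := nu_nonneg (zz x) t.2.1
    have := nu_nonneg (zz x) t.2.2
    positivity
  have h1 : ∀ t ∈ CIbG x, m2 x t ≤ exp (1 + 27495 / 100000 * LL x) * g t := fun t ht => by
    obtain ⟨a1, a2⟩ := mem_filter.1 ht
    obtain ⟨-, b1, b2, -⟩ := CI_mem_Tri.1 a1
    have a3 := CIb_om (y := zz x) (hsm _ b1).1 (hsm _ b2).1
    have a4 : (om (t.2.1 * t.2.2) : ℝ) * (6931 / 10000) ≤ 1 + 103 / 100 * LL x := by
      have := log_le_log (by positivity) a2
      rw [log_pow, log_mul two_ne_zero (exp_pos _).ne', log_exp] at this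
      nlinarith [log_two_gt_d9, log_two_lt_d9, Nat.cast_nonneg (α := ℝ) (om (t.2.1 * t.2.2))]
    have a5 : exp (-(37 / 200)) ≤ (5 / 6 : ℝ) := by
      rw [exp_neg, inv_le_comm₀ (exp_pos _) (by norm_num)]
      have := Real.quadratic_le_exp_of_nonneg (show (0 : ℝ) ≤ 37 / 200 by norm_num)
      linarith
    have a6 : 1 ≤ exp (1 + 27495 / 100000 * LL x) * (5 / 6) ^ om (t.2.1 * t.2.2) := by
      refine le_trans ?_ (mul_le_mul_of_nonneg_left (pow_le_pow_left₀ (exp_pos _).le a5 _)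
        (exp_pos _).le)
      rw [← exp_nat_mul, ← exp_add, one_le_exp_iff]
      linarith [h.L100]
    have a7 := a6.trans (mul_le_mul_of_nonneg_left (pow_le_pow_of_le_one
      (show (0 : ℝ) ≤ 5 / 6 by norm_num) (by norm_num) a3) (exp_pos _).le)
    refine (le_mul_of_one_le_left (m2_nonneg x t) a7).trans (le_of_eq ?_)
    simp only [m2, g, pow_add]
    ring
  have h2 : ∑ t ∈ Wz x ×ˢ SS (zz x) (ZZ x) ×ˢ SS (zz x) (ZZ x), g t ≤
      MM x * (LL x ^ 4 * exp (-(1 / 3 * rs (PP (zz x))))) := by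
    rw [sum_product]
    simp only [g, ← mul_sum]
    rw [← sum_mul, sum_product_right]
    simp only [← mul_sum]
    refine mul_le_mul (CI_Wz h) ?_ (sum_nonneg fun d _ => mul_nonneg (mul_nonneg (nu_nonneg _ _)
      (by positivity)) (sum_nonneg fun _ _ => mul_nonneg (nu_nonneg _ _) (by positivity)))
      (sum_nonneg fun _ _ => by positivity)
    have a1 := nu_low hz _ Subset.rfl (l := 5 / 6) (by norm_num) (by norm_num) _ hsm
    refine (sum_le_sum (g := fun d => nu (zz x) d * (5 / 6) ^ omS (PP (zz x)) d *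
      (LL x ^ 4 * exp (-(1 / 6 * rs (PP (zz x)))))) fun d hd => mul_le_mul_of_nonneg_left ?_
        (mul_nonneg (nu_nonneg _ _) (by positivity))).trans ?_
    · refine (nu_low hz _ sdiff_subset (l := 5 / 6) (by norm_num) (by norm_num) _ hsm).trans
        (le_trans ?_ (mul_le_mul_of_nonneg_right (h.rho d (hsm d hd).1
          ((mem_SS.1 hd).2.trans (CI_ZZ_x h))) (exp_pos _).le))
      rw [← exp_add, exp_le_exp]
      have b1 : rs (PP (zz x)) ≤ rs (PP (zz x) \ d.primeFactors) + rs d.primeFactors := by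
        rw [rs, rs, rs, ← sum_union sdiff_disjoint, sdiff_union_self_eq_union]
        exact sum_le_sum_of_subset_of_nonneg subset_union_left fun _ _ _ => by positivity
      have b2 : 0 ≤ rs d.primeFactors := sum_nonneg fun _ _ => by positivity
      linarith
    · rw [← sum_mul]
      refine (mul_le_mul_of_nonneg_right a1 (by positivity)).trans (le_of_eq ?_)
      rw [mul_left_comm, ← exp_add]
      congr 2; ring
  refine (sum_le_sum h1).trans ?_
  rw [← mul_sum]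
  refine (mul_le_mul_of_nonneg_left ((sum_le_sum_of_subset_of_nonneg ((filter_subset _ _).trans
    (filter_subset _ _)) fun t _ _ => hg t).trans h2) (exp_pos _).le).trans ?_
  rw [mul_left_comm]
  refine mul_le_mul_of_nonneg_left ?_ (sum_nonneg fun _ _ => by positivity)
  rw [mul_left_comm, mul_comm 3, mul_assoc, ← exp_add]
  refine mul_le_mul_of_nonneg_left (le_trans ?_ (mul_le_mul_of_nonneg_right
    (show exp 1 ≤ 3 by linarith [exp_one_lt_d9]) (exp_pos _).le)) (by positivity)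
  rw [← exp_add, exp_le_exp]
  linarith [h.rs_zz.1, h.L100]

theorem CIb_half {x : ℝ} (h : Par x) (E : Finset (ℕ × ℕ × ℕ))
    (hE : ∀ t ∈ E, t ∈ Tri x ∧ (D2 x (pr t) : ℝ) ≤ exp (47 / 25 * LL x) ∧
      exp (17 / 20 * LL x) < DD (Wz x) (t.1 * t.2.1)) :
    ∑ t ∈ E, m2 x t ≤ 2 * LL x ^ 4 * ∑ t ∈ CIbG x, m2 x t := by
  rw [← sum_fiberwise_of_maps_to (g := fun t => (t.1 * t.2.1, t.2.2))
    fun _ ht => mem_image_of_mem _ ht]
  refine le_trans ?_ (mul_le_mul_of_nonneg_left (sum_fiberwise_le_sum_of_sum_fiber_nonneg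
    (t := E.image fun t => (t.1 * t.2.1, t.2.2)) (g := fun t => (t.1 * t.2.1, t.2.2))
    fun _ _ => sum_nonneg fun _ _ => m2_nonneg _ _) (by positivity))
  rw [mul_sum]
  refine sum_le_sum fun k hk => ?_
  obtain ⟨t, ht, rfl⟩ := mem_image.1 hk
  obtain ⟨h1, h2, h3⟩ := hE t ht
  obtain ⟨b0, b1, b2, b3⟩ := CI_mem_Tri.1 h1
  exact CIb_fibre h ((mem_Wz.1 b0).1.1.mul (mem_SS.1 b1).1) (mem_SS.1 b2).1 b3 h2 h3 _
    fun t' ht' => ⟨(CI_mem_Tri.1 (hE t' (mem_filter.1 ht').1).1).1, (mem_filter.1 ht').2⟩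

theorem bad_tri : ∀ᶠ x in atTop, ∀ E : Finset (ℕ × ℕ × ℕ),
    (∀ t ∈ E, t ∈ Tri x ∧ (D2 x (pr t) : ℝ) ≤ exp (47 / 25 * LL x) ∧ t ∉ EE x) →
    ∑ t ∈ E, m2 x t ≤ exp (-(LL x / 100)) := by
  filter_upwards [ev_par, MM_le, CI_ev 12 8 (κ := 147 / 10000) (by norm_num)] with x h hM hn E hE
  let P : ℕ × ℕ × ℕ → Prop := fun t => exp (17 / 20 * LL x) < DD (Wz x) (t.1 * t.2.1)
  let σ : ℕ × ℕ × ℕ → ℕ × ℕ × ℕ := fun t => (t.1, t.2.2, t.2.1)
  have hpr : ∀ t, pr (σ t) = pr t := fun t => mul_right_comm _ _ _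
  have h1 := CIb_half h (E.filter P) fun t ht =>
    ⟨(hE t (mem_filter.1 ht).1).1, (hE t (mem_filter.1 ht).1).2.1, (mem_filter.1 ht).2⟩
  have h2 := CIb_half h ((E.filter fun t => ¬ P t).image σ) fun t' ht' => by
    obtain ⟨t, ht, rfl⟩ := mem_image.1 ht'
    obtain ⟨a1, a2, a3⟩ := hE t (mem_filter.1 ht).1
    obtain ⟨b0, b1, b2, b3⟩ := CI_mem_Tri.1 a1
    refine ⟨CI_mem_Tri.2 ⟨b0, b2, b1, by rwa [hpr]⟩, by rwa [hpr], not_le.1 fun a4 => a3 ?_⟩
    exact mem_filter.2 ⟨a1, a2, not_lt.1 (mem_filter.1 ht).2, a4⟩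
  rw [sum_image fun a _ b _ e => by
    simp only [σ, Prod.mk.injEq] at e
    exact Prod.ext e.1 (Prod.ext e.2.2 e.2.1),
    sum_congr rfl (g := m2 x) fun t _ => by simp only [m2, σ, mul_comm]] at h2
  have h3 := mul_le_mul_of_nonneg_left ((CIb_good h).trans
    (mul_le_mul_of_nonneg_right hM (by positivity))) (show 0 ≤ 2 * LL x ^ 4 by positivity)
  have h4 := mul_le_mul_of_nonneg_right hn (exp_pos (-(247 / 10000 * LL x))).le
  rw [← exp_add, show 147 / 10000 * LL x + -(247 / 10000 * LL x) = -(LL x / 100) by ring] at h4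
  rw [← sum_filter_add_sum_filter_not E P]
  refine (add_le_add (h1.trans h3) (h2.trans h3)).trans (le_of_eq_of_le (by ring) h4)

end Vale.Agent.P031
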