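import Vale.Agent.P031.Par
import Vale.Agent.P031.TVb
import Vale.Agent.P031.CI0

namespace Vale.Agent.P031

open Finset Real Filter

/-- the admissible first smooth parts -/
noncomputable def CIcS (x : ℝ) (E : Finset (ℕ × ℕ × ℕ)) (w d : ℕ) : Finset ℕ :=
  (SS (zz x) (ZZ x)).filter fun a => (w, a, d) ∈ E

/-- their mass -/
noncomputable def CIcF (x : ℝ) (E : Finset (ℕ × ℕ × ℕ)) (w d : ℕ) : ℝ :=
  ∑ a ∈ CIcS x E w d, nu (zz x) a

theorem CIcF_mem {x : ℝ} (h : Par x) (E : Finset (ℕ × ℕ × ℕ)) (w d : ℕ) :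
    0 ≤ CIcF x E w d ∧ CIcF x E w d ≤ 1 :=
  ⟨sum_nonneg fun _ _ => nu_nonneg _ _, sum_nu_le_one (by linarith [CI_zz8 h]) _
    fun _ ha => (mem_SS.1 (mem_filter.1 ha).1).1⟩

theorem CIc_total {x : ℝ} {E : Finset (ℕ × ℕ × ℕ)} (hE : E ⊆ Tri x) :
    ∑ w ∈ Wz x, 1 / (w : ℝ) * ∑ d ∈ SS (zz x) (ZZ x), nu (zz x) d * CIcF x E w d =
      ∑ t ∈ E, m2 x t := by
  have e : E = (Wz x ×ˢ SS (zz x) (ZZ x) ×ˢ SS (zz x) (ZZ x)).filter (· ∈ E) := by
    rw [filter_mem_eq_inter, inter_eq_right.2 (hE.trans (filter_subset _ _))]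
  conv_rhs => rw [e, sum_filter, sum_product]
  refine sum_congr rfl fun w _ => ?_
  rw [sum_product_right, mul_sum]
  refine sum_congr rfl fun d _ => ?_
  rw [CIcF, CIcS, sum_filter, mul_sum, mul_sum]
  refine sum_congr rfl fun a _ => ?_
  split_ifs
  · simp only [m2]; ring
  · simp

theorem CIc_fibre {c X0 x : ℝ} (hc : 1 ≤ c) (h : Par x) (hcx : c * x + 1 ≤ x ^ 2)
    (hX0 : X0 ≤ ll x) (E : Finset (ℕ × ℕ × ℕ)) (hE : E ⊆ Tri x)
    (htv : ∀ X ≥ X0, ∀ y : ℝ, 8 ≤ y → log y ≤ log X / log (log X) ^ 3 → ∀ S : Finset ℕ,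
      (∀ d ∈ S, Smooth y d) → ∀ f : ℕ → ℝ, (∀ d, 0 ≤ f d ∧ f d ≤ 1) →
      |∑ p ∈ (PP X).filter (fun p => dd y p ∈ S), f (dd y p) -
        X / log X * ∑ d ∈ S, nu y d * f d| ≤
        1 * (X / log X * ∑ d ∈ S, nu y d * f d) + X / log X ^ 3)
    (p w : ℕ) (F : Finset (ℕ × ℕ × ℕ))
    (hF : ∀ t ∈ F, (t.1.Prime ∧ t.2.1.Prime ∧ yy x < t.2.1 ∧ t.2.1 < t.1 ∧ x / ll x ^ 2 < val t ∧
      (val t : ℝ) ≤ c * x ∧ dat x t ∈ E) ∧ t.2 = (p, w)) :
    (F.card : ℝ) ≤ 24 * c * (x / ll x) * (1 / w * (CIcF x E w (dd (zz x) p) / p)) +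
      108 * c * (x / ll x ^ 3) * (1 / p * (1 / w)) := by
  have hx : 0 < x := by linarith [h.x16]
  have hl := CI_ll_ge h
  have hf := CIcF_mem h E w (dd (zz x) p)
  rcases F.eq_empty_or_nonempty with rfl | ⟨⟨p0, p', w'⟩, ht⟩
  · have := hf.1
    rw [card_empty, Nat.cast_zero]
    positivity
  obtain ⟨⟨a1, a2, a3, a4, a5, a6, a7⟩, e⟩ := hF _ ht
  obtain ⟨rfl, rfl⟩ := Prod.mk.inj e
  simp only [val, dat] at a1 a2 a3 a4 a5 a6 a7
  have hw := mem_Wz.1 (CI_mem_Tri.1 (hE a7)).1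
  have hw0 : (0 : ℝ) < w' := Nat.cast_pos.2 (Nat.pos_of_ne_zero hw.1.1.1)
  have hp2 : (2 : ℝ) ≤ p' := by exact_mod_cast a2.two_le
  have hp0 : (p' : ℝ) + 1 ≤ p0 := by exact_mod_cast a4
  have hD : 0 < ((p' : ℝ) - 1) * w' := mul_pos (by linarith) hw0
  set X := c * x / ((p' - 1) * w') + 1 with hX
  have hle : ∀ q : ℕ, q.Prime → (((q - 1) * (p' - 1) * w' : ℕ) : ℝ) ≤ c * x → (q : ℝ) ≤ X := by
    intro q hq hv
    rw [Nat.cast_mul, Nat.cast_mul, Nat.cast_pred hq.pos, Nat.cast_pred a2.pos, mul_assoc,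
      ← le_div_iff₀ hD] at hv
    linarith
  have b1 := hle p0 a1 a6
  have b2 : X ≤ 4 * c * x * (1 / p' * (1 / w')) := by
    have c1 : c * x / ((p' - 1) * w') ≤ c * x / (p' / 2 * w') :=
      div_le_div_of_nonneg_left (by positivity) (by positivity)
        (mul_le_mul_of_nonneg_right (by linarith) hw0.le)
    have c2 : c * x / (p' / 2 * w') = 2 * c * x * (1 / p' * (1 / w')) := by field_simp
    linarith
  have b3 : ll x / 3 ≤ log X := by
    rw [Nat.cast_mul, Nat.cast_mul, Nat.cast_pred a1.pos, Nat.cast_pred a2.pos,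
      div_lt_iff₀ (by positivity)] at a5
    have hY : 0 < YY x := exp_pos _
    have c0 : ll x ^ 2 ≤ YY x := h.ll_z1.trans (h.z1_zz.trans (h.zz_ZZ.trans (CI_ZZ_YY h)))
    have c1 : ((p0 : ℝ) - 1) * (p' - 1) * w' * ll x ^ 2 ≤ X * X * YY x * YY x := by
      have := hw.1.2.trans (CI_ZZ_YY h)
      gcongr <;> linarith
    have c2 := log_le_log hx (a5.le.trans c1)
    have c3 := log_le_log (by positivity) (CI_YY_pow h (k := 20) le_rfl)
    have hX0 : 0 < X := by linarith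
    rw [log_mul (by positivity) hY.ne', log_mul (by positivity) hY.ne', log_mul hX0.ne' hX0.ne']
      at c2
    rw [log_pow] at c3
    have e : log x = ll x := rfl
    push_cast at c3
    linarith
  have b4 : log X ≤ 2 * ll x := by
    have c1 : c * x / ((p' - 1) * w') ≤ c * x := div_le_self (by positivity)
      (one_le_mul_of_one_le_of_one_le (by linarith) (Nat.one_le_cast.2 (Nat.cast_pos.1 hw0)))
    have c2 := log_le_log (show 0 < X by linarith) (show X ≤ x ^ 2 by linarith)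
    rw [log_pow] at c2
    exact c2
  have b5 : X0 ≤ X := by
    have c1 : yy x ≤ X := by linarith
    have c2 := h.ll_z1.trans (h.z1_zz.trans ((CI_zz_y8 h).trans (h.y8_yy.trans c1)))
    nlinarith
  have b6 := htv X b5 (zz x) (CI_zz8 h) ((log_le_log (by linarith [CI_zz8 h])
    ((CI_zz_y8 h).trans h.y8_yy)).trans ((CI_log_yy x).trans_le (CI_level h b3 b4)))
    (CIcS x E w' (dd (zz x) p')) (fun _ ha => (mem_SS.1 (mem_filter.1 ha).1).1) (fun _ => 1)
    fun _ => ⟨zero_le_one, le_rfl⟩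
  simp only [mul_one, one_mul, sum_const, nsmul_eq_mul] at b6
  have b7 : F.card ≤ ((PP X).filter fun p => dd (zz x) p ∈ CIcS x E w' (dd (zz x) p')).card := by
    refine card_le_card_of_injOn Prod.fst (fun t ht => ?_) fun t ht t' ht' e =>
      Prod.ext e ((hF t ht).2.trans (hF t' ht').2.symm)
    obtain ⟨q, q', w''⟩ := t
    obtain ⟨⟨d1, -, -, -, -, d6, d7⟩, e⟩ := hF _ ht
    obtain ⟨rfl, rfl⟩ := Prod.mk.inj e
    exact mem_coe.2 (mem_filter.2 ⟨mem_PP.2 ⟨d1, hle q d1 d6⟩,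
      mem_filter.2 ⟨(CI_mem_Tri.1 (hE d7)).2.1, d7⟩⟩)
  have b8 := (abs_le.1 b6).2
  have b9 : X / log X ≤ 4 * c * x * (1 / p' * (1 / w')) / (ll x / 3) :=
    div_le_div₀ (by positivity) b2 (by positivity) b3
  have b10 : X / log X ^ 3 ≤ 4 * c * x * (1 / p' * (1 / w')) / (ll x / 3) ^ 3 :=
    div_le_div₀ (by positivity) b2 (by positivity) (pow_le_pow_left₀ (by positivity) b3 3)
  have b11 := mul_le_mul_of_nonneg_right b9 hf.1
  have b12 : (F.card : ℝ) ≤ _ := Nat.cast_le.2 b7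
  have e1 : 24 * c * (x / ll x) * (1 / w' * (CIcF x E w' (dd (zz x) p') / p')) =
      2 * (4 * c * x * (1 / p' * (1 / w')) / (ll x / 3) * CIcF x E w' (dd (zz x) p')) := by ring
  have e2 : 108 * c * (x / ll x ^ 3) * (1 / p' * (1 / w')) =
      4 * c * x * (1 / p' * (1 / w')) / (ll x / 3) ^ 3 := by ring
  rw [e1, e2]
  simp only [CIcF] at b11 ⊢
  linarith

theorem tri_upper {c ε : ℝ} (hc : 1 ≤ c) (hε : 0 < ε) : ∃ C : ℝ, 0 ≤ C ∧ ∀ᶠ x in atTop,
    ∀ E : Finset (ℕ × ℕ × ℕ), E ⊆ Tri x → ∀ P : Finset (ℕ × ℕ × ℕ),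
    (∀ t ∈ P, t.1.Prime ∧ t.2.1.Prime ∧ yy x < t.2.1 ∧ t.2.1 < t.1 ∧ x / ll x ^ 2 < val t ∧
      (val t : ℝ) ≤ c * x ∧ dat x t ∈ E) →
    (P.card : ℝ) ≤ C * (x / ll x) * log (LL x) * ∑ t ∈ E, m2 x t + ε * (x / ll x) := by
  obtain ⟨X0, hX0⟩ := eventually_atTop.1 (tv one_pos 3)
  obtain ⟨A0, hA0⟩ := eventually_atTop.1 (tv_rec 1)
  obtain ⟨C, hC⟩ := sum_inv_smooth
  refine ⟨480 * c, by positivity, ?_⟩
  filter_upwards [ev_par, ev_ll X0, ev_ll A0, eventually_ge_atTop (c + 1),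
    CI_ev ((24 * c * |C| + 216 * c * |C| ^ 2) / ε) 4 (κ := 1 / 10) (by norm_num)]
    with x h h1 h2 h3 hn E hE P hP
  have hx : 0 < x := by linarith [h.x16]
  have hl := CI_ll_ge h
  have hL := h.L100
  have hz := CI_zz8 h
  have hy : zz x ≤ yy x := (CI_zz_y8 h).trans h.y8_yy
  have hcx : c * x + 1 ≤ x ^ 2 := by nlinarith
  have hyx : yy x ≤ c * x + 1 := by
    have := h.yy_YY.trans ((pow_one _).symm.le.trans (CI_YY_pow h (k := 1) (by norm_num)))
    nlinarith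
  have hlZ : log (c * x + 1) ≤ 2 * ll x := by
    have := log_le_log (by positivity) hcx
    rwa [log_pow] at this
  have hlogL : 2 ≤ log (LL x) := by
    rw [le_log_iff_exp_le (by linarith), show (2 : ℝ) = 1 + 1 by norm_num, exp_add]
    nlinarith [exp_one_lt_d9, exp_pos 1]
  have hyy : log (log (yy x)) = LL x - 4 * log (LL x) := by
    rw [CI_log_yy, log_div (by linarith) (by positivity), log_pow]; rfl
  set Q := (PP (c * x + 1)).filter fun p : ℕ => yy x < p ∧ dd (zz x) p ∈ SS (zz x) (ZZ x) with hQ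
  have hW : ∑ w ∈ Wz x, (1 : ℝ) / w ≤ |C| * exp (9 / 10 * LL x) := by
    rw [← CI_log_zz]
    exact (hC (zz x) (by linarith) _ fun w hw => (mem_Wz.1 hw).1.1).trans
      (mul_le_mul_of_nonneg_right (le_abs_self C) (log_nonneg (by linarith)))
  have hQ1 : ∑ p ∈ Q, (1 : ℝ) / p ≤ |C| * (2 * ll x) := by
    refine (hC (c * x + 1) (by linarith) _ fun p hp => ?_).trans
      (mul_le_mul (le_abs_self C) hlZ (log_nonneg (by linarith)) (abs_nonneg C))
    obtain ⟨a1, a2⟩ := mem_PP.1 (mem_filter.1 hp).1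
    exact ⟨a1.ne_zero, fun q hq hd => by rwa [(Nat.prime_dvd_prime_iff_eq hq a1).1 hd]⟩
  have hQ2 : ∀ w, ∑ p ∈ Q, CIcF x E w (dd (zz x) p) / p ≤ 20 * log (LL x) *
      ∑ d ∈ SS (zz x) (ZZ x), nu (zz x) d * CIcF x E w d + LL x ^ 4 / ll x := fun w => by
    have a0 : 1 < log (yy x) := by
      rw [lt_log_iff_exp_lt (by linarith)]; linarith [exp_one_lt_d9]
    have a1 : log (zz x) ≤ log (yy x) / log (log (yy x)) ^ 3 := by
      refine (log_le_log (by linarith) (CI_zz_y8 h)).trans ?_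
      rw [CI_log_y8, le_div_iff₀ (pow_pos (log_pos a0) 3), hyy, CI_log_yy, div_mul_eq_mul_div,
        div_le_div_iff₀ (by positivity) (by positivity), mul_assoc]
      refine mul_le_mul_of_nonneg_left ?_ (by linarith)
      rw [show LL x ^ 8 = LL x ^ 4 * LL x ^ 4 by ring]
      refine mul_le_mul_of_nonneg_right ((pow_le_pow_left₀ (hyy ▸ (log_pos a0).le)
        (show _ ≤ LL x by linarith) 3).trans (pow_le_pow_right₀ (by linarith) (by norm_num)))
        (by positivity)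
    have a2 := (hA0 (yy x) (by nlinarith [h.ll_z1.trans (h.z1_zz.trans hy)]) (c * x + 1) (zz x) hyx
      hz a1 (SS (zz x) (ZZ x)) (fun d hd => (mem_SS.1 hd).1) (CIcF x E w) (CIcF_mem h E w)).2
    have a3 : log (log (c * x + 1)) ≤ LL x + 1 := by
      have := log_le_log (log_pos (by linarith)) hlZ
      rw [log_mul two_ne_zero (by linarith)] at this
      have e : log (ll x) = LL x := rfl
      linarith [log_two_lt_d9]
    rw [pow_one, hyy, CI_log_yy, one_div_div] at a2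
    refine a2.trans (add_le_add (mul_le_mul_of_nonneg_right (by linarith)
      (sum_nonneg fun d _ => mul_nonneg (nu_nonneg _ _) (CIcF_mem h E w d).1)) le_rfl)
  have hm : ∀ t ∈ P, t.2 ∈ Q ×ˢ Wz x := fun t ht => by
    obtain ⟨a1, a2, a3, a4, -, a6, a7⟩ := hP t ht
    obtain ⟨b1, -, b2, -⟩ := CI_mem_Tri.1 (hE a7)
    refine mem_product.2 ⟨mem_filter.2 ⟨mem_PP.2 ⟨a2, ?_⟩, a3, b2⟩, b1⟩
    have b3 : t.2.1 - 1 ≤ val t := by
      have := a1.two_le
      exact (Nat.le_mul_of_pos_left _ (by omega)).trans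
        (Nat.le_mul_of_pos_right _ (Nat.pos_of_ne_zero (mem_Wz.1 b1).1.1.1))
    have b4 := (Nat.cast_le (α := ℝ)).2 b3
    rw [Nat.cast_pred a2.pos] at b4
    linarith
  rw [card_eq_sum_card_fiberwise (f := Prod.snd) (t := Q ×ˢ Wz x) hm, Nat.cast_sum]
  refine (sum_le_sum fun k _ => CIc_fibre hc h hcx h1 E hE hX0 k.1 k.2 _
    fun t ht => ⟨hP t (mem_filter.1 ht).1, (mem_filter.1 ht).2⟩).trans ?_
  rw [sum_add_distrib, ← mul_sum, ← mul_sum, sum_product_right, sum_product]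
  simp only [← mul_sum, ← sum_mul]
  have s1 : ∑ w ∈ Wz x, 1 / (w : ℝ) * ∑ p ∈ Q, CIcF x E w (dd (zz x) p) / p ≤
      20 * log (LL x) * ∑ t ∈ E, m2 x t + |C| * exp (9 / 10 * LL x) * (LL x ^ 4 / ll x) := by
    refine (sum_le_sum fun w _ => mul_le_mul_of_nonneg_left (hQ2 w) (by positivity)).trans ?_
    simp only [mul_add, sum_add_distrib, mul_left_comm _ (20 * log (LL x))]
    rw [← mul_sum, CIc_total hE, ← sum_mul]
    exact add_le_add le_rfl (mul_le_mul_of_nonneg_right hW (by positivity))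
  have s2 := mul_le_mul hQ1 hW (sum_nonneg fun _ _ => by positivity) (by positivity)
  refine (add_le_add (mul_le_mul_of_nonneg_left s1 (by positivity))
    (mul_le_mul_of_nonneg_left s2 (by positivity))).trans ?_
  have s3 : (24 * c * |C| + 216 * c * |C| ^ 2) * LL x ^ 4 ≤ ε * exp (1 / 10 * LL x) := by
    rw [← div_le_iff₀' hε, mul_div_right_comm]
    exact (le_mul_of_one_le_right (by positivity) (one_le_exp (by positivity))).trans hn
  have s4 : exp (1 / 10 * LL x) * exp (9 / 10 * LL x) = ll x := by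
    rw [← exp_add, h.ll_eq]; congr 1; ring
  have s5 : 216 * c * |C| ^ 2 ≤ 216 * c * |C| ^ 2 * LL x ^ 4 :=
    le_mul_of_one_le_right (by positivity) (one_le_pow₀ (by linarith))
  have s6 := mul_le_mul_of_nonneg_right (show 24 * c * |C| * LL x ^ 4 + 216 * c * |C| ^ 2 ≤
    ε * exp (1 / 10 * LL x) by linarith)
    (show 0 ≤ exp (9 / 10 * LL x) * (x / ll x ^ 2) by positivity)
  rw [mul_assoc ε, ← mul_assoc (exp _), s4] at s6
  have e1 : ε * (ll x * (x / ll x ^ 2)) = ε * (x / ll x) := by field_simp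
  rw [e1] at s6
  refine le_of_eq_of_le ?_ (add_le_add (le_refl
    (480 * c * (x / ll x) * log (LL x) * ∑ t ∈ E, m2 x t)) s6)
  field_simp
  ring

end Vale.Agent.P031
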