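import Vale.Agent.P031.CIa
import Vale.Agent.P031.CIb
import Vale.Agent.P031.CIc

namespace Vale.Agent.P031

open Finset Real Filter

theorem CId_sm {x : ℝ} (h : Par x) {p q w : ℕ} (hp : p.Prime) (hq : q.Prime) (h1 : yy x < q)
    (h2 : q < p) (hw : w ∈ Wz x) : sm (zz x) (val (p, q, w)) = 4 * pr (dat x (p, q, w)) := by
  have hz := CI_zz8 h
  have hq8 : 8 < q := by exact_mod_cast (hz.trans ((CI_zz_y8 h).trans h.y8_yy)).trans_lt h1
  have hw' := (mem_Wz.1 hw).1.1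
  simp only [val, dat, pr]
  rw [sm_mul _ (mul_ne_zero (by omega) (by omega)) hw'.1, sm_mul _ (by omega) (by omega),
    sm_of_smooth hw', ← two_mul_dd (by linarith) hp (by omega),
    ← two_mul_dd (by linarith) hq (by omega)]
  ring

theorem cl1_card {c ε : ℝ} (hc : 1 ≤ c) (hε : 0 < ε) : ∃ C : ℝ, 0 ≤ C ∧ ∀ᶠ x in atTop,
    ∀ T : Finset ℕ, (∀ v ∈ T, (v : ℝ) ≤ c * x ∧ Cl1 x v) →
    (T.card : ℝ) ≤ C * (x / ll x) * log (LL x) * G2 x + ε * (x / ll x) := by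
  have hε' : 0 < ε / 3 := by positivity
  obtain ⟨C, hC0, hC⟩ := tri_upper hc hε'
  refine ⟨C, hC0, ?_⟩
  filter_upwards [ev_par, hC, cl1_sat hc hε', bad_tri,
    CI_ev (C / (ε / 3)) 1 (κ := 1 / 100) (by norm_num)] with x h h1 h2 h3 hn T hT
  have hx : 0 < x := by linarith [h.x16]
  have hl := CI_ll_pos h
  have hL := h.L100
  have hz := CI_zz8 h
  have ht : ∀ v ∈ T, ∃ t : ℕ × ℕ × ℕ, t.1.Prime ∧ t.2.1.Prime ∧ yy x < t.2.1 ∧ t.2.1 < t.1 ∧
      val t = v ∧ sm (zz x) v = 4 * pr (dat x t) ∧ dat x t ∈ Tri x := fun v hv => by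
    obtain ⟨-, -, a3, -, p, q, w, hp, hq, b1, b2, hw, e⟩ := (hT v hv).2
    have e1 := CId_sm h hp hq b1 b2 hw
    have e2 : val (p, q, w) = v := e.symm
    rw [e2] at e1
    have hq8 : 8 < q := by exact_mod_cast (hz.trans ((CI_zz_y8 h).trans h.y8_yy)).trans_lt b1
    have h0 : pr (dat x (p, q, w)) ≠ 0 := fun e => sm_ne_zero (zz x) v (by rw [e1, e])
    have hZ : (pr (dat x (p, q, w)) : ℝ) ≤ ZZ x := le_trans (Nat.cast_le.2 (by omega)) a3
    have hd : ∀ a, a ∣ pr (dat x (p, q, w)) → (a : ℝ) ≤ ZZ x := fun a ha =>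
      (Nat.cast_le.2 (Nat.le_of_dvd (Nat.pos_of_ne_zero h0) ha)).trans hZ
    have hp2 : p ≠ 2 := by omega
    have hq2 : q ≠ 2 := by omega
    refine ⟨(p, q, w), hp, hq, b1, b2, e2, e1, CI_mem_Tri.2 ⟨hw, mem_SS.2 ⟨dd_smooth (by linarith)
      hp hp2, hd _ ((dvd_mul_left _ _).mul_right _)⟩, mem_SS.2 ⟨dd_smooth (by linarith)
      hq hq2, hd _ (dvd_mul_left _ _)⟩, hZ⟩⟩
  choose! t ht using ht
  let B : ℕ → Prop := fun v => exp (47 / 25 * LL x) < D2 x (pr (dat x (t v)))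
  set E := (Tri x).filter fun s => (D2 x (pr s) : ℝ) ≤ exp (47 / 25 * LL x) with hE
  have c1 := h2 (T.filter B) fun v hv => by
    obtain ⟨a1, a2⟩ := mem_filter.1 hv
    obtain ⟨b1, b2, b3, -, b4, -⟩ := hT v a1
    exact ⟨Nat.cast_ne_zero.1 ((div_pos hx (pow_pos hl 2)).trans b2).ne', b1, b3, b4, _,
      (ht v a1).2.2.2.2.2.1, a2⟩
  have c2 := h1 E (filter_subset _ _) ((T.filter fun v => ¬ B v).image t) fun s hs => by
    obtain ⟨v, hv, rfl⟩ := mem_image.1 hs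
    obtain ⟨a1, a2⟩ := mem_filter.1 hv
    obtain ⟨b1, b2, b3, b4, b5, -, b6⟩ := ht v a1
    exact ⟨b1, b2, b3, b4, by rw [b5]; exact (hT v a1).2.1, by rw [b5]; exact (hT v a1).1,
      mem_filter.2 ⟨b6, not_lt.1 a2⟩⟩
  rw [card_image_of_injOn fun a ha b hb e => by
    rw [← (ht a (mem_filter.1 ha).1).2.2.2.2.1, e, (ht b (mem_filter.1 hb).1).2.2.2.2.1]] at c2
  have c3 : ∑ s ∈ E, m2 x s ≤ G2 x + exp (-(LL x / 100)) := by
    rw [← sum_filter_add_sum_filter_not E (· ∈ EE x)]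
    refine add_le_add (sum_le_sum_of_subset_of_nonneg (fun s hs => (mem_filter.1 hs).2)
      fun _ _ _ => m2_nonneg _ _) (h3 _ fun s hs => ?_)
    obtain ⟨a1, a2⟩ := mem_filter.1 hs
    exact ⟨(mem_filter.1 a1).1, (mem_filter.1 a1).2, a2⟩
  have c4 : ((T.filter B).card : ℝ) + (T.filter fun v => ¬ B v).card = T.card := by
    exact_mod_cast card_filter_add_card_filter_not (s := T) B
  have hlog : 0 ≤ log (LL x) := log_nonneg (by linarith)
  have c5 : C * log (LL x) * exp (-(LL x / 100)) ≤ ε / 3 := by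
    have a1 : C / (ε / 3) * LL x ^ 1 ≤ exp (1 / 100 * LL x) :=
      (le_mul_of_one_le_right (by positivity) (one_le_exp (by positivity))).trans hn
    rw [pow_one, div_mul_eq_mul_div, div_le_iff₀' hε'] at a1
    rw [exp_neg, ← div_eq_mul_inv, div_le_iff₀ (exp_pos _),
      show LL x / 100 = 1 / 100 * LL x by ring]
    exact (mul_le_mul_of_nonneg_left (log_le_self (by linarith)) hC0).trans a1
  have c6 := mul_le_mul_of_nonneg_left c3 (show 0 ≤ C * (x / ll x) * log (LL x) by positivity)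
  have c7 := mul_le_mul_of_nonneg_right c5 (show 0 ≤ x / ll x by positivity)
  nlinarith

end Vale.Agent.P031
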