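import Vale.Agent.P031.Par
import Vale.Agent.P031.Sv

namespace Vale.Agent.P031

open Finset Real Filter

theorem coa_rough_mul {y : ℝ} {a b : ℕ} (ha : Rough y a) (hb : Rough y b) : Rough y (a * b) :=
  fun q hq hd => ((Nat.Prime.dvd_mul hq).1 hd).elim (ha q hq) (hb q hq)

theorem coa_uniq {y : ℝ} {a a' b b' : ℕ} (ha : Smooth y a) (ha' : Smooth y a') (hb : Rough y b)
    (hb' : Rough y b') (h0 : b ≠ 0) (h0' : b' ≠ 0) (h : a * b = a' * b') : a = a' ∧ b = b' := by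
  have e : a = a' := by rw [← sm_smooth_mul_rough ha hb h0, h, sm_smooth_mul_rough ha' hb' h0']
  subst e
  exact ⟨rfl, Nat.eq_of_mul_eq_mul_left (Nat.pos_of_ne_zero ha.1) h⟩

theorem coa_ee {x : ℝ} {e : ℕ × ℕ × ℕ} (he : e ∈ EE x) : e.1 ∈ Wz x ∧ Smooth (zz x) e.1 ∧
    Smooth (zz x) e.2.1 ∧ Smooth (zz x) e.2.2 ∧ (pr e : ℝ) ≤ ZZ x := by
  obtain ⟨h1, h2⟩ := mem_filter.1 (mem_filter.1 he).1
  obtain ⟨h3, h4⟩ := mem_product.1 h1
  obtain ⟨h5, h6⟩ := mem_product.1 h4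
  exact ⟨h3, (mem_Wz.1 h3).1.1, (mem_SS.1 h5).1, (mem_SS.1 h6).1, h2⟩

theorem coa_split {y : ℝ} (hy : 2 ≤ y) {p : ℕ} (hp : p.Prime) (h2 : p ≠ 2) :
    ∃ r, p = 2 * dd y p * r + 1 ∧ Rough y r ∧ r ≠ 0 := by
  have h1 := hp.two_le
  have h0 : p - 1 ≠ 0 := by omega
  have h3 := Nat.mul_div_cancel' (sm_dvd y h0)
  refine ⟨(p - 1) / sm y (p - 1), ?_, rough_div_sm y h0, fun e => h0 (by rw [← h3, e, mul_zero])⟩
  rw [two_mul_dd hy hp h2, h3]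
  omega

theorem Par.coa_sqrt {x : ℝ} (hx : Par x) : YY x ^ 2 ≤ √x ∧ YY x ≤ √x ∧ √x ≤ x := by
  have h1 : 8 ≤ YY x := by
    linarith [hx.z1_ge, hx.z1_zz, hx.zz_ZZ, hx.ZZ_z2, hx.z2_z3, hx.z3_y8, hx.y8_yy, hx.yy_YY]
  have h2 : YY x ^ 2 ≤ √x := le_sqrt_of_sq_le (by
    rw [← pow_mul]
    exact ((pow_le_pow_right₀ (by linarith) (by norm_num)).trans
      (pow_le_pow_left₀ (by linarith) (by linarith) 20)).trans hx.YY_x)
  refine ⟨h2, by nlinarith, ?_⟩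
  rw [sqrt_le_left (by linarith [hx.x16])]
  nlinarith [hx.x16]

theorem coa_tr {x : ℝ} (hx : Par x) {t : ℕ × ℕ × ℕ} (ht : t ∈ Tr2 x) :
    ∃ r f : ℕ, t.1 = 2 * dd (zz x) t.1 * r + 1 ∧ t.2.1 = 2 * dd (zz x) t.2.1 * f + 1 ∧
      Rough (zz x) r ∧ Rough (zz x) f ∧ r ≠ 0 ∧ f ≠ 0 ∧ zz x < f ∧ (f : ℝ) ≤ z3 x ∧
      val t = 4 * pr (dat x t) * (r * f) ∧ Rough (yy x) t.1 ∧ t.2.1.Prime ∧ dat x t ∈ EE x ∧
      (val t : ℝ) ≤ x ∧ Smooth (zz x) (4 * pr (dat x t)) := by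
  obtain ⟨h1, a1, a2, a3, a4, -⟩ := mem_filter.1 ht
  obtain ⟨h2, h3⟩ := mem_product.1 h1
  obtain ⟨p0, -⟩ := mem_PP.1 h2
  obtain ⟨p1, p2⟩ := mem_PP.1 (mem_product.1 h3).1
  have b1 := hx.z1_ge
  have b2 := hx.z1_zz
  have b3 := hx.zz_ZZ
  have b4 := hx.ZZ_z2
  have b5 : yy x < t.1 := (hx.yy_YY.trans hx.coa_sqrt.2.1).trans_lt a1
  have b6 : 8 ≤ yy x := by linarith [hx.z2_z3, hx.z3_y8, hx.y8_yy]
  have hz : 2 ≤ zz x := by linarith
  obtain ⟨r, r1, r2, r3⟩ := coa_split hz p0 fun e => by rw [e] at b5; push_cast at b5; linarith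
  obtain ⟨f, f1, f2, f3⟩ := coa_split hz p1 fun e => by rw [e] at a2; push_cast at a2; linarith
  obtain ⟨-, s1, s2, s3, s4⟩ := coa_ee a4
  have s5 : Smooth (zz x) 2 := ⟨two_ne_zero, fun q hq hd => by
    rw [(Nat.prime_dvd_prime_iff_eq hq Nat.prime_two).1 hd]; exact_mod_cast hz⟩
  have d1 : dd (zz x) t.2.1 ≤ pr (dat x t) :=
    Nat.le_mul_of_pos_left _ (Nat.pos_of_ne_zero (mul_ne_zero s1.1 s2.1))
  have f4 : f ≠ 1 := fun e => by
    rw [e, mul_one] at f1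
    have c1 : (dd (zz x) t.2.1 : ℝ) ≤ pr (dat x t) := by exact_mod_cast d1
    have c2 : (t.2.1 : ℝ) = 2 * dd (zz x) t.2.1 + 1 := by exact_mod_cast f1
    linarith
  refine ⟨r, f, r1, f1, r2, f2, r3, f3, (f2 _ (Nat.minFac_prime f4) (Nat.minFac_dvd f)).trans_le
    (by exact_mod_cast Nat.minFac_le (Nat.pos_of_ne_zero f3)), le_trans ?_ p2, ?_,
    rough_of_prime p0 b5, p1, a4, a3, (s5.mul s5).mul ((s1.mul s2).mul s3)⟩
  · have : f ≤ 2 * dd (zz x) t.2.1 * f :=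
      Nat.le_mul_of_pos_left _ (Nat.pos_of_ne_zero (mul_ne_zero two_ne_zero s3.1))
    exact_mod_cast this.trans (by omega)
  · have e1 : t.1 - 1 = 2 * dd (zz x) t.1 * r := by omega
    have e2 : t.2.1 - 1 = 2 * dd (zz x) t.2.1 * f := by omega
    rw [val, e1, e2, pr, dat]
    ring

theorem Par.coa_log {x : ℝ} (hx : Par x) : log (yy x) ≤ log √x / log (log √x) ^ 3 := by
  have h1 := hx.L100
  have h2 : 100 ≤ ll x := by rw [hx.ll_eq]; linarith [add_one_le_exp (LL x)]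
  have h3 : log √x = ll x / 2 := log_sqrt (by linarith [hx.x16])
  have h4 : 0 < log (ll x / 2) := log_pos (by linarith)
  have h5 : log (ll x / 2) ≤ LL x := log_le_log (by linarith) (by change ll x / 2 ≤ ll x; linarith)
  rw [yy, log_exp, h3]
  calc _ ≤ ll x / 2 / LL x ^ 3 := by
        rw [div_div, pow_succ' _ 3]
        gcongr
        linarith
    _ ≤ _ := by gcongr

theorem coa_m2 : ∃ c : ℝ, 0 < c ∧ ∀ x, Par x → ∀ e ∈ EE x,
    1 / (pr e : ℝ) ≤ c * exp (9 / 10 * LL x) ^ 2 * m2 x e := by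
  obtain ⟨c, hc, h⟩ := Py_ge
  refine ⟨4 / c ^ 2, by positivity, fun x hx e he => ?_⟩
  obtain ⟨-, s1, s2, s3, -⟩ := coa_ee he
  have h1 := h (zz x) (by linarith [hx.z1_ge, hx.z1_zz])
  rw [zz, log_exp, ← zz] at h1
  have a1 : (0 : ℝ) < e.1 := by exact_mod_cast Nat.pos_of_ne_zero s1.1
  have a2 : (0 : ℝ) < e.2.1 := by exact_mod_cast Nat.pos_of_ne_zero s2.1
  have a3 : (0 : ℝ) < e.2.2 := by exact_mod_cast Nat.pos_of_ne_zero s3.1
  have hE := exp_pos (9 / 10 * LL x)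
  calc _ = 4 / c ^ 2 * exp (9 / 10 * LL x) ^ 2 * (c / exp (9 / 10 * LL x) / (2 * e.2.1) *
        (c / exp (9 / 10 * LL x) / (2 * e.2.2)) / e.1) := by
        rw [pr]
        push_cast
        field_simp
        norm_num
    _ ≤ _ := by
        rw [m2]
        gcongr
        · exact nu_nonneg _ _
        · exact (div_le_div_of_nonneg_right h1 (by positivity)).trans (nu_ge _ s2.1)
        · exact (div_le_div_of_nonneg_right h1 (by positivity)).trans (nu_ge _ s3.1)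

/-- the range of the rough part of `p0 - 1` is long -/
theorem Par.coa_R {x : ℝ} (hx : Par x) {e : ℕ × ℕ × ℕ} (he : e ∈ EE x) {f : ℕ} (h0 : zz x < f)
    (hf : (f : ℝ) ≤ z3 x) : √x ≤ x / (4 * pr e * f) := by
  obtain ⟨-, s1, s2, s3, s4⟩ := coa_ee he
  have a1 : (0 : ℝ) < pr e := by exact_mod_cast Nat.pos_of_ne_zero ((s1.mul s2).mul s3).1
  have a2 : (0 : ℝ) < f := by linarith [hx.z1_ge, hx.z1_zz]
  have a3 : 4 * (pr e : ℝ) * f ≤ YY x ^ 2 := by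
    rw [sq]
    refine mul_le_mul ?_ ?_ a2.le ?_ <;>
      linarith [hx.ZZ_z2, hx.z2_z3, hx.z3_y8, hx.y8_yy, hx.yy_YY]
  rw [le_div_iff₀ (by positivity)]
  calc _ ≤ √x * √x := mul_le_mul_of_nonneg_left (a3.trans hx.coa_sqrt.1) (sqrt_nonneg _)
    _ = x := mul_self_sqrt (by linarith [hx.x16])

theorem Par.coa_N {x : ℝ} (hx : Par x) {e : ℕ × ℕ × ℕ} (he : e ∈ EE x) {d : ℕ} (hd : d ≤ pr e) :
    ((2 * d : ℕ) : ℝ) ≤ x := by
  have a1 : (d : ℝ) ≤ pr e := by exact_mod_cast hd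
  push_cast
  linarith [(coa_ee he).2.2.2.2, hx.ZZ_z2, hx.z2_z3, hx.z3_y8, hx.y8_yy, hx.yy_YY,
    hx.coa_sqrt.2.1, hx.coa_sqrt.2.2, Nat.cast_nonneg (α := ℝ) d]

theorem coa_div {w d w' : ℕ} (hw : w ≠ 0) (hd : d ≠ 0) (h : w' ∣ w * d) (hne : w' ≠ w) :
    2 * (w * d / w') ≠ 0 ∧ 2 * d ≠ 2 * (w * d / w') ∧ w * d / w' ≤ w * d := by
  obtain ⟨k, hk⟩ := h
  have h0 : w' * k ≠ 0 := hk ▸ mul_ne_zero hw hd
  refine ⟨?_, ?_, Nat.div_le_self _ _⟩ <;>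
    rw [hk, Nat.mul_div_cancel_left _ (Nat.pos_of_ne_zero (left_ne_zero_of_mul h0))]
  · exact mul_ne_zero two_ne_zero (right_ne_zero_of_mul h0)
  · intro e
    have : d = k := by omega
    subst this
    exact hne (Nat.eq_of_mul_eq_mul_right (Nat.pos_of_ne_zero hd) hk).symm

theorem tendsto_zz : Tendsto zz atTop atTop :=
  tendsto_exp_atTop.comp (tendsto_exp_atTop.comp (tendsto_LL.const_mul_atTop (by norm_num)))

theorem Par.coa_rec {x : ℝ} (hx : Par x) (C : ℝ) (k : ℕ) :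
    C * log (log x) ^ 9 * log (log (zz x)) ^ 9 * log (z3 x) / log (zz x) ^ (k + 1) ≤
      |C| * LL x ^ 18 * exp √(LL x) / exp (9 / 10 * LL x) ^ k := by
  have h1 := hx.L100
  rw [zz, z3, log_exp, log_exp, log_exp]
  calc _ ≤ |C| * LL x ^ 9 * LL x ^ 9 * (exp (9 / 10 * LL x) * exp √(LL x))
        / exp (9 / 10 * LL x) ^ (k + 1) := by
        rw [← LL]
        gcongr
        · exact le_abs_self _
        · linarith
    _ = _ := by
        field_simp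
        ring

theorem coa_count {x K M N : ℝ} (W : ℕ × ℕ × ℕ → Finset ℕ) (F : ℕ × ℕ × ℕ → ℕ → Finset ℕ)
    (R : ℕ × ℕ × ℕ → ℕ → ℕ → Finset ℕ) (hW : ∀ e ∈ EE x, ((W e).card : ℝ) ≤ K)
    (hF : ∀ e ∈ EE x, ∀ w ∈ W e, ∑ f ∈ F e w, (1 : ℝ) / f ≤ M) (hM : 0 ≤ M) (hN : 0 ≤ N)
    (hR : ∀ e ∈ EE x, ∀ w ∈ W e, ∀ f ∈ F e w, ((R e w f).card : ℝ) ≤ N * m2 x e * (1 / f)) :
    (((EE x).sigma fun e => (W e).sigma fun w => (F e w).sigma fun f => R e w f).card : ℝ)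
      ≤ K * M * N * G2 x := by
  simp only [card_sigma]
  push_cast
  rw [G2, mul_sum]
  refine sum_le_sum fun e he => ?_
  have h0 := mul_nonneg hN (m2_nonneg x e)
  refine (sum_le_card_nsmul _ _ (N * m2 x e * M) fun w hw => ?_).trans ?_
  · refine (sum_le_sum (hR e he w hw)).trans ?_
    rw [← mul_sum]
    exact mul_le_mul_of_nonneg_left (hF e he w hw) h0
  · rw [nsmul_eq_mul]
    refine (mul_le_mul_of_nonneg_right (hW e he) (mul_nonneg h0 hM)).trans_eq ?_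
    ring

end Vale.Agent.P031
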