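import Vale.Agent.P031.CoA1

namespace Vale.Agent.P031

open Finset Real Filter

theorem collB : ∀ᶠ x in atTop, ∀ C : Finset ((ℕ × ℕ × ℕ) × (ℕ × ℕ × ℕ)),
    (∀ t ∈ C, t.1 ∈ Tr2 x ∧ t.2 ∈ Tr2 x ∧ t.1 ≠ t.2 ∧ val t.1 = val t.2 ∧
      t.1.1 ≠ t.2.1 ∧ t.1.2.1 = t.2.2.1) →
    (C.card : ℝ) ≤ x / ll x * G2 x := by
  obtain ⟨c, hc, hm⟩ := coa_m2
  obtain ⟨C2, h2⟩ := sieve3
  obtain ⟨C3, h3⟩ := recip2
  filter_upwards [ev_par, tendsto_sqrt_atTop.eventually h2, tendsto_zz.eventually h3,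
    tendsto_LL.eventually (ev_pow_exp (|C3| * |C2| * c / 4) 1 35 (κ := 3 / 20) (by norm_num))]
    with x hx h2 h3 hL C hC
  have x0 : 0 < x := by linarith [hx.x16]
  have L0 : 0 < LL x := by linarith [hx.L100]
  have l0 : 0 < ll x := by rw [hx.ll_eq]; exact exp_pos _
  have z2' : 2 ≤ zz x := by linarith [hx.z1_ge, hx.z1_zz]
  have z3' : zz x ≤ z3 x := by linarith [hx.zz_ZZ, hx.ZZ_z2, hx.z2_z3]
  let W : ℕ × ℕ × ℕ → Finset ℕ := fun e => (Wz x).filter fun w => w ∣ e.1 * e.2.1 ∧ w ≠ e.1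
  let F : ℕ × ℕ × ℕ → ℕ → Finset ℕ := fun e _ => (Icc 1 ⌊z3 x⌋₊).filter fun f : ℕ =>
    zz x < f ∧ (f : ℝ) ≤ z3 x ∧ Rough (zz x) f ∧ (2 * e.2.2 * f + 1).Prime
  let R : ℕ × ℕ × ℕ → ℕ → ℕ → Finset ℕ := fun e w f => (Icc 1 ⌊x⌋₊).filter fun r : ℕ =>
    (0 : ℝ) < r ∧ (r : ℝ) ≤ 0 + x / (4 * pr e * f) ∧ Rough (zz x) r ∧
      Rough (yy x) (2 * e.2.1 * r + 1) ∧ Rough (yy x) (2 * (e.1 * e.2.1 / w) * r + 1)
  have key := coa_count (x := x) (K := exp (17 / 20 * LL x))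
    (M := |C3| * LL x ^ 18 * exp √(LL x) / exp (9 / 10 * LL x) ^ 1)
    (N := |C2| * c / 4 * (x / ll x ^ 2) * LL x ^ 17 * exp (9 / 10 * LL x)) W F R
    (fun e he => le_trans (by
      exact_mod_cast card_le_card (monotone_filter_right _ fun w _ hw => And.left hw))
      (mem_filter.1 he).2.2.1)
    (fun e he w _ => by
      obtain ⟨-, s1, s2, s3, -⟩ := coa_ee he
      exact (h3 (z3 x) x _ z3' hx.x16 (mul_ne_zero two_ne_zero s3.1)
        (hx.coa_N he (Nat.le_mul_of_pos_left _ (Nat.pos_of_ne_zero (s1.mul s2).1))) _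
        fun f hf => (mem_filter.1 hf).2).trans (hx.coa_rec C3 1))
    (by positivity) (by positivity)
    (fun e he w hw f hf => by
      obtain ⟨-, s1, s2, s3, -⟩ := coa_ee he
      obtain ⟨f1, f2, -⟩ := (mem_filter.1 hf).2
      obtain ⟨a1, a2, a3⟩ := coa_div s1.1 s2.1 (mem_filter.1 hw).2.1 (mem_filter.1 hw).2.2
      have a4 : e.1 * e.2.1 ≤ pr e := Nat.le_mul_of_pos_right _ (Nat.pos_of_ne_zero s3.1)
      have f0 : (0 : ℝ) < f := by linarith
      have p0 : (0 : ℝ) < pr e := by exact_mod_cast Nat.pos_of_ne_zero ((s1.mul s2).mul s3).1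
      refine (h2 (zz x) (yy x) 0 _ x _ _ z2' (by linarith [hx.z3_y8, hx.y8_yy]) hx.coa_log
        (hx.coa_R he f1 f2) le_rfl hx.x16 (mul_ne_zero two_ne_zero s2.1) a1 a2
        (hx.coa_N he ((Nat.le_mul_of_pos_left _ (Nat.pos_of_ne_zero s1.1)).trans a4))
        (hx.coa_N he (a3.trans a4)) _ fun r hr => (mem_filter.1 hr).2).trans ?_
      rw [zz, yy, log_exp, log_exp, ← LL]
      calc _ ≤ |C2| * (x / (4 * pr e * f)) * LL x ^ 9
            / (exp (9 / 10 * LL x) * (ll x / LL x ^ 4) ^ 2) := by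
            gcongr
            exact le_abs_self _
        _ = |C2| / 4 * (x / ll x ^ 2) * LL x ^ 17 / exp (9 / 10 * LL x) * (1 / pr e) * (1 / f) := by
            field_simp
        _ ≤ |C2| / 4 * (x / ll x ^ 2) * LL x ^ 17 / exp (9 / 10 * LL x) *
            (c * exp (9 / 10 * LL x) ^ 2 * m2 x e) * (1 / f) := by
            gcongr
            exact hm x hx e he
        _ = _ := by field_simp)
  have hsub : C ⊆ ((EE x).sigma fun e => (W e).sigma fun w => (F e w).sigma fun f =>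
      R e w f).image fun s => ((2 * s.1.2.1 * s.2.2.2 + 1, 2 * s.1.2.2 * s.2.2.1 + 1, s.1.1),
        (2 * (s.1.1 * s.1.2.1 / s.2.1) * s.2.2.2 + 1, 2 * s.1.2.2 * s.2.2.1 + 1, s.2.1)) := by
    rintro ⟨⟨p0, p1, w⟩, ⟨p0', p1', w'⟩⟩ ht
    obtain ⟨t1, t2, -, hv, hne, e0⟩ := hC _ ht
    dsimp only at t1 t2 hne hv e0
    subst e0
    obtain ⟨r, f, a1, a2, a3, a4, a5, a6, a7, a8, a9, a10, a11, a12, a13, a14⟩ := coa_tr hx t1
    obtain ⟨r', f', b1, b2, b3, b4, b5, b6, -, -, b9, b10, -, b12, -, b14⟩ := coa_tr hx t2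
    obtain ⟨-, s1, s2, s3, -⟩ := coa_ee a12
    obtain ⟨u0, u1, -, u3, -⟩ := coa_ee b12
    simp only [dat] at *
    rw [a9, b9] at hv
    obtain ⟨c1, c2⟩ := coa_uniq a14 b14 (coa_rough_mul a3 a4) (coa_rough_mul b3 b4)
      (mul_ne_zero a5 a6) (mul_ne_zero b5 b6) hv
    have d0 := Nat.pos_of_ne_zero s3.1
    obtain rfl : f = f' := Nat.eq_of_mul_eq_mul_left (Nat.mul_pos two_pos d0) (by omega)
    obtain rfl : r = r' := Nat.eq_of_mul_eq_mul_right (Nat.pos_of_ne_zero a6) c2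
    have c3 : w * dd (zz x) p0 = w' * dd (zz x) p0' := by
      refine Nat.eq_of_mul_eq_mul_left (Nat.mul_pos four_pos d0) ?_
      simp only [pr] at c1
      linarith
    have c4 : w * dd (zz x) p0 / w' = dd (zz x) p0' := by
      rw [c3, Nat.mul_div_cancel_left _ (Nat.pos_of_ne_zero u1.1)]
    have c5 : w' ≠ w := by
      rintro rfl
      refine hne ?_
      rw [a1, b1, Nat.eq_of_mul_eq_mul_left (Nat.pos_of_ne_zero u1.1) c3]
    have r0 : (0 : ℝ) < r := by exact_mod_cast Nat.pos_of_ne_zero a5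
    have f0 : (0 : ℝ) < f := by linarith
    have q0 : (0 : ℝ) < 4 * pr (w, dd (zz x) p0, dd (zz x) p1) := by
      exact_mod_cast Nat.pos_of_ne_zero a14.1
    have c6 : (r : ℝ) ≤ x / (4 * pr (w, dd (zz x) p0, dd (zz x) p1) * f) := by
      rw [le_div_iff₀ (by positivity)]
      rw [a9] at a13
      push_cast at a13
      linarith
    have c7 : r ≤ ⌊x⌋₊ := Nat.le_floor (le_trans (by
      rw [a9]
      exact_mod_cast (Nat.le_mul_of_pos_right _ (Nat.pos_of_ne_zero a6)).trans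
        (Nat.le_mul_of_pos_left _ (Nat.pos_of_ne_zero a14.1))) a13)
    refine mem_image.2 ⟨⟨(w, dd (zz x) p0, dd (zz x) p1), w', f, r⟩, ?_, ?_⟩
    · simp only [mem_sigma, W, F, R, mem_filter, mem_Icc, c4, ← a1, ← a2, ← b1, zero_add]
      exact ⟨a12, ⟨u0, ⟨_, c3⟩, c5⟩, ⟨⟨Nat.pos_of_ne_zero a6, Nat.le_floor a8⟩, a7, a8, a4, a11⟩,
        ⟨Nat.pos_of_ne_zero a5, c7⟩, r0, c6, a3, a10, b10⟩
    · simp only [c4, ← a1, ← a2, ← b1]
  refine le_trans (by exact_mod_cast (card_le_card hsub).trans card_image_le) (key.trans ?_)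
  refine mul_le_mul_of_nonneg_right ?_ (G2_nonneg x)
  have e : ll x = exp (17 / 20 * LL x) * exp (3 / 20 * LL x) := by
    rw [← exp_add, hx.ll_eq]; congr 1; ring
  rw [one_mul] at hL
  calc _ = x / ll x * (|C3| * |C2| * c / 4 * LL x ^ 35 * exp √(LL x)) *
        (exp (17 / 20 * LL x) / ll x) := by field_simp
    _ ≤ x / ll x * exp (3 / 20 * LL x) * (exp (17 / 20 * LL x) / ll x) := by gcongr
    _ = _ := by
        rw [mul_assoc, ← mul_div_assoc, mul_comm (exp _), ← e, div_self l0.ne', mul_one]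

end Vale.Agent.P031
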