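import Vale.Agent.P031.Par
import Vale.Agent.P031.Sv

namespace Vale.Agent.P031

open Finset Real Filter

theorem CoC_fib {α β : Type} [DecidableEq α] [DecidableEq β] (T : Finset (α × β)) (f : α → ℝ)
    (g : β → ℝ) (hg : ∀ u, 0 ≤ g u) {K K' : ℝ} (hK : 0 ≤ K)
    (h1 : ∀ u, ∀ S : Finset α, (∀ a ∈ S, (a, u) ∈ T) → ∑ a ∈ S, f a ≤ K)
    (h2 : ∀ S : Finset β, (∀ u ∈ S, ∃ a, (a, u) ∈ T) → ∑ u ∈ S, g u ≤ K') :
    ∑ t ∈ T, f t.1 * g t.2 ≤ K * K' := by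
  rw [← sum_fiberwise_of_maps_to (s := T) (t := T.image Prod.snd) (g := Prod.snd)
    fun t ht => mem_image_of_mem _ ht]
  refine le_trans (sum_le_sum fun u _ => ?_ : _ ≤ ∑ u ∈ T.image Prod.snd, K * g u) ?_
  · have e : ∑ t ∈ T with t.2 = u, f t.1 * g t.2 =
        (∑ a ∈ (T.filter fun t => t.2 = u).image Prod.fst, f a) * g u := by
      rw [sum_image, sum_mul]
      · exact sum_congr rfl fun t ht => by rw [(mem_filter.1 ht).2]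
      · intro a ha b hb hab
        exact Prod.ext hab ((mem_filter.1 ha).2.trans (mem_filter.1 hb).2.symm)
    rw [e]
    refine mul_le_mul_of_nonneg_right (h1 u _ fun a ha => ?_) (hg u)
    obtain ⟨t, ht, rfl⟩ := mem_image.1 ha
    rw [← (mem_filter.1 ht).2]
    exact (mem_filter.1 ht).1
  · rw [← mul_sum]
    refine mul_le_mul_of_nonneg_left (h2 _ fun u hu => ?_) hK
    obtain ⟨t, ht, rfl⟩ := mem_image.1 hu
    exact ⟨t.1, ht⟩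

theorem CoC_mem_S3 {x : ℝ} {q : ℕ} : q ∈ S3 x ↔ q.Prime ∧ (q : ℝ) ≤ z3 x ∧ zz x < q := by
  rw [S3, mem_filter, mem_PP, and_assoc]

theorem CoC_over {x : ℝ} {n : ℕ} : Over (S3 x) n ↔ Smooth (z3 x) n ∧ Rough (zz x) n := by
  constructor
  · exact fun h => ⟨⟨h.1, fun q hq hd => (CoC_mem_S3.1 (h.2 q hq hd)).2.1⟩,
      fun q hq hd => (CoC_mem_S3.1 (h.2 q hq hd)).2.2⟩
  · exact fun h => ⟨h.1.1, fun q hq hd => CoC_mem_S3.2 ⟨hq, h.1.2 q hq hd, h.2 q hq hd⟩⟩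

theorem CoC_over_dvd {S : Finset ℕ} {n m : ℕ} (h : Over S n) (hm : m ∣ n) : Over S m :=
  ⟨fun e => h.1 (by rw [e] at hm; exact Nat.eq_zero_of_zero_dvd hm),
    fun q hq hd => h.2 q hq (hd.trans hm)⟩

theorem CoC_rough_mul {y : ℝ} {a b : ℕ} (ha : Rough y a) (hb : Rough y b) : Rough y (a * b) :=
  fun q hq hd => ((Nat.Prime.dvd_mul hq).1 hd).elim (ha q hq) (hb q hq)

theorem CoC_rough_gt {y : ℝ} {n : ℕ} (h : Rough y n) (h0 : n ≠ 0) (h1 : n ≠ 1) : y < n := by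
  have := h _ (Nat.minFac_prime h1) (Nat.minFac_dvd n)
  exact this.trans_le (by exact_mod_cast Nat.minFac_le (Nat.pos_of_ne_zero h0))

theorem CoC_mem_Tri {x : ℝ} {δ : ℕ × ℕ × ℕ} (h : δ ∈ Tri x) :
    Smooth (zz x) δ.1 ∧ Smooth (zz x) δ.2.1 ∧ Smooth (zz x) δ.2.2 ∧ (pr δ : ℝ) ≤ ZZ x := by
  simp only [Tri, mem_filter, mem_product, mem_SS, mem_Wz] at h
  exact ⟨h.1.1.1.1, h.1.2.1.1, h.1.2.2.1, h.2⟩

theorem CoC_d1_le {x : ℝ} {δ : ℕ × ℕ × ℕ} (h : δ ∈ Tri x) :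
    ((δ.1 * δ.2.2 : ℕ) : ℝ) ≤ ZZ x ∧ (δ.2.2 : ℝ) ≤ ZZ x := by
  obtain ⟨a, b, c, d⟩ := CoC_mem_Tri h
  constructor
  · refine le_trans ?_ d
    exact_mod_cast Nat.mul_le_mul_right _ (Nat.le_mul_of_pos_right _ (Nat.pos_of_ne_zero b.1))
  · refine le_trans ?_ d
    exact_mod_cast Nat.le_mul_of_pos_left _ (Nat.pos_of_ne_zero (mul_ne_zero a.1 b.1))

/-- the factorisation of one triple -/
theorem CoC_dec {x : ℝ} (hp : Par x) {t : ℕ × ℕ × ℕ} (ht : t ∈ Tr2 x) :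
    dat x t ∈ EE x ∧ (val t : ℝ) ≤ x ∧ t.1.Prime ∧ t.2.1.Prime ∧ √x < t.1 ∧
    ∃ e f r : ℕ, Over (S3 x) e ∧ Over (S3 x) f ∧ f ≠ 1 ∧ (f : ℝ) ≤ z3 x ∧ r ≠ 0 ∧
      Rough (z3 x) r ∧ ((2 * (dat x t).2.1 * e : ℕ) : ℝ) ≤ YY x ∧
      t.1 = 2 * (dat x t).2.1 * e * r + 1 ∧ t.2.1 = 2 * (dat x t).2.2 * f + 1 ∧
      val t = 4 * pr (dat x t) * (e * f * r) := by
  obtain ⟨p0, p1, w⟩ := t
  simp only [Tr2, mem_filter, mem_product, mem_PP] at ht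
  obtain ⟨⟨⟨h0, -⟩, ⟨h1, h1z⟩, -⟩, hs, hz2, hv, hE, hY⟩ := ht
  have zz2 : 2 ≤ zz x := by linarith [hp.z1_ge, hp.z1_zz]
  have zz3 : zz x ≤ z3 x := by linarith [hp.zz_ZZ, hp.ZZ_z2, hp.z2_z3]
  have s4 : 4 ≤ √x := by
    rw [le_sqrt (by norm_num) (by linarith [hp.x16])]
    linarith [hp.x16]
  have n0 : p0 ≠ 2 := by
    rintro rfl
    push_cast at hs
    linarith
  have n1 : p1 ≠ 2 := by
    rintro rfl
    push_cast at hz2
    linarith [hp.zz_ZZ, hp.ZZ_z2]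
  have a0 : p0 - 1 ≠ 0 := by have := h0.two_le; omega
  have a1 : p1 - 1 ≠ 0 := by have := h1.two_le; omega
  obtain ⟨n, hn⟩ := sm_dvd (zz x) a0
  obtain ⟨f, hf⟩ := sm_dvd (zz x) a1
  have rn : Rough (zz x) n := by
    have := rough_div_sm (zz x) a0
    rwa [Nat.div_eq_of_eq_mul_right (Nat.pos_of_ne_zero (sm_ne_zero _ _)) hn] at this
  have rf : Rough (zz x) f := by
    have := rough_div_sm (zz x) a1
    rwa [Nat.div_eq_of_eq_mul_right (Nat.pos_of_ne_zero (sm_ne_zero _ _)) hf] at this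
  have n0' : n ≠ 0 := fun h => a0 (by rw [hn, h, mul_zero])
  have f0 : f ≠ 0 := fun h => a1 (by rw [hf, h, mul_zero])
  obtain ⟨r, hr⟩ := sm_dvd (z3 x) n0'
  have rr : Rough (z3 x) r := by
    have := rough_div_sm (z3 x) n0'
    rwa [Nat.div_eq_of_eq_mul_right (Nat.pos_of_ne_zero (sm_ne_zero _ _)) hr] at this
  have r0 : r ≠ 0 := fun h => n0' (by rw [hr, h, mul_zero])
  have fle : (f : ℝ) ≤ z3 x := by
    refine le_trans ?_ h1z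
    exact_mod_cast (Nat.le_of_dvd (Nat.pos_of_ne_zero a1) ⟨_, by rw [hf, mul_comm]⟩).trans
      (Nat.sub_le _ _)
  have hsm : sm (z3 x) (p0 - 1) = sm (zz x) (p0 - 1) * sm (z3 x) n := by
    conv_lhs => rw [hn]
    rw [sm_mul _ (sm_ne_zero _ _) n0', sm_of_smooth ((sm_smooth _ _).mono zz3)]
  rw [← two_mul_dd zz2 h0 n0] at hn hsm
  rw [← two_mul_dd zz2 h1 n1] at hf
  have hd1 := (CoC_d1_le (mem_filter.1 hE).1).2
  simp only [dat] at hd1 ⊢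
  refine ⟨hE, hv, h0, h1, hs, sm (z3 x) n, f, r,
    CoC_over.2 ⟨sm_smooth _ _, rn.of_dvd (sm_dvd _ n0')⟩,
    CoC_over.2 ⟨⟨f0, fun q _ hd => le_trans ?_ fle⟩, rf⟩, ?_, fle, r0, rr, by rw [← hsm]; exact hY,
    ?_, ?_, ?_⟩
  · exact_mod_cast Nat.le_of_dvd (Nat.pos_of_ne_zero f0) hd
  · rintro rfl
    have : (p1 : ℝ) = 2 * dd (zz x) p1 + 1 := by
      have := h1.two_le
      exact_mod_cast (by omega : p1 = 2 * dd (zz x) p1 + 1)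
    linarith [hp.ZZ_z2, hp.zz_ZZ]
  · rw [mul_assoc, ← hr, ← hn]
    have := h0.two_le
    omega
  · have := h1.two_le
    omega
  · simp only [val, pr]
    rw [hf]
    conv_lhs => rw [hn, hr]
    ring

/-- conditions on `(h, h', g, e2)` -/
def CoC_Q (x : ℝ) (δ δ' : ℕ × ℕ × ℕ) (q : ℕ × ℕ × ℕ × ℕ) : Prop :=
  Over (S3 x) q.1 ∧ Over (S3 x) q.2.1 ∧ Over (S3 x) q.2.2.1 ∧ Over (S3 x) q.2.2.2 ∧
  q.1 * q.2.1 ≠ 1 ∧ q.1 * q.2.2.1 ≠ 1 ∧ ((q.1 * q.2.1 : ℕ) : ℝ) ≤ z3 x ∧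
  ((q.1 * q.2.2.1 : ℕ) : ℝ) ≤ z3 x ∧ (2 * δ.2.2 * (q.1 * q.2.1) + 1).Prime ∧
  (2 * δ'.2.2 * (q.1 * q.2.2.1) + 1).Prime ∧ 2 * δ.2.2 * q.2.1 ≠ 2 * δ'.2.2 * q.2.2.1 ∧
  ((2 * δ.2.1 * (q.2.2.1 * q.2.2.2) : ℕ) : ℝ) ≤ YY x ∧
  ((2 * δ'.2.1 * (q.2.1 * q.2.2.2) : ℕ) : ℝ) ≤ YY x ∧
  2 * δ.2.1 * (q.2.2.1 * q.2.2.2) ≠ 2 * δ'.2.1 * (q.2.1 * q.2.2.2)

/-- conditions on `r` -/
def CoC_R (x : ℝ) (δ δ' : ℕ × ℕ × ℕ) (q : ℕ × ℕ × ℕ × ℕ) (r : ℕ) : Prop :=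
  r ≠ 0 ∧ ((4 * pr δ * (q.2.2.1 * q.2.2.2 * (q.1 * q.2.1) * r) : ℕ) : ℝ) ≤ x ∧ Rough (zz x) r ∧
  Rough (yy x) (2 * δ.2.1 * (q.2.2.1 * q.2.2.2) * r + 1) ∧
  Rough (yy x) (2 * δ'.2.1 * (q.2.1 * q.2.2.2) * r + 1)

def CoC_Φ (δ δ' : ℕ × ℕ × ℕ) (q : ℕ × ℕ × ℕ × ℕ) (r : ℕ) : (ℕ × ℕ × ℕ) × (ℕ × ℕ × ℕ) :=
  ((2 * δ.2.1 * (q.2.2.1 * q.2.2.2) * r + 1, 2 * δ.2.2 * (q.1 * q.2.1) + 1, δ.1),
    (2 * δ'.2.1 * (q.2.1 * q.2.2.2) * r + 1, 2 * δ'.2.2 * (q.1 * q.2.2.1) + 1, δ'.1))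

theorem CoC_sqrt {x : ℝ} (hp : Par x) : (YY x + 2) ^ 10 ≤ √x := by
  have h := hp.YY_x
  have hY : 0 ≤ YY x := (exp_pos _).le
  rw [le_sqrt (by positivity) (by linarith [hp.x16]), ← pow_mul]
  exact h

theorem CoC_YY {x : ℝ} (hp : Par x) : 8 ≤ zz x ∧ zz x ≤ z3 x ∧ ZZ x ≤ z3 x ∧ z3 x ≤ yy x ∧
    2 * YY x ^ 3 ≤ √x ∧ YY x ≤ √x ∧ √x ≤ x := by
  have a1 : 8 ≤ zz x := by linarith [hp.z1_ge, hp.z1_zz]
  have a2 : ZZ x ≤ z3 x := by linarith [hp.zz_ZZ, hp.ZZ_z2, hp.z2_z3]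
  have a3 : 8 ≤ YY x := by linarith [hp.zz_ZZ, hp.z3_y8, hp.y8_yy, hp.yy_YY]
  have a4 : 2 * YY x ^ 3 ≤ √x := by
    refine le_trans ?_ (CoC_sqrt hp)
    calc 2 * YY x ^ 3 ≤ YY x * YY x ^ 3 := by gcongr; linarith
      _ = YY x ^ 4 := by ring
      _ ≤ YY x ^ 10 := pow_le_pow_right₀ (by linarith) (by norm_num)
      _ ≤ (YY x + 2) ^ 10 := by gcongr; linarith
  refine ⟨a1, hp.zz_ZZ.trans a2, a2, hp.z3_y8.trans hp.y8_yy, a4, le_trans ?_ a4, ?_⟩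
  · have : YY x ≤ YY x ^ 3 := le_self_pow₀ (by linarith) (by norm_num)
    nlinarith
  · rw [sqrt_le_iff]
    constructor <;> nlinarith [hp.x16]

theorem CoC_pair {x : ℝ} (hp : Par x) {t t' : ℕ × ℕ × ℕ} (ht : t ∈ Tr2 x) (ht' : t' ∈ Tr2 x)
    (hv : val t = val t') (h0 : t.1 ≠ t'.1) (h1 : t.2.1 ≠ t'.2.1) :
    dat x t ∈ EE x ∧ dat x t' ∈ Tri x ∧ pr (dat x t') = pr (dat x t) ∧
    ∃ q r, CoC_Q x (dat x t) (dat x t') q ∧ CoC_R x (dat x t) (dat x t') q r ∧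
      (t, t') = CoC_Φ (dat x t) (dat x t') q r := by
  obtain ⟨hE, hx, p0, p1, s0, e, f, r, oe, of, f1, fz, r0, rr, eY, e0, e1, ev⟩ := CoC_dec hp ht
  obtain ⟨hE', -, p0', p1', s0', e', f', r', oe', of', f1', fz', r0', rr', eY', e0', e1', ev'⟩ :=
    CoC_dec hp ht'
  obtain ⟨zz8, zz3, -, z3y, -, Ys, -⟩ := CoC_YY hp
  have sm4 : ∀ δ ∈ Tri x, Smooth (zz x) (4 * pr δ) := by
    intro δ hδ
    obtain ⟨a, b, c, -⟩ := CoC_mem_Tri hδ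
    refine Smooth.mul ⟨by norm_num, fun q hq hd => ?_⟩ ((a.mul b).mul c)
    have : (q : ℝ) ≤ 4 := by exact_mod_cast Nat.le_of_dvd (by norm_num) hd
    linarith
  have T1 := (mem_filter.1 hE).1
  have T2 := (mem_filter.1 hE').1
  have key : ∀ {δ : ℕ × ℕ × ℕ} {e f r : ℕ}, δ ∈ Tri x → Over (S3 x) e → Over (S3 x) f → r ≠ 0 →
      Rough (z3 x) r → sm (zz x) (4 * pr δ * (e * f * r)) = 4 * pr δ ∧
        sm (z3 x) (e * f * r) = e * f := by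
    intro δ e f r hδ oe of r0 rr
    have a := CoC_over.1 oe
    have b := CoC_over.1 of
    exact ⟨sm_smooth_mul_rough (sm4 δ hδ) (CoC_rough_mul (CoC_rough_mul a.2 b.2) (rr.mono zz3))
      (mul_ne_zero (mul_ne_zero oe.1 of.1) r0), sm_smooth_mul_rough (a.1.mul b.1) rr r0⟩
  obtain ⟨k1, k2⟩ := key T1 oe of r0 rr
  obtain ⟨k1', k2'⟩ := key T2 oe' of' r0' rr'
  have hv' : 4 * pr (dat x t) * (e * f * r) = 4 * pr (dat x t') * (e' * f' * r') := by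
    rw [← ev, ← ev', hv]
  have hs : 4 * pr (dat x t) = 4 * pr (dat x t') := by rw [← k1, ← k1', hv']
  have hefr : e * f * r = e' * f' * r' := by
    rw [← hs] at hv'
    exact Nat.eq_of_mul_eq_mul_left (Nat.pos_of_ne_zero (sm4 _ T1).1) hv'
  have hef : e * f = e' * f' := by rw [← k2, ← k2', hefr]
  have hr : r = r' := by
    rw [← hef] at hefr
    exact Nat.eq_of_mul_eq_mul_left (Nat.pos_of_ne_zero (mul_ne_zero oe.1 of.1)) hefr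
  subst hr
  obtain ⟨h', g, hco, hf, hf'⟩ := Nat.exists_coprime f f'
  generalize Nat.gcd f f' = h at hf hf'
  rw [mul_comm] at hf hf'
  subst hf hf'
  have h00 : h ≠ 0 := left_ne_zero_of_mul of.1
  have heg : e * h' = e' * g := by
    apply Nat.eq_of_mul_eq_mul_left (Nat.pos_of_ne_zero h00)
    linarith
  obtain ⟨e2, he2⟩ : g ∣ e := hco.symm.dvd_of_dvd_mul_right ⟨e', by rw [heg, mul_comm]⟩
  subst he2
  have g0 : g ≠ 0 := left_ne_zero_of_mul oe.1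
  have he' : e' = h' * e2 := by
    apply Nat.eq_of_mul_eq_mul_left (Nat.pos_of_ne_zero g0)
    linarith
  subst he'
  refine ⟨hE, T2, by omega, (h, h', g, e2), r, ⟨CoC_over_dvd of (dvd_mul_right _ _),
    CoC_over_dvd of (dvd_mul_left _ _), CoC_over_dvd oe (dvd_mul_right _ _),
    CoC_over_dvd oe (dvd_mul_left _ _), f1, f1', fz, fz', e1 ▸ p1, e1' ▸ p1', fun hc => h1 ?_,
    eY, eY', fun hc => h0 ?_⟩, ⟨r0, ev ▸ hx, rr.mono zz3, ?_, ?_⟩, ?_⟩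
  · simp only at hc
    rw [e1, e1']
    have := congrArg (· * h) hc
    linarith
  · simp only at hc
    rw [e0, e0', hc]
  · exact e0 ▸ rough_of_prime p0 (by linarith [hp.yy_YY])
  · exact e0' ▸ rough_of_prime p0' (by linarith [hp.yy_YY])
  · simp only [CoC_Φ]
    rw [← e0, ← e1, ← e0', ← e1']
    rfl

theorem CoC_E {x : ℝ} (hp : Par x) (T : Finset ℕ) (hT : ∀ d ∈ T, Over (S3 x) d) :
    ∑ d ∈ T, (1 : ℝ) / d ≤ exp (2 * √(LL x) + 4) := by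
  have h1 := sum_pow_Om_div_le (S3 x) (fun q hq => (CoC_mem_S3.1 hq).1) zero_le_one (fun q hq => by
    have : (2 : ℝ) ≤ q := by exact_mod_cast (CoC_mem_S3.1 hq).1.two_le
    linarith) T hT
  simp only [one_pow, mul_one, one_mul] at h1
  exact h1.trans (exp_le_exp.2 (by linarith [hp.rs_S3]))

theorem CoC_sumQ : ∃ W : ℝ, 0 ≤ W ∧ ∀ᶠ x in atTop, ∀ δ ∈ Tri x, ∀ δ' ∈ Tri x,
    ∀ T : Finset (ℕ × ℕ × ℕ × ℕ), (∀ q ∈ T, CoC_Q x δ δ' q) →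
    ∑ q ∈ T, (1 : ℝ) / q.1 * (1 / q.2.1 * (1 / q.2.2.1 * (1 / q.2.2.2))) ≤
      W * LL x ^ 36 * exp (7 * √(LL x)) / log (zz x) ^ 2 := by
  obtain ⟨C2, h2⟩ := recip2
  obtain ⟨C3, h3⟩ := recip3
  have tz : Tendsto zz atTop atTop := tendsto_exp_atTop.comp (tendsto_exp_atTop.comp
    (tendsto_LL.const_mul_atTop (by norm_num : (0 : ℝ) < 9 / 10)))
  refine ⟨(|C3| + C2 ^ 2) * exp 12, by positivity, ?_⟩
  filter_upwards [ev_par, tz.eventually h2, tz.eventually h3] with x hp h2 h3 δ hδ δ' hδ' T hT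
  obtain ⟨zz8, zz3, ZZ3, z3y, Y3, Ys, sx⟩ := CoC_YY hp
  have hL := hp.L100
  have q1 : log (log (zz x)) = 9 / 10 * LL x := by rw [zz, log_exp, log_exp]
  have q2 : log (z3 x) = log (zz x) * exp (√(LL x)) := by rw [z3, zz, log_exp, log_exp]
  have q3 : log (log x) = LL x := rfl
  have lz : 0 < log (zz x) := log_pos (by linarith)
  set L := LL x
  set s := √L
  set E := exp (2 * s + 4)
  have s0 : 0 ≤ s := sqrt_nonneg _
  have E0 : 0 ≤ E := (exp_pos _).le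
  have zY : z3 x ≤ YY x := z3y.trans hp.yy_YY
  have bd : ∀ {δ : ℕ × ℕ × ℕ} {h k : ℕ}, δ ∈ Tri x → h ≠ 0 → ((h * k : ℕ) : ℝ) ≤ z3 x →
      ((2 * δ.2.2 * k : ℕ) : ℝ) ≤ x ∧ (k : ℝ) ≤ z3 x := by
    intro δ h k hδ h0 hk
    have a1 : (k : ℝ) ≤ z3 x :=
      le_trans (by exact_mod_cast Nat.le_mul_of_pos_left _ (Nat.pos_of_ne_zero h0)) hk
    have a2 := (CoC_d1_le hδ).2
    refine ⟨le_trans ?_ (Y3.trans sx), a1⟩
    push_cast
    calc 2 * (δ.2.2 : ℝ) * k ≤ 2 * YY x * YY x := by gcongr <;> linarith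
      _ = 2 * (YY x ^ 2 * 1) := by ring
      _ ≤ 2 * (YY x ^ 2 * YY x) := by gcongr; linarith
      _ = 2 * YY x ^ 3 := by ring
  have d0 := (CoC_mem_Tri hδ).2.2.1.1
  have d0' := (CoC_mem_Tri hδ').2.2.1.1
  have L9 : (9 / 10 * L) ^ 9 ≤ L ^ 9 := by gcongr; linarith
  have r2 : ∀ {δ : ℕ × ℕ × ℕ}, δ ∈ Tri x → ∀ S : Finset ℕ, (∀ k ∈ S, Over (S3 x) k ∧ k ≠ 1 ∧
      (k : ℝ) ≤ z3 x ∧ (2 * δ.2.2 * k + 1).Prime) →
      ∑ k ∈ S, (1 : ℝ) / k ≤ |C2| * L ^ 18 * exp s / log (zz x) := by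
    intro δ hδ S hS
    have a1 := (bd (h := 1) (k := 1) hδ one_ne_zero (by push_cast; linarith)).1
    rw [mul_one] at a1
    refine (h2 (z3 x) x (2 * δ.2.2) zz3 hp.x16 (mul_ne_zero two_ne_zero (CoC_mem_Tri hδ).2.2.1.1)
      a1 S fun k hk => ?_).trans ?_
    · obtain ⟨b1, b2, b3, b4⟩ := hS k hk
      exact ⟨CoC_rough_gt (CoC_over.1 b1).2 b1.1 b2, b3, (CoC_over.1 b1).2, b4⟩
    · rw [q1, q2, q3]
      calc _ = C2 * L ^ 9 * (9 / 10 * L) ^ 9 * exp s / log (zz x) := by field_simp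
        _ ≤ |C2| * L ^ 9 * L ^ 9 * exp s / log (zz x) := by gcongr; exact le_abs_self _
        _ = _ := by ring
  rw [← sum_filter_add_sum_filter_not T fun q => q.1 = 1]
  have A1 : ∑ q ∈ T with q.1 = 1, (1 : ℝ) / q.1 * (1 / q.2.1 * (1 / q.2.2.1 * (1 / q.2.2.2))) ≤
      1 * (|C2| * L ^ 18 * exp s / log (zz x) * (|C2| * L ^ 18 * exp s / log (zz x) * E)) := by
    refine CoC_fib _ (fun a : ℕ => (1 : ℝ) / a)
      (fun u : ℕ × ℕ × ℕ => (1 : ℝ) / u.1 * (1 / u.2.1 * (1 / u.2.2))) (fun _ => by positivity)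
      zero_le_one (fun u S hS => ?_) fun S hS => ?_
    · refine (sum_le_sum_of_subset_of_nonneg (t := {1}) (fun a ha => ?_)
        fun _ _ _ => by positivity).trans (by simp)
      exact mem_singleton.2 (mem_filter.1 (hS a ha)).2
    have hS' : ∀ u ∈ S, CoC_Q x δ δ' (1, u) := fun u hu => by
      obtain ⟨a, ha⟩ := hS u hu
      obtain ⟨h1, rfl⟩ := mem_filter.1 ha
      exact hT _ h1
    refine CoC_fib _ (fun a : ℕ => (1 : ℝ) / a) (fun u : ℕ × ℕ => (1 : ℝ) / u.1 * (1 / u.2))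
      (fun _ => by positivity) (by positivity) (fun u S' h' => r2 hδ S' fun k hk => ?_)
      fun S' h' => ?_
    · have := hS' _ (h' k hk)
      simp only [CoC_Q, one_mul] at this
      exact ⟨this.2.1, this.2.2.2.2.1, this.2.2.2.2.2.2.1, this.2.2.2.2.2.2.2.2.1⟩
    refine CoC_fib _ (fun a : ℕ => (1 : ℝ) / a) (fun u : ℕ => (1 : ℝ) / u)
      (fun _ => by positivity) (by positivity) (fun u S'' h'' => r2 hδ' S'' fun k hk => ?_)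
      fun S'' h'' => CoC_E hp _ fun k hk => ?_
    · obtain ⟨a, ha⟩ := h' _ (h'' k hk)
      have := hS' _ ha
      simp only [CoC_Q, one_mul] at this
      exact ⟨this.2.2.1, this.2.2.2.2.2.1, this.2.2.2.2.2.2.2.1, this.2.2.2.2.2.2.2.2.2.1⟩
    · obtain ⟨b, hb⟩ := h'' k hk
      obtain ⟨a, ha⟩ := h' _ hb
      exact (hS' _ ha).2.2.2.1
  have A2 : ∑ q ∈ T with ¬ q.1 = 1, (1 : ℝ) / q.1 * (1 / q.2.1 * (1 / q.2.2.1 * (1 / q.2.2.2))) ≤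
      |C3| * L ^ 18 * exp s / log (zz x) ^ 2 * (E * (E * E)) := by
    refine CoC_fib _ (fun a : ℕ => (1 : ℝ) / a)
      (fun u : ℕ × ℕ × ℕ => (1 : ℝ) / u.1 * (1 / u.2.1 * (1 / u.2.2))) (fun _ => by positivity)
      (by positivity) (fun u S hS => ?_) fun S hS => ?_
    · rcases S.eq_empty_or_nonempty with rfl | ⟨a, ha⟩
      · rw [sum_empty]; positivity
      obtain ⟨b1, b2, b3, -, -, -, b7, b8, -, -, b11, -⟩ := hT _ (mem_filter.1 (hS a ha)).1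
      refine (h3 (z3 x) x _ _ zz3 hp.x16 (mul_ne_zero (mul_ne_zero two_ne_zero d0) b2.1)
        (mul_ne_zero (mul_ne_zero two_ne_zero d0') b3.1) b11 (bd hδ b1.1 b7).1 (bd hδ' b1.1 b8).1
        S fun k hk => ?_).trans ?_
      · obtain ⟨c1, c2⟩ := mem_filter.1 (hS k hk)
        obtain ⟨b1, b2, -, -, -, -, b7, -, b9, b10, -⟩ := hT _ c1
        simp only at b1 b2 b7 b9 b10 c2 ⊢
        rw [mul_comm] at b7
        rw [mul_comm k, ← mul_assoc] at b9 b10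
        exact ⟨CoC_rough_gt (CoC_over.1 b1).2 b1.1 c2, (bd hδ b2.1 b7).2, (CoC_over.1 b1).2, b9, b10⟩
      · rw [q1, q2, q3]
        calc _ = C3 * L ^ 9 * (9 / 10 * L) ^ 9 * exp s / log (zz x) ^ 2 := by field_simp
          _ ≤ |C3| * L ^ 9 * L ^ 9 * exp s / log (zz x) ^ 2 := by gcongr; exact le_abs_self _
          _ = _ := by ring
    have hS' : ∀ u ∈ S, Over (S3 x) u.1 ∧ Over (S3 x) u.2.1 ∧ Over (S3 x) u.2.2 := fun u hu => by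
      obtain ⟨a, ha⟩ := hS u hu
      have := hT _ (mem_filter.1 ha).1
      exact ⟨this.2.1, this.2.2.1, this.2.2.2.1⟩
    refine CoC_fib _ (fun a : ℕ => (1 : ℝ) / a) (fun u : ℕ × ℕ => (1 : ℝ) / u.1 * (1 / u.2))
      (fun _ => by positivity) E0 (fun u S' h' => CoC_E hp S' fun k hk => (hS' _ (h' k hk)).1)
      fun S' h' => ?_
    refine CoC_fib _ (fun a : ℕ => (1 : ℝ) / a) (fun u : ℕ => (1 : ℝ) / u)
      (fun _ => by positivity) E0 (fun u S'' h'' => CoC_E hp S'' fun k hk => ?_)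
      fun S'' h'' => CoC_E hp _ fun k hk => ?_
    · obtain ⟨a, ha⟩ := h' _ (h'' k hk)
      exact (hS' _ ha).2.1
    · obtain ⟨b, hb⟩ := h'' k hk
      obtain ⟨a, ha⟩ := h' _ hb
      exact (hS' _ ha).2.2
  refine (add_le_add A1 A2).trans ?_
  have e1 : exp s * exp s * E ≤ exp 12 * exp (7 * s) := by
    simp only [E, ← exp_add]
    exact exp_le_exp.2 (by linarith)
  have e2 : exp s * (E * (E * E)) = exp 12 * exp (7 * s) := by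
    simp only [E, ← exp_add]
    congr 1; ring
  have e3 : L ^ 18 ≤ L ^ 36 := pow_le_pow_right₀ (by linarith) (by norm_num)
  calc _ = (|C2| ^ 2 * L ^ 36 * (exp s * exp s * E) +
        |C3| * L ^ 18 * (exp s * (E * (E * E)))) / log (zz x) ^ 2 := by field_simp
    _ ≤ (|C2| ^ 2 * L ^ 36 * (exp 12 * exp (7 * s)) +
        |C3| * L ^ 36 * (exp 12 * exp (7 * s))) / log (zz x) ^ 2 := by rw [e2]; gcongr
    _ = _ := by rw [sq_abs]; ring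

theorem CoC_cntR : ∃ W : ℝ, 0 ≤ W ∧ ∀ᶠ x in atTop, ∀ δ ∈ Tri x, ∀ δ' ∈ Tri x, ∀ q, CoC_Q x δ δ' q →
    ∀ T : Finset ℕ, (∀ r ∈ T, CoC_R x δ δ' q r) →
    (T.card : ℝ) ≤ W * x * LL x ^ 17 / (log (zz x) * ll x ^ 2) * (1 / (4 * pr δ)) *
      (1 / q.1 * (1 / q.2.1 * (1 / q.2.2.1 * (1 / q.2.2.2)))) := by
  obtain ⟨C, h⟩ := sieve3
  refine ⟨|C|, abs_nonneg _, ?_⟩
  filter_upwards [ev_par, tendsto_sqrt_atTop.eventually h] with x hp h δ hδ δ' hδ' q hq T hT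
  obtain ⟨zz8, zz3, ZZ3, z3y, Y3, Ys, sx⟩ := CoC_YY hp
  obtain ⟨b1, b2, b3, b4, -, -, b7, -, -, -, -, b12, b13, b14⟩ := hq
  obtain ⟨h0, h', g, e⟩ := q
  simp only at b1 b2 b3 b4 b7 b12 b13 b14 ⊢
  have hL := hp.L100
  have x16 := hp.x16
  have q3 : log (log x) = LL x := rfl
  have lz : 0 < log (zz x) := log_pos (by linarith)
  have l0 : 0 < ll x := by rw [hp.ll_eq]; exact exp_pos _
  have q1 : log (yy x) = ll x / LL x ^ 4 := log_exp _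
  have q2 : log √x = ll x / 2 := log_sqrt (by linarith)
  have q4 : log (ll x / 2) = LL x - log 2 := log_div l0.ne' two_ne_zero
  obtain ⟨c1, c2, c3, -⟩ := CoC_mem_Tri hδ
  have p0 : (0 : ℝ) < pr δ := Nat.cast_pos.2
    (Nat.pos_of_ne_zero (mul_ne_zero (mul_ne_zero c1.1 c2.1) c3.1))
  have p1 : (0 : ℝ) < h0 := Nat.cast_pos.2 (Nat.pos_of_ne_zero b1.1)
  have p2 : (0 : ℝ) < h' := Nat.cast_pos.2 (Nat.pos_of_ne_zero b2.1)
  have p3 : (0 : ℝ) < g := Nat.cast_pos.2 (Nat.pos_of_ne_zero b3.1)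
  have p4 : (0 : ℝ) < e := Nat.cast_pos.2 (Nat.pos_of_ne_zero b4.1)
  have zY : z3 x ≤ YY x := z3y.trans hp.yy_YY
  have hM : (4 * pr δ * (g * e * (h0 * h')) : ℝ) ≤ √x := by
    refine le_trans ?_ Y3
    have a1 := (CoC_d1_le hδ).1
    have Y0 : 0 ≤ YY x := (exp_pos _).le
    calc (4 * pr δ * (g * e * (h0 * h')) : ℝ) = 2 * (((δ.1 * δ.2.2 : ℕ) : ℝ) *
          ((2 * δ.2.1 * (g * e) : ℕ) : ℝ) * ((h0 * h' : ℕ) : ℝ)) := by
          simp only [pr]; push_cast; ring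
      _ ≤ 2 * (YY x * YY x * YY x) := by gcongr <;> linarith
      _ = _ := by ring
  have l2 := log_two_lt_d9
  have l2' := log_two_gt_d9
  refine (h (zz x) (yy x) 0 (x / (4 * pr δ * (g * e * (h0 * h')))) x _ _ (by linarith)
    (zz3.trans z3y) ?_ ?_ le_rfl x16 (mul_ne_zero (mul_ne_zero two_ne_zero c2.1)
      (mul_ne_zero b3.1 b4.1)) (mul_ne_zero (mul_ne_zero two_ne_zero (CoC_mem_Tri hδ').2.1.1)
      (mul_ne_zero b2.1 b4.1)) b14 (by linarith) (by linarith) T fun r hr => ?_).trans ?_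
  · rw [q1, q2, q4, div_div]
    have : 0 < LL x - log 2 := by linarith
    refine div_le_div_of_nonneg_left l0.le (by positivity) ?_
    calc 2 * (LL x - log 2) ^ 3 ≤ LL x * LL x ^ 3 := by gcongr <;> linarith
      _ = _ := by ring
  · rw [le_div_iff₀ (by positivity)]
    calc _ ≤ √x * √x := by gcongr
      _ = x := mul_self_sqrt (by linarith)
  · obtain ⟨a1, a2, a3, a4, a5⟩ := hT r hr
    refine ⟨Nat.cast_pos.2 (Nat.pos_of_ne_zero a1), ?_, a3, a4, a5⟩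
    rw [zero_add, le_div_iff₀ (by positivity)]
    refine le_trans (le_of_eq ?_) a2
    push_cast; ring
  · rw [q1, q3]
    have : 0 < LL x := by linarith
    calc _ = C * x * LL x ^ 17 / (log (zz x) * ll x ^ 2) * (1 / (4 * pr δ)) *
          (1 / h0 * (1 / h' * (1 / g * (1 / e)))) := by field_simp
      _ ≤ _ := by gcongr; exact le_abs_self _

theorem CoC_m2 : ∃ W : ℝ, 0 ≤ W ∧ ∀ x, Par x → ∀ δ ∈ Tri x,
    1 / (4 * (pr δ : ℝ)) ≤ W * log (zz x) ^ 2 * m2 x δ := by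
  obtain ⟨c, hc, h⟩ := Py_ge
  refine ⟨1 / c ^ 2, by positivity, fun x hp δ hδ => ?_⟩
  have zz8 := (CoC_YY hp).1
  have lz : 0 < log (zz x) := log_pos (by linarith)
  obtain ⟨c1, c2, c3, -⟩ := CoC_mem_Tri hδ
  have p1 : (0 : ℝ) < δ.1 := Nat.cast_pos.2 (Nat.pos_of_ne_zero c1.1)
  have p2 : (0 : ℝ) < δ.2.1 := Nat.cast_pos.2 (Nat.pos_of_ne_zero c2.1)
  have p3 : (0 : ℝ) < δ.2.2 := Nat.cast_pos.2 (Nat.pos_of_ne_zero c3.1)
  have a := h (zz x) (by linarith)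
  have a2 : c / log (zz x) / (2 * δ.2.1) ≤ nu (zz x) δ.2.1 :=
    le_trans (by gcongr) (nu_ge _ c2.1)
  have a3 : c / log (zz x) / (2 * δ.2.2) ≤ nu (zz x) δ.2.2 :=
    le_trans (by gcongr) (nu_ge _ c3.1)
  have := nu_nonneg (zz x) δ.2.1
  calc _ = 1 / c ^ 2 * log (zz x) ^ 2 *
        (c / log (zz x) / (2 * δ.2.1) * (c / log (zz x) / (2 * δ.2.2)) / δ.1) := by
        simp only [pr]; push_cast; field_simp; norm_num
    _ ≤ _ := by rw [m2]; gcongr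

theorem collC : ∀ᶠ x in atTop, ∀ C : Finset ((ℕ × ℕ × ℕ) × (ℕ × ℕ × ℕ)),
    (∀ t ∈ C, t.1 ∈ Tr2 x ∧ t.2 ∈ Tr2 x ∧ t.1 ≠ t.2 ∧ val t.1 = val t.2 ∧
      t.1.1 ≠ t.2.1 ∧ t.1.2.1 ≠ t.2.2.1) →
    (C.card : ℝ) ≤ x / ll x * G2 x := by
  classical
  obtain ⟨W1, w1, h1⟩ := CoC_sumQ
  obtain ⟨W2, w2, h2⟩ := CoC_cntR
  obtain ⟨W3, w3, h3⟩ := CoC_m2
  filter_upwards [ev_par, h1, h2, tendsto_LL.eventually
    (ev_pow_exp (W1 * W2 * W3) 7 53 (κ := 1 / 50) (by norm_num))] with x hp h1 h2 h4 C hC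
  have zz8 := (CoC_YY hp).1
  have x16 := hp.x16
  have hL := hp.L100
  have lz : log (zz x) = exp (9 / 10 * LL x) := log_exp _
  have lz0 : 0 < log (zz x) := log_pos (by linarith)
  have l0 : 0 < ll x := by rw [hp.ll_eq]; exact exp_pos _
  let F : (ℕ × ℕ × ℕ) × (ℕ × ℕ × ℕ) → (ℕ × ℕ × ℕ × ℕ) × ℕ := fun t =>
    if h : ∃ u : (ℕ × ℕ × ℕ × ℕ) × ℕ, CoC_Q x (dat x t.1) (dat x t.2) u.1 ∧
      CoC_R x (dat x t.1) (dat x t.2) u.1 u.2 ∧ t = CoC_Φ (dat x t.1) (dat x t.2) u.1 u.2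
    then h.choose else default
  have hF : ∀ t ∈ C, dat x t.1 ∈ EE x ∧ dat x t.2 ∈ Tri x ∧ pr (dat x t.2) = pr (dat x t.1) ∧
      CoC_Q x (dat x t.1) (dat x t.2) (F t).1 ∧ CoC_R x (dat x t.1) (dat x t.2) (F t).1 (F t).2 ∧
      t = CoC_Φ (dat x t.1) (dat x t.2) (F t).1 (F t).2 := by
    intro t ht
    obtain ⟨a1, a2, -, a4, a5, a6⟩ := hC t ht
    obtain ⟨b1, b2, b3, q, r, b4⟩ := CoC_pair hp a1 a2 a4 a5 a6
    have h : ∃ u : (ℕ × ℕ × ℕ × ℕ) × ℕ, CoC_Q x (dat x t.1) (dat x t.2) u.1 ∧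
      CoC_R x (dat x t.1) (dat x t.2) u.1 u.2 ∧ t = CoC_Φ (dat x t.1) (dat x t.2) u.1 u.2 :=
      ⟨(q, r), b4⟩
    simp only [F, dif_pos h]
    exact ⟨b1, b2, b3, h.choose_spec⟩
  let Q : (ℕ × ℕ × ℕ) → (ℕ × ℕ × ℕ) → Finset (ℕ × ℕ × ℕ × ℕ) := fun δ δ' =>
    (C.image fun t => (F t).1).filter (CoC_Q x δ δ')
  let R : (ℕ × ℕ × ℕ) → (ℕ × ℕ × ℕ) → (ℕ × ℕ × ℕ × ℕ) → Finset ℕ := fun δ δ' q =>
    (C.image fun t => (F t).2).filter (CoC_R x δ δ' q)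
  have sub : C ⊆ (EE x).biUnion fun δ => ((Tri x).filter fun δ' => pr δ' = pr δ).biUnion fun δ' =>
      (Q δ δ').biUnion fun q => (R δ δ' q).image (CoC_Φ δ δ' q) := by
    intro t ht
    obtain ⟨a1, a2, a3, a4, a5, a6⟩ := hF t ht
    exact mem_biUnion.2 ⟨_, a1, mem_biUnion.2 ⟨_, mem_filter.2 ⟨a2, a3⟩, mem_biUnion.2
      ⟨_, mem_filter.2 ⟨mem_image_of_mem _ ht, a4⟩,
        mem_image.2 ⟨_, mem_filter.2 ⟨mem_image_of_mem _ ht, a5⟩, a6.symm⟩⟩⟩⟩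
  have cd : (C.card : ℝ) ≤ ∑ δ ∈ EE x, ∑ δ' ∈ (Tri x).filter (fun δ' => pr δ' = pr δ),
      ∑ q ∈ Q δ δ', ((R δ δ' q).card : ℝ) := by
    exact_mod_cast (card_le_card sub).trans (card_biUnion_le.trans (sum_le_sum fun δ _ =>
      card_biUnion_le.trans (sum_le_sum fun δ' _ => card_biUnion_le.trans
        (sum_le_sum fun q _ => card_image_le))))
  rw [G2, mul_sum]
  refine cd.trans (sum_le_sum fun δ hδ => ?_)
  obtain ⟨T1, hD, -⟩ := mem_filter.1 hδ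
  have m0 := m2_nonneg x δ
  refine (sum_le_card_nsmul _ _ (W2 * x * LL x ^ 17 / (log (zz x) * ll x ^ 2) *
    (W3 * log (zz x) ^ 2 * m2 x δ) * (W1 * LL x ^ 36 * exp (7 * √(LL x)) / log (zz x) ^ 2))
    fun δ' hδ' => ?_).trans ?_
  · have T2 := (mem_filter.1 hδ').1
    refine (sum_le_sum fun q hq => h2 δ T1 δ' T2 q (mem_filter.1 hq).2 _
      fun r hr => (mem_filter.1 hr).2).trans ?_
    rw [← mul_sum]
    gcongr
    · exact h3 x hp δ T1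
    · exact h1 δ T1 δ' T2 _ fun q hq => (mem_filter.1 hq).2
  · rw [nsmul_eq_mul]
    refine (mul_le_mul_of_nonneg_right hD (by positivity)).trans ?_
    have e : exp (47 / 25 * LL x) * exp (1 / 50 * LL x) = log (zz x) * ll x := by
      rw [lz, hp.ll_eq, ← exp_add, ← exp_add]
      congr 1; ring
    calc _ = x / ll x * m2 x δ * (exp (47 / 25 * LL x) *
          (W1 * W2 * W3 * LL x ^ 53 * exp (7 * √(LL x))) / (log (zz x) * ll x)) := by field_simp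
      _ ≤ x / ll x * m2 x δ * (exp (47 / 25 * LL x) * exp (1 / 50 * LL x) /
          (log (zz x) * ll x)) := by gcongr
      _ = _ := by rw [e, div_self (by positivity), mul_one]

end Vale.Agent.P031
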