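import Vale.Agent.P031.Defs

namespace Vale.Agent.P031

open Finset Real

/-- primes `≤ y` -/
noncomputable def PP (y : ℝ) : Finset ℕ := Nat.primesLE ⌊y⌋₊

theorem mem_PP {y : ℝ} {q : ℕ} : q ∈ PP y ↔ q.Prime ∧ (q : ℝ) ≤ y := by
  rw [PP, Nat.mem_primesLE]
  constructor
  · rintro ⟨h, hq⟩
    refine ⟨hq, ?_⟩
    rcases le_or_gt 0 y with hy | hy
    · exact (Nat.le_floor_iff hy).1 h
    · rw [Nat.floor_of_nonpos hy.le] at h
      exact absurd hq.pos (by omega)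
  · rintro ⟨hq, h⟩
    exact ⟨Nat.le_floor h, hq⟩

/-- sum of the reciprocals of a finite set of primes -/
noncomputable def rs (S : Finset ℕ) : ℝ := ∑ q ∈ S, (1 : ℝ) / q

/-- `y`-smooth positive integers -/
def Smooth (y : ℝ) (n : ℕ) : Prop := n ≠ 0 ∧ ∀ q : ℕ, q.Prime → q ∣ n → (q : ℝ) ≤ y

/-- `y`-rough integers: no prime factor `≤ y` -/
def Rough (y : ℝ) (n : ℕ) : Prop := ∀ q : ℕ, q.Prime → q ∣ n → y < (q : ℝ)

/-- positive integers all of whose prime factors lie in `S` -/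
def Over (S : Finset ℕ) (n : ℕ) : Prop := n ≠ 0 ∧ ∀ q : ℕ, q.Prime → q ∣ n → q ∈ S

noncomputable instance (y : ℝ) : DecidablePred (Smooth y) := Classical.decPred _
noncomputable instance (y : ℝ) : DecidablePred (Rough y) := Classical.decPred _
noncomputable instance (S : Finset ℕ) : DecidablePred (Over S) := Classical.decPred _

theorem smooth_iff_over {y : ℝ} {n : ℕ} : Smooth y n ↔ Over (PP y) n :=
  and_congr_right fun _ => forall_congr' fun _ => forall_congr' fun hq => forall_congr' fun _ => by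
    rw [mem_PP]; exact ⟨fun h => ⟨hq, h⟩, fun h => h.2⟩

/-- the `y`-smooth part of `n` -/
noncomputable def sm (y : ℝ) (n : ℕ) : ℕ := ∏ q ∈ PP y, q ^ n.factorization q

/-- `y`-smooth integers in `[1, Y]` -/
noncomputable def SS (y Y : ℝ) : Finset ℕ := (Icc 1 ⌊Y⌋₊).filter (Smooth y)

theorem mem_SS {y Y : ℝ} {n : ℕ} : n ∈ SS y Y ↔ Smooth y n ∧ (n : ℝ) ≤ Y := by
  rw [SS, mem_filter, mem_Icc]
  constructor
  · rintro ⟨⟨h1, h2⟩, h⟩
    refine ⟨h, ?_⟩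
    rcases le_or_gt 0 Y with hy | hy
    · exact (Nat.le_floor_iff hy).1 h2
    · rw [Nat.floor_of_nonpos hy.le] at h2; omega
  · rintro ⟨h, h2⟩
    exact ⟨⟨Nat.one_le_iff_ne_zero.2 h.1, Nat.le_floor h2⟩, h⟩

/-- number of primes of `S` dividing `n` -/
def omS (S : Finset ℕ) (n : ℕ) : ℕ := (S.filter (· ∣ n)).card

/-- number of prime factors of `n` in `S`, with multiplicity -/
def OmS (S : Finset ℕ) (n : ℕ) : ℕ := ∑ q ∈ S, n.factorization q

/-- number of prime factors with multiplicity -/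
def Om (n : ℕ) : ℕ := ArithmeticFunction.cardFactors n

/-- number of distinct prime factors -/
def om (n : ℕ) : ℕ := n.primeFactors.card

/-- `∏_{3 ≤ q ≤ y} (1 - 1/(q-1))` -/
noncomputable def Py (y : ℝ) : ℝ := ∏ q ∈ (PP y).erase 2, (1 - 1 / ((q : ℝ) - 1))

/-- model law of half the `y`-smooth part of `p - 1` -/
noncomputable def nu (y : ℝ) (d : ℕ) : ℝ :=
  1 / (2 * (d : ℝ)) * ∏ q ∈ ((PP y).erase 2).filter (fun q => ¬ q ∣ d), (1 - 1 / ((q : ℝ) - 1))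

/-- half the `y`-smooth part of `p - 1` -/
noncomputable def dd (y : ℝ) (p : ℕ) : ℕ := sm y (p - 1) / 2

/-- totient values -/
def IsTot (v : ℕ) : Prop := ∃ n : ℕ, 1 ≤ n ∧ Nat.totient n = v

noncomputable instance : DecidablePred IsTot := Classical.decPred _

/-- totient values in `[1, x]` -/
noncomputable def Vs (x : ℝ) : Finset ℕ := (Icc 1 ⌊x⌋₊).filter IsTot

theorem mem_Vs {x : ℝ} {v : ℕ} : v ∈ Vs x ↔ IsTot v ∧ (v : ℝ) ≤ x := by
  rw [Vs, mem_filter, mem_Icc]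
  constructor
  · rintro ⟨⟨h1, h2⟩, h⟩
    refine ⟨h, ?_⟩
    rcases le_or_gt 0 x with hy | hy
    · exact (Nat.le_floor_iff hy).1 h2
    · rw [Nat.floor_of_nonpos hy.le] at h2; omega
  · rintro ⟨⟨n, hn, rfl⟩, h2⟩
    exact ⟨⟨Nat.totient_pos.2 hn, Nat.le_floor h2⟩, n, hn, rfl⟩

theorem V_eq (x : ℝ) : V x = (Vs x).card := by
  rw [V, ← Set.ncard_coe_finset]
  congr 1
  ext v
  simp only [Set.mem_ofPred_eq, mem_coe, mem_Vs, IsTot]

/-! ### API for smooth parts -/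

theorem sm_ne_zero (y : ℝ) (n : ℕ) : sm y n ≠ 0 :=
  prod_ne_zero_iff.2 fun _ hq => pow_ne_zero _ (mem_PP.1 hq).1.ne_zero

theorem sm_factorization (y : ℝ) (n q : ℕ) :
    (sm y n).factorization q = if q ∈ PP y then n.factorization q else 0 := by
  rw [sm, Nat.factorization_prod fun p hp => pow_ne_zero _ (mem_PP.1 hp).1.ne_zero]
  simp only [Finsupp.finsetSum_apply]
  rw [sum_congr rfl fun p hp => by rw [(mem_PP.1 hp).1.factorization_pow]]
  simp only [Finsupp.single_apply]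
  rw [sum_ite_eq' (PP y) q]

theorem sm_dvd (y : ℝ) {n : ℕ} (hn : n ≠ 0) : sm y n ∣ n := by
  rw [← Nat.factorization_le_iff_dvd (sm_ne_zero y n) hn]
  intro q
  rw [sm_factorization]
  split_ifs <;> simp

theorem sm_smooth (y : ℝ) (n : ℕ) : Smooth y (sm y n) := by
  refine ⟨sm_ne_zero y n, fun q hq h => ?_⟩
  have := (hq.dvd_iff_one_le_factorization (sm_ne_zero y n)).1 h
  rw [sm_factorization] at this
  split_ifs at this with h'
  · exact (mem_PP.1 h').2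
  · omega

theorem rough_div_sm (y : ℝ) {n : ℕ} (hn : n ≠ 0) : Rough y (n / sm y n) := by
  intro q hq h
  by_contra hc
  have hP : q ∈ PP y := mem_PP.2 ⟨hq, not_lt.1 hc⟩
  have h0 : n / sm y n ≠ 0 :=
    (Nat.div_pos (Nat.le_of_dvd (Nat.pos_of_ne_zero hn) (sm_dvd y hn))
      (Nat.pos_of_ne_zero (sm_ne_zero y n))).ne'
  have := (hq.dvd_iff_one_le_factorization h0).1 h
  rw [Nat.factorization_div (sm_dvd y hn), Finsupp.tsub_apply, sm_factorization, if_pos hP] at this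
  omega

theorem sm_mul (y : ℝ) {a b : ℕ} (ha : a ≠ 0) (hb : b ≠ 0) : sm y (a * b) = sm y a * sm y b := by
  rw [sm, sm, sm, ← prod_mul_distrib]
  exact prod_congr rfl fun q _ => by rw [Nat.factorization_mul ha hb, Finsupp.add_apply, pow_add]

theorem sm_of_smooth {y : ℝ} {n : ℕ} (h : Smooth y n) : sm y n = n := by
  refine Nat.eq_of_factorization_eq (sm_ne_zero y n) h.1 fun q => ?_
  rw [sm_factorization]
  split_ifs with hq
  · rfl
  · by_contra hc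
    have h1 : q ∈ n.primeFactors := by
      rw [← Nat.support_factorization, Finsupp.mem_support_iff]; exact fun e => hc e.symm
    have h2 := Nat.mem_primeFactors.1 h1
    exact hq (mem_PP.2 ⟨h2.1, h.2 q h2.1 h2.2.1⟩)

theorem sm_of_rough {y : ℝ} {n : ℕ} (h : Rough y n) : sm y n = 1 := by
  refine prod_eq_one fun q hq => ?_
  have hq' := mem_PP.1 hq
  rw [Nat.factorization_eq_zero_of_not_dvd fun hd => absurd (h q hq'.1 hd) (not_lt.2 hq'.2), pow_zero]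

theorem sm_smooth_mul_rough {y : ℝ} {s r : ℕ} (hs : Smooth y s) (hr : Rough y r) (hr0 : r ≠ 0) :
    sm y (s * r) = s := by
  rw [sm_mul y hs.1 hr0, sm_of_smooth hs, sm_of_rough hr, mul_one]

theorem Smooth.dvd_sm {y : ℝ} {s n : ℕ} (hs : Smooth y s) (hn : n ≠ 0) (h : s ∣ n) : s ∣ sm y n := by
  obtain ⟨k, rfl⟩ := h
  rw [sm_mul y hs.1 (right_ne_zero_of_mul hn), sm_of_smooth hs]
  exact dvd_mul_right _ _

theorem sm_dvd_sm {y y' : ℝ} (h : y ≤ y') {n : ℕ} (hn : n ≠ 0) : sm y n ∣ sm y' n :=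
  Smooth.dvd_sm ⟨sm_ne_zero y n, fun q hq hd => ((sm_smooth y n).2 q hq hd).trans h⟩ hn (sm_dvd y hn)

theorem Smooth.of_dvd {y : ℝ} {s n : ℕ} (hn : Smooth y n) (h : s ∣ n) : Smooth y s :=
  ⟨fun e => hn.1 (by rw [e] at h; exact Nat.eq_zero_of_zero_dvd h),
    fun q hq hd => hn.2 q hq (hd.trans h)⟩

theorem Smooth.mul {y : ℝ} {a b : ℕ} (ha : Smooth y a) (hb : Smooth y b) : Smooth y (a * b) :=
  ⟨mul_ne_zero ha.1 hb.1, fun q hq hd => ((Nat.Prime.dvd_mul hq).1 hd).elim (ha.2 q hq) (hb.2 q hq)⟩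

theorem Smooth.mono {y y' : ℝ} {a : ℕ} (ha : Smooth y a) (h : y ≤ y') : Smooth y' a :=
  ⟨ha.1, fun q hq hd => (ha.2 q hq hd).trans h⟩

theorem Rough.mono {y y' : ℝ} {a : ℕ} (ha : Rough y' a) (h : y ≤ y') : Rough y a :=
  fun q hq hd => lt_of_le_of_lt h (ha q hq hd)

theorem Rough.of_dvd {y : ℝ} {s n : ℕ} (hn : Rough y n) (h : s ∣ n) : Rough y s :=
  fun q hq hd => hn q hq (hd.trans h)

theorem rough_of_prime {y : ℝ} {p : ℕ} (hp : p.Prime) (h : y < p) : Rough y p := fun q hq hd => by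
  rwa [(Nat.prime_dvd_prime_iff_eq hq hp).1 hd]

/-- for an odd prime `p`, the smooth part of `p - 1` is `2 * dd y p` -/
theorem two_mul_dd {y : ℝ} (hy : 2 ≤ y) {p : ℕ} (hp : p.Prime) (h2 : p ≠ 2) :
    2 * dd y p = sm y (p - 1) := by
  have h0 : p - 1 ≠ 0 := by have := hp.two_le; omega
  have : 2 ∣ sm y (p - 1) := by
    refine Smooth.dvd_sm ⟨two_ne_zero, fun q hq hd => ?_⟩ h0 (hp.even_sub_one h2).two_dvd
    rw [(Nat.prime_dvd_prime_iff_eq hq Nat.prime_two).1 hd]; exact_mod_cast hy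
  rw [dd, Nat.mul_div_cancel' this]

theorem dd_smooth {y : ℝ} (hy : 2 ≤ y) {p : ℕ} (hp : p.Prime) (h2 : p ≠ 2) : Smooth y (dd y p) :=
  (sm_smooth y (p - 1)).of_dvd ⟨2, by rw [mul_comm, two_mul_dd hy hp h2]⟩

theorem nu_nonneg (y : ℝ) (d : ℕ) : 0 ≤ nu y d := by
  refine mul_nonneg (by positivity) (prod_nonneg fun q hq => ?_)
  have h1 := mem_erase.1 (mem_filter.1 hq).1
  have h3 : (3 : ℝ) ≤ q := by
    have := (mem_PP.1 h1.2).1.two_le
    exact_mod_cast (by omega : 3 ≤ q)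
  rw [sub_nonneg, div_le_one (by linarith)]; linarith

/-! ### smoothed sums -/

/-- a smooth cut-off: `1` on `(-∞,1]`, `0` on `[1+ε,∞)`, antitone, with `e^v W(e^v)` Schwartz -/
structure Cut (ε : ℝ) (W : ℝ → ℝ) : Prop where
  anti : Antitone W
  one : ∀ u, u ≤ 1 → W u = 1
  zero : ∀ u, 1 + ε ≤ u → W u = 0
  le_one : ε ≤ 1
  sch : ∃ h : SchwartzMap ℝ ℂ, ∀ v : ℝ, h v = ((Real.exp v * W (Real.exp v) : ℝ) : ℂ)

/-- `∑ a(n) W(n/X)` -/
noncomputable def SW (W : ℝ → ℝ) (X : ℝ) (a : ℕ → ℂ) : ℂ :=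
  ∑ n ∈ Icc 1 ⌊3 * X⌋₊, a n * (W (n / X) : ℂ)

/-- `∑ a(n) n⁻¹ h(log n - log X)` -/
noncomputable def TT (h : ℝ → ℂ) (X : ℝ) (a : ℕ → ℂ) : ℂ :=
  ∑ n ∈ Icc 1 ⌊3 * X⌋₊, a n / n * h (Real.log n - Real.log X)

/-- the twisted von Mangoldt coefficients -/
noncomputable def lamChi {r : ℕ} (χ : DirichletCharacter ℂ r) (n : ℕ) : ℂ :=
  (ArithmeticFunction.vonMangoldt n : ℂ) * χ n

/-- `∑ χ(n) (log n)^j n^{-s}` -/
noncomputable def Lj {r : ℕ} (χ : DirichletCharacter ℂ r) (j : ℕ) (s : ℂ) : ℂ :=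
  LSeries (fun n => χ n * ((Real.log n : ℝ) : ℂ) ^ j) s

/-- `∑ Λ(n) χ(n) (log n)^k n^{-s}` -/
noncomputable def Fk {r : ℕ} (χ : DirichletCharacter ℂ r) (k : ℕ) (s : ℂ) : ℂ :=
  LSeries (fun n => lamChi χ n * ((Real.log n : ℝ) : ℂ) ^ k) s

open Classical in
/-- primitive characters modulo `r` -/
noncomputable def prim (r : ℕ) : Finset (DirichletCharacter ℂ r) :=
  if h : r = 0 then ∅ else
    haveI : NeZero r := ⟨h⟩
    Finset.univ.filter fun χ => χ.IsPrimitive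

theorem mem_prim {r : ℕ} (hr : r ≠ 0) {χ : DirichletCharacter ℂ r} :
    χ ∈ prim r ↔ χ.IsPrimitive := by
  simp [prim, hr]

end Vale.Agent.P031
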