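import Vale.Agent.P031.D

namespace Vale.Agent.P031

open Finset Real Filter

noncomputable def ll (x : ℝ) : ℝ := log x
noncomputable def LL (x : ℝ) : ℝ := log (log x)
noncomputable def yy (x : ℝ) : ℝ := exp (ll x / LL x ^ 4)
noncomputable def YY (x : ℝ) : ℝ := exp (ll x / LL x ^ 2)
noncomputable def y8 (x : ℝ) : ℝ := exp (ll x / LL x ^ 8)
noncomputable def zz (x : ℝ) : ℝ := exp (exp (9 / 10 * LL x))
noncomputable def ZZ (x : ℝ) : ℝ := exp (exp (9 / 10 * LL x) * LL x ^ 2)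
noncomputable def z1 (x : ℝ) : ℝ := exp (exp (17 / 20 * LL x))
noncomputable def z2 (x : ℝ) : ℝ := exp (exp (9 / 10 * LL x) * LL x ^ 4)
noncomputable def z3 (x : ℝ) : ℝ := exp (exp (9 / 10 * LL x) * exp (√(LL x)))
noncomputable def tm (x : ℝ) : ℝ := ll x / LL x ^ 20
noncomputable def tp (x : ℝ) : ℝ := ll x * LL x ^ 20

open Classical in
/-- cofactors of the main class -/
noncomputable def WW (x : ℝ) : Finset ℕ := (SS (yy x) (YY x)).filter fun w =>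
  (∃ m, Smooth (yy x) m ∧ Nat.totient m = w) ∧ (Om w : ℝ) ≤ 5 * LL x

theorem mem_WW {x : ℝ} {w : ℕ} : w ∈ WW x ↔ (Smooth (yy x) w ∧ (w : ℝ) ≤ YY x) ∧
    (∃ m, Smooth (yy x) m ∧ Nat.totient m = w) ∧ (Om w : ℝ) ≤ 5 * LL x := by
  simp only [WW, mem_filter, mem_SS]

open Classical in
/-- cofactors of the two-prime classes -/
noncomputable def Wz (x : ℝ) : Finset ℕ := (SS (zz x) (ZZ x)).filter fun w =>
  ∃ m, Smooth (zz x) m ∧ Nat.totient m = w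

theorem mem_Wz {x : ℝ} {w : ℕ} : w ∈ Wz x ↔ (Smooth (zz x) w ∧ (w : ℝ) ≤ ZZ x) ∧
    ∃ m, Smooth (zz x) m ∧ Nat.totient m = w := by
  simp only [Wz, mem_filter, mem_SS]

/-- number of cofactors dividing `s` -/
def DD (W : Finset ℕ) (s : ℕ) : ℕ := (W.filter (· ∣ s)).card

/-- mass of the pairs `(w, d)` with `w d = s` -/
noncomputable def mu (y : ℝ) (W : Finset ℕ) (s : ℕ) : ℝ :=
  ∑ w ∈ W.filter (· ∣ s), nu y (s / w) / w

theorem mu_nonneg (y : ℝ) (W : Finset ℕ) (s : ℕ) : 0 ≤ mu y W s :=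
  sum_nonneg fun _ _ => div_nonneg (nu_nonneg _ _) (Nat.cast_nonneg _)

/-- the good smooth parts -/
noncomputable def Good (x : ℝ) : Finset ℕ :=
  (SS (yy x) (YY x)).filter fun s => (DD (WW x) s : ℝ) ≤ tm x

noncomputable def GG (x : ℝ) : ℝ := ∑ s ∈ Good x, mu (yy x) (WW x) s

theorem GG_nonneg (x : ℝ) : 0 ≤ GG x := sum_nonneg fun _ _ => mu_nonneg _ _ _

/-- pairs `(p, w)` with `(p - 1) w ≤ a x` and smooth data in `S` -/
noncomputable def Prs (x a : ℝ) (S : Finset ℕ) : Finset (ℕ × ℕ) :=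
  (PP (a * x + 1) ×ˢ WW x).filter fun t =>
    (((t.1 - 1) * t.2 : ℕ) : ℝ) ≤ a * x ∧ t.2 * dd (yy x) t.1 ∈ S

def pr (t : ℕ × ℕ × ℕ) : ℕ := t.1 * t.2.1 * t.2.2

/-- triples `(w, d0, d1)` -/
noncomputable def Tri (x : ℝ) : Finset (ℕ × ℕ × ℕ) :=
  (Wz x ×ˢ SS (zz x) (ZZ x) ×ˢ SS (zz x) (ZZ x)).filter fun t => (pr t : ℝ) ≤ ZZ x

noncomputable def D2 (x : ℝ) (s : ℕ) : ℕ := ((Tri x).filter fun t => pr t = s).card

noncomputable def m2 (x : ℝ) (t : ℕ × ℕ × ℕ) : ℝ := nu (zz x) t.2.1 * nu (zz x) t.2.2 / t.1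

theorem m2_nonneg (x : ℝ) (t : ℕ × ℕ × ℕ) : 0 ≤ m2 x t :=
  div_nonneg (mul_nonneg (nu_nonneg _ _) (nu_nonneg _ _)) (Nat.cast_nonneg _)

noncomputable def EE (x : ℝ) : Finset (ℕ × ℕ × ℕ) := (Tri x).filter fun t =>
  (D2 x (pr t) : ℝ) ≤ exp (47 / 25 * LL x) ∧ (DD (Wz x) (t.1 * t.2.1) : ℝ) ≤ exp (17 / 20 * LL x) ∧
    (DD (Wz x) (t.1 * t.2.2) : ℝ) ≤ exp (17 / 20 * LL x)

noncomputable def G2 (x : ℝ) : ℝ := ∑ t ∈ EE x, m2 x t

theorem G2_nonneg (x : ℝ) : 0 ≤ G2 x := sum_nonneg fun _ _ => m2_nonneg _ _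

noncomputable def S1 (x : ℝ) : Finset ℕ := (PP (z1 x)).filter (5 ≤ ·)
noncomputable def S2 (x : ℝ) : Finset ℕ := (PP (y8 x)).filter fun q : ℕ => zz x < q
noncomputable def S3 (x : ℝ) : Finset ℕ := (PP (z3 x)).filter fun q : ℕ => zz x < q

/-- abnormal primes -/
def Abn (x : ℝ) (p : ℕ) : Prop := p.Prime ∧
  ((zz x < p ∧ (omS (S1 x) (p - 1) : ℝ) ≤ 99 / 100 * rs (S1 x)) ∨
    (yy x < p ∧ (omS (S2 x) (p - 1) : ℝ) ≤ 99 / 100 * rs (S2 x)))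

noncomputable def MM (x : ℝ) : ℝ := ∑ v ∈ Vs (x ^ 2), (1 : ℝ) / v

def Neg (x : ℝ) (v : ℕ) : Prop := (v : ℝ) ≤ x / ll x ^ 2 ∨ 5 * LL x < Om v ∨
  (∃ p : ℕ, p.Prime ∧ ll x ^ 2 < p ∧ p * (p - 1) ∣ v) ∨ YY x < sm (yy x) v ∨ ZZ x < sm (zz x) v

def Three (x : ℝ) (v : ℕ) : Prop := 297 / 100 * rs (S1 x) ≤ OmS (S1 x) v

def AbA (x : ℝ) (v : ℕ) : Prop := ∃ p u : ℕ, Abn x p ∧ yy x < p ∧ IsTot u ∧ v = (p - 1) * u

def AbB (x : ℝ) (v : ℕ) : Prop :=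
  ∃ p0 p u : ℕ, p0.Prime ∧ yy x < p0 ∧ Abn x p ∧ IsTot u ∧ v = (p0 - 1) * (p - 1) * u

def Main (x : ℝ) (v : ℕ) : Prop := (sm (yy x) v : ℝ) ≤ YY x ∧
  ∃ p w : ℕ, p.Prime ∧ yy x < p ∧ w ∈ WW x ∧ v = (p - 1) * w

def Cl1 (x : ℝ) (v : ℕ) : Prop := x / ll x ^ 2 < v ∧ (sm (yy x) v : ℝ) ≤ YY x ∧
  (sm (zz x) v : ℝ) ≤ ZZ x ∧ 198 / 100 * rs (S2 x) ≤ OmS (S2 x) v ∧
  ∃ p0 p1 w : ℕ, p0.Prime ∧ p1.Prime ∧ yy x < p1 ∧ p1 < p0 ∧ w ∈ Wz x ∧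
    v = (p0 - 1) * (p1 - 1) * w

def val (t : ℕ × ℕ × ℕ) : ℕ := (t.1 - 1) * (t.2.1 - 1) * t.2.2

/-- the smooth data `(w, d0, d1)` of a triple `(p0, p1, w)` -/
noncomputable def dat (x : ℝ) (t : ℕ × ℕ × ℕ) : ℕ × ℕ × ℕ :=
  (t.2.2, dd (zz x) t.1, dd (zz x) t.2.1)

/-- the comparison class: triples `(p0, p1, w)` -/
noncomputable def Tr2 (x : ℝ) : Finset (ℕ × ℕ × ℕ) :=
  (PP (x + 1) ×ˢ PP (z3 x) ×ˢ Wz x).filter fun t =>
    √x < t.1 ∧ z2 x < t.2.1 ∧ (val t : ℝ) ≤ x ∧ dat x t ∈ EE x ∧ (sm (z3 x) (t.1 - 1) : ℝ) ≤ YY x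

/-- normal integers -/
def Nor (a b : ℝ) (d : ℕ) : Prop := a ≤ om d ∧ (Om d : ℝ) ≤ b

noncomputable instance (a b : ℝ) : DecidablePred (Nor a b) := Classical.decPred _

/-- mass of the pairs with abnormal `d` -/
noncomputable def muAb (y Y : ℝ) (W : Finset ℕ) (a b : ℝ) : ℝ :=
  ∑ s ∈ SS y Y, ∑ w ∈ W.filter (fun w => w ∣ s ∧ ¬ Nor a b (s / w)), nu y (s / w) / w

/-! ### asymptotic toolkit -/

theorem tendsto_ll : Tendsto ll atTop atTop := tendsto_log_atTop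

theorem tendsto_LL : Tendsto LL atTop atTop := tendsto_log_atTop.comp tendsto_log_atTop

theorem ev_LL (C : ℝ) : ∀ᶠ x in atTop, C ≤ LL x := tendsto_LL.eventually_ge_atTop C

theorem ev_ll (C : ℝ) : ∀ᶠ x in atTop, C ≤ ll x := tendsto_ll.eventually_ge_atTop C

theorem exp_LL {x : ℝ} (hx : 1 < x) : exp (LL x) = ll x := exp_log (log_pos hx)

theorem exp_ll {x : ℝ} (hx : 0 < x) : exp (ll x) = x := exp_log hx

/-- `C L^a ≤ κ L^b` for `a < b` -/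
theorem ev_rpow (C : ℝ) {κ a b : ℝ} (hκ : 0 < κ) (hab : a < b) :
    ∀ᶠ L : ℝ in atTop, C * L ^ a ≤ κ * L ^ b := by
  have h := (tendsto_rpow_atTop (sub_pos.2 hab)).eventually_ge_atTop (C / κ)
  filter_upwards [h, eventually_gt_atTop 0] with L h1 h2
  have e : L ^ b = L ^ (b - a) * L ^ a := by rw [← rpow_add h2]; congr 1; ring
  rw [e, ← mul_assoc]
  refine mul_le_mul_of_nonneg_right ?_ (rpow_nonneg h2.le _)
  rwa [div_le_iff₀' hκ] at h1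

/-- `C (log L)^k ≤ κ L^b` for `b > 0` -/
theorem ev_log_pow (C : ℝ) (k : ℕ) {κ b : ℝ} (hκ : 0 < κ) (hb : 0 < b) :
    ∀ᶠ L : ℝ in atTop, C * log L ^ k ≤ κ * L ^ b := by
  have h := (isLittleO_log_rpow_rpow_atTop (k : ℝ) hb).bound (c := κ / (|C| + 1)) (by positivity)
  filter_upwards [h, eventually_ge_atTop 1] with L h1 h2
  have h3 : 0 ≤ log L := log_nonneg h2
  have h4 : 0 ≤ L ^ b := rpow_nonneg (by linarith) _
  rw [rpow_natCast, norm_of_nonneg (by positivity), norm_of_nonneg h4] at h1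
  calc C * log L ^ k ≤ (|C| + 1) * log L ^ k :=
        mul_le_mul_of_nonneg_right (by linarith [le_abs_self C]) (by positivity)
    _ ≤ (|C| + 1) * (κ / (|C| + 1) * L ^ b) := mul_le_mul_of_nonneg_left h1 (by positivity)
    _ = κ * L ^ b := by field_simp

/-- `C L^k exp(m √L) ≤ exp(κ L)` -/
theorem ev_pow_exp (C m : ℝ) (k : ℕ) {κ : ℝ} (hκ : 0 < κ) :
    ∀ᶠ L : ℝ in atTop, C * L ^ k * exp (m * √L) ≤ exp (κ * L) := by
  have h1 := ev_log_pow (k : ℝ) 1 (κ := κ / 3) (b := 1) (by positivity) one_pos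
  have h2 := ev_rpow m (κ := κ / 3) (a := 1 / 2) (b := 1) (by positivity) (by norm_num)
  have h3 := (tendsto_id (α := ℝ)).eventually_ge_atTop (3 * log (|C| + 1) / κ)
  filter_upwards [h1, h2, h3, eventually_ge_atTop 1] with L h1 h2 h3 h4
  rw [rpow_one, pow_one] at h1
  rw [rpow_one, ← sqrt_eq_rpow] at h2
  have h5 : log (|C| + 1) ≤ κ / 3 * L := by
    simp only [id] at h3
    rw [div_le_iff₀ hκ] at h3; linarith
  have e1 : L ^ k = exp (k * log L) := by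
    rw [exp_nat_mul, exp_log (by linarith)]
  have e2 : |C| + 1 = exp (log (|C| + 1)) := (exp_log (by positivity)).symm
  calc C * L ^ k * exp (m * √L) ≤ (|C| + 1) * L ^ k * exp (m * √L) := by
        have : 0 ≤ L ^ k := by positivity
        gcongr; linarith [le_abs_self C]
    _ = exp (log (|C| + 1) + k * log L + m * √L) := by rw [exp_add, exp_add, ← e1, ← e2]
    _ ≤ exp (κ * L) := exp_le_exp.2 (by linarith)

end Vale.Agent.P031
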