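import Vale.Agent.P031.D2
import Vale.Agent.P031.EulB

namespace Vale.Agent.P031

open Finset Real Filter

theorem DelA_Om_mul {a b : ℕ} (ha : a ≠ 0) (hb : b ≠ 0) : Om (a * b) = Om a + Om b :=
  ArithmeticFunction.cardFactors_mul ha hb

theorem DelA_om_le (n : ℕ) : om n ≤ Om n := List.toFinset_card_le _

theorem DelA_sum_divisors {l : ℝ} (hl0 : 0 ≤ l) (s : ℕ) :
    s ≠ 0 → ∑ e ∈ s.divisors, l ^ Om e ≤ (1 + l) ^ Om s := by
  induction s using induction_on_primes with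
  | zero => exact fun h => absurd rfl h
  | one => intro _; simp [Om]
  | prime_mul p a hp ih =>
    intro h
    have ha : a ≠ 0 := right_ne_zero_of_mul h
    have hp1 : Om p = 1 := ArithmeticFunction.cardFactors_apply_prime hp
    have h1 : (p * a).divisors ⊆ a.divisors ∪ a.divisors.image (p * ·) := by
      intro e he
      have h2 := Nat.dvd_of_mem_divisors he
      rw [mem_union, mem_image]
      by_cases hpe : p ∣ e
      · obtain ⟨e', rfl⟩ := hpe
        exact Or.inr ⟨e', Nat.mem_divisors.2 ⟨Nat.dvd_of_mul_dvd_mul_left hp.pos h2, ha⟩, rfl⟩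
      · exact Or.inl (Nat.mem_divisors.2
          ⟨((hp.coprime_iff_not_dvd.2 hpe).symm.dvd_mul_left).1 h2, ha⟩)
    have h2 := sum_union_inter (s₁ := a.divisors) (s₂ := a.divisors.image (p * ·))
      (f := fun e => l ^ Om e)
    have h3 : 0 ≤ ∑ e ∈ a.divisors ∩ a.divisors.image (p * ·), l ^ Om e := by positivity
    have h4 : ∑ e ∈ a.divisors.image (p * ·), l ^ Om e = l * ∑ e ∈ a.divisors, l ^ Om e := by
      rw [sum_image fun x _ y _ h => Nat.eq_of_mul_eq_mul_left hp.pos h, mul_sum]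
      refine sum_congr rfl fun e he => ?_
      rw [DelA_Om_mul hp.ne_zero (Nat.pos_of_mem_divisors he).ne', hp1, pow_add, pow_one]
    have h5 := sum_le_sum_of_subset_of_nonneg h1 (f := fun e => l ^ Om e)
      fun _ _ _ => by positivity
    have h6 := mul_le_mul_of_nonneg_left (ih ha) (by positivity : 0 ≤ 1 + l)
    rw [DelA_Om_mul hp.ne_zero ha, hp1, pow_add, pow_one]
    linarith

/-- few divisors have few prime factors -/
theorem card_small_divisors {s : ℕ} (hs : s ≠ 0) {l J : ℝ} (hl0 : 0 < l) (hl1 : l ≤ 1)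
    (T : Finset ℕ) (hT : ∀ e ∈ T, e ∣ s ∧ (Om e : ℝ) ≤ J) :
    (T.card : ℝ) ≤ l ^ (-J) * (1 + l) ^ Om s := by
  calc (T.card : ℝ) = ∑ _e ∈ T, (1 : ℝ) := by simp
    _ ≤ ∑ e ∈ T, l ^ (-J) * l ^ Om e := sum_le_sum fun e he => by
        rw [← rpow_natCast, ← rpow_add hl0]
        exact one_le_rpow_of_pos_of_le_one_of_nonpos hl0 hl1 (by linarith [(hT e he).2])
    _ ≤ ∑ e ∈ s.divisors, l ^ (-J) * l ^ Om e := sum_le_sum_of_subset_of_nonneg
        (fun e he => Nat.mem_divisors.2 ⟨(hT e he).1, hs⟩) fun _ _ _ => by positivity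
    _ ≤ _ := by
        rw [← mul_sum]
        exact mul_le_mul_of_nonneg_left (DelA_sum_divisors hl0.le s hs) (by positivity)

/-- few normal divisors are close to a given normal divisor -/
theorem card_near {s d : ℕ} (hs : s ≠ 0) (hd : d ∣ s) {a b l : ℝ} (hab : a ≤ b) (hN : Nor a b d)
    (hl0 : 0 < l) (hl1 : l ≤ 1) (j : ℕ) (T : Finset ℕ)
    (hT : ∀ d' ∈ T, d' ∣ s ∧ Nor a b d' ∧ (d.primeFactors.filter fun q => ¬ q ∣ d').card ≤ j) :
    (T.card : ℝ) ≤ (l ^ (-(j + 2 * (b - a))) * (1 + l) ^ Om s) ^ 2 := by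
  classical
  have hd0 : d ≠ 0 := ne_zero_of_dvd_ne_zero hs hd
  let U := s.divisors.filter fun e => (Om e : ℝ) ≤ j + 2 * (b - a)
  have hU := card_small_divisors hs hl0 hl1 U fun e he =>
    ⟨Nat.dvd_of_mem_divisors (mem_filter.1 he).1, (mem_filter.1 he).2⟩
  have h1 : T.card ≤ (U ×ˢ U).card := by
    refine card_le_card_of_injOn (fun d' => (d / d.gcd d', d' / d.gcd d')) (fun d' hd' => ?_)
      fun x _ y _ h => ?_
    · obtain ⟨h2, h3, h4⟩ := hT d' hd'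
      have hg : d.gcd d' ≠ 0 := Nat.gcd_ne_zero_left hd0
      have h5 : a - j ≤ Om (d.gcd d') := by
        have h6 : (d.primeFactors.filter fun q => q ∣ d') ⊆ (d.gcd d').primeFactors := by
          intro q hq
          obtain ⟨h7, h8⟩ := mem_filter.1 hq
          exact Nat.mem_primeFactors.2 ⟨Nat.prime_of_mem_primeFactors h7,
            Nat.dvd_gcd (Nat.dvd_of_mem_primeFactors h7) h8, hg⟩
        have h7 := card_filter_add_card_filter_not (s := d.primeFactors) fun q => q ∣ d'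
        have h8 : om d ≤ Om (d.gcd d') + j := by
          have := (card_le_card h6).trans (DelA_om_le _)
          unfold om; omega
        have h9 : (om d : ℝ) ≤ Om (d.gcd d') + j := by exact_mod_cast h8
        linarith [hN.1]
      have key : ∀ e, e ∣ s → d.gcd d' ∣ e → (Om e : ℝ) ≤ b → e / d.gcd d' ∈ U := by
        rintro _ he ⟨c, rfl⟩ hb
        rw [Nat.mul_div_cancel_left _ (Nat.pos_of_ne_zero hg)]
        have hc : c ≠ 0 := right_ne_zero_of_mul (ne_zero_of_dvd_ne_zero hs he)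
        rw [DelA_Om_mul hg hc, Nat.cast_add] at hb
        exact mem_filter.2 ⟨Nat.mem_divisors.2 ⟨(Dvd.intro_left _ rfl).trans he, hs⟩, by linarith⟩
      exact mem_coe.2 (mem_product.2 ⟨key d hd (Nat.gcd_dvd_left _ _) hN.2,
        key d' h2 (Nat.gcd_dvd_right _ _) h3.2⟩)
    · simp only [Prod.mk.injEq] at h
      have h2 : d.gcd x = d.gcd y := by
        rw [← Nat.div_div_self (Nat.gcd_dvd_left d x) hd0, h.1,
          Nat.div_div_self (Nat.gcd_dvd_left d y) hd0]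
      rw [← Nat.mul_div_cancel' (Nat.gcd_dvd_right d x), ← Nat.mul_div_cancel'
        (Nat.gcd_dvd_right d y), h.2, h2]
  rw [card_product] at h1
  calc (T.card : ℝ) ≤ (U.card : ℝ) ^ 2 := by rw [sq]; exact_mod_cast h1
    _ ≤ _ := pow_le_pow_left₀ (Nat.cast_nonneg _) hU 2

theorem DelA_prod_dvd {n : ℕ} {Q : Finset ℕ} (hQ : Q ⊆ n.primeFactors) : ∏ q ∈ Q, q ∣ n :=
  (prod_dvd_prod_of_subset _ _ _ hQ).trans (Nat.prod_primeFactors_dvd n)

theorem DelA_sub {s w : ℕ} (hs : s ≠ 0) (hw : w ∣ s) : (s / w).primeFactors ⊆ s.primeFactors :=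
  Nat.primeFactors_mono (Nat.div_dvd_of_dvd hw) hs

theorem DD_div (W : Finset ℕ) (hW : ∀ w ∈ W, w ≠ 0) {s : ℕ} (hs : s ≠ 0) (Q : Finset ℕ)
    (hQ : Q ⊆ s.primeFactors) :
    DD W (s / ∏ q ∈ Q, q) = (W.filter fun w => w ∣ s ∧ Q ⊆ (s / w).primeFactors).card := by
  rw [DD]
  congr 1
  refine filter_congr fun w _ => ?_
  rw [Nat.dvd_div_iff_mul_dvd (DelA_prod_dvd hQ), mul_comm]
  constructor
  · intro h
    have h1 : w ∣ s := (Dvd.intro _ rfl).trans h
    refine ⟨h1, fun q hq => Nat.mem_primeFactors.2 ⟨Nat.prime_of_mem_primeFactors (hQ hq),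
      (dvd_prod_of_mem _ hq).trans ((Nat.dvd_div_iff_mul_dvd h1).2 h), ?_⟩⟩
    exact (Nat.div_ne_zero_iff_of_dvd h1).2 ⟨hs, ne_zero_of_dvd_ne_zero hs h1⟩
  · exact fun h => (Nat.dvd_div_iff_mul_dvd h.1).1 (DelA_prod_dvd h.2)

theorem DelA_sum_le {α β : Type*} (A : Finset α) (B : Finset β) (φ : α → β) (f : α → ℝ)
    (g : β → ℝ) (hinj : Set.InjOn φ A) (hmap : ∀ a ∈ A, φ a ∈ B) (hfg : ∀ a ∈ A, f a ≤ g (φ a))
    (hg : ∀ b ∈ B, 0 ≤ g b) : ∑ a ∈ A, f a ≤ ∑ b ∈ B, g b := by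
  classical
  refine (sum_le_sum hfg).trans ?_
  rw [← sum_image hinj]
  exact sum_le_sum_of_subset_of_nonneg (image_subset_iff.2 hmap) fun b hb _ => hg b hb

/-- the deletion (Mecke) inequality -/
theorem mecke {y : ℝ} (Y : ℝ) (W : Finset ℕ) (hW : ∀ w ∈ W, w ≠ 0) (k : ℕ) (T : Finset ℕ)
    (hT : T ⊆ SS y Y) :
    (k.factorial : ℝ) * ∑ s ∈ SS y Y, ∑ w ∈ W.filter (· ∣ s), nu y (s / w) / w *
      (((s / w).primeFactors.powersetCard k).filter fun Q => s / ∏ q ∈ Q, q ∈ T).card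
      ≤ (rs (PP y) + 3) ^ k * ∑ s ∈ T, mu y W s := by
  have hr : ∀ q ∈ PP y, 0 ≤ rr q := fun q hq => rr_nonneg (mem_PP.1 hq).1
  have h1 : ∑ s ∈ SS y Y, ∑ w ∈ W.filter (· ∣ s), nu y (s / w) / w *
      (((s / w).primeFactors.powersetCard k).filter fun Q => s / ∏ q ∈ Q, q ∈ T).card ≤
      ∑ s ∈ T, ∑ w ∈ W.filter (· ∣ s), ∑ Q ∈ (PP y).powersetCard k,
        nu y (s / w) / w * ∏ q ∈ Q, rr q := by
    simp only [card_eq_sum_ones, Nat.cast_sum, mul_sum, sum_sigma']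
    refine DelA_sum_le _ _ (fun t => ⟨t.1 / ∏ q ∈ t.2.2, q, t.2.1, t.2.2⟩) _ _ ?_ ?_ ?_ ?_
    · rintro ⟨s, w, Q⟩ h ⟨s', w', Q'⟩ h' e
      simp only [coe_sigma, Set.mem_sigma_iff, mem_coe, mem_filter, mem_powersetCard] at h h'
      simp only [Sigma.mk.injEq, heq_eq_eq] at e
      obtain ⟨e1, rfl, rfl⟩ := e
      have h2 := (DelA_prod_dvd h.2.2.1.1).trans (Nat.div_dvd_of_dvd h.2.1.2)
      have h3 := (DelA_prod_dvd h'.2.2.1.1).trans (Nat.div_dvd_of_dvd h'.2.1.2)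
      rw [← Nat.div_mul_cancel h2, ← Nat.div_mul_cancel h3, e1]
    · rintro ⟨s, w, Q⟩ h
      simp only [mem_sigma, mem_filter, mem_powersetCard] at h ⊢
      obtain ⟨h1, ⟨h2, h3⟩, ⟨h4, h5⟩, h6⟩ := h
      have hs := (mem_SS.1 h1).1
      refine ⟨h6, ⟨h2, ?_⟩, fun q hq => ?_, h5⟩
      · rw [Nat.dvd_div_iff_mul_dvd (DelA_prod_dvd (h4.trans (DelA_sub hs.1 h3))), mul_comm]
        exact (Nat.dvd_div_iff_mul_dvd h3).1 (DelA_prod_dvd h4)
      · have h7 := Nat.mem_primeFactors.1 (DelA_sub hs.1 h3 (h4 hq))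
        exact mem_PP.2 ⟨h7.1, hs.2 q h7.1 h7.2.1⟩
    · rintro ⟨s, w, Q⟩ h
      simp only [mem_sigma, mem_filter, mem_powersetCard] at h ⊢
      obtain ⟨h1, ⟨h2, h3⟩, ⟨h4, h5⟩, h6⟩ := h
      have hs := (mem_SS.1 h1).1
      have h7 : s / w = (s / ∏ q ∈ Q, q) / w * ∏ q ∈ Q, q := by
        rw [Nat.div_div_eq_div_mul, mul_comm _ w, ← Nat.div_div_eq_div_mul,
          Nat.div_mul_cancel (DelA_prod_dvd h4)]
      have h8 : (s / ∏ q ∈ Q, q) / w ≠ 0 := by
        intro h0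
        rw [h0, zero_mul] at h7
        exact (Nat.div_ne_zero_iff_of_dvd h3).2 ⟨hs.1, hW w h2⟩ h7
      have h9 := nu_mul_prod_le y h8 Q fun q hq => by
        have h7 := Nat.mem_primeFactors.1 (DelA_sub hs.1 h3 (h4 hq))
        exact mem_PP.2 ⟨h7.1, hs.2 q h7.1 h7.2.1⟩
      rw [← h7] at h9
      rw [Nat.cast_one, mul_one, div_mul_eq_mul_div]
      exact div_le_div_of_nonneg_right h9 (Nat.cast_nonneg _)
    · rintro ⟨s, w, Q⟩ h
      simp only [mem_sigma, mem_powersetCard] at h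
      exact mul_nonneg (div_nonneg (nu_nonneg _ _) (Nat.cast_nonneg _))
        (prod_nonneg fun q hq => hr q (h.2.2.1 hq))
  simp only [← mul_sum, ← sum_mul] at h1
  have h2 := (esymm_le (PP y) rr hr k).trans
    (pow_le_pow_left₀ (sum_nonneg hr) (sum_rr_le y) k)
  have h3 : 0 ≤ ∑ s ∈ T, mu y W s := sum_nonneg fun _ _ => mu_nonneg _ _ _
  calc _ ≤ (k.factorial : ℝ) * ((∑ s ∈ T, mu y W s) *
        ∑ Q ∈ (PP y).powersetCard k, ∏ q ∈ Q, rr q) :=
        mul_le_mul_of_nonneg_left h1 (Nat.cast_nonneg _)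
    _ ≤ _ := by
        rw [mul_left_comm, mul_comm]
        exact mul_le_mul_of_nonneg_right h2 h3

end Vale.Agent.P031
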