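import Vale.Agent.P031.DelA

namespace Vale.Agent.P031

open Finset Real Filter

theorem DelB_Py (y : ℝ) : 0 ≤ Py y := by
  refine prod_nonneg fun q hq => ?_
  have h1 := mem_erase.1 hq
  have h3 : (3 : ℝ) ≤ q := by
    have := (mem_PP.1 h1.2).1.two_le
    exact_mod_cast (by omega : 3 ≤ q)
  rw [sub_nonneg, div_le_one (by linarith)]; linarith

theorem DelB_m {y Y ρ : ℝ} (hρ : ∀ d ∈ SS y Y, exp (3 * rs d.primeFactors) ≤ ρ) {s w : ℕ}
    (hs : s ∈ SS y Y) (hw : w ∣ s) :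
    Py y / (2 * s) ≤ nu y (s / w) / w ∧ nu y (s / w) / w ≤ ρ * (Py y / (2 * s)) := by
  obtain ⟨h1, h2⟩ := mem_SS.1 hs
  obtain ⟨d, rfl⟩ := hw
  have hw0 : w ≠ 0 := left_ne_zero_of_mul h1.1
  have hd0 : d ≠ 0 := right_ne_zero_of_mul h1.1
  have hw1 : (0 : ℝ) < w := by positivity
  have hd1 : (0 : ℝ) < d := by positivity
  rw [Nat.mul_div_cancel_left _ (Nat.pos_of_ne_zero hw0)]
  have e : Py y / (2 * (w * d : ℕ)) = Py y / (2 * d) / w := by push_cast; field_simp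
  have h3 := hρ d (mem_SS.2 ⟨h1.of_dvd (Dvd.intro_left _ rfl), le_trans
    (by exact_mod_cast Nat.le_mul_of_pos_left d (Nat.pos_of_ne_zero hw0)) h2⟩)
  rw [e, ← mul_div_assoc, mul_comm ρ]
  exact ⟨div_le_div_of_nonneg_right (nu_ge y hd0) hw1.le, div_le_div_of_nonneg_right
    ((nu_le y hd0).trans (mul_le_mul_of_nonneg_left h3 (div_nonneg (DelB_Py y) (by positivity))))
    hw1.le⟩

theorem DelB_choose_le {α : Type*} (A : Finset α) (k : ℕ) {c : ℝ} (h : (A.card : ℝ) ≤ c) :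
    (k.factorial : ℝ) * (A.powersetCard k).card ≤ c ^ k := by
  rw [card_powersetCard]
  have h1 := Nat.choose_le_pow_div (α := ℝ) k A.card
  rw [le_div_iff₀' (by positivity)] at h1
  exact h1.trans (pow_le_pow_left₀ (Nat.cast_nonneg _) h k)

theorem DelB_le_choose {α : Type*} (A : Finset α) {k : ℕ} {a : ℝ} (hk : (k : ℝ) ≤ a)
    (h : a ≤ A.card) : (a - k) ^ k ≤ (k.factorial : ℝ) * (A.powersetCard k).card := by
  rw [card_powersetCard]
  have h1 := Nat.pow_le_choose (α := ℝ) k A.card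
  rw [div_le_iff₀' (by positivity)] at h1
  refine le_trans (pow_le_pow_left₀ (by linarith) ?_ k) h1
  have h2 : k ≤ A.card + 1 := by
    have : k ≤ A.card := by exact_mod_cast hk.trans h
    omega
  rw [Nat.cast_sub h2]
  push_cast
  linarith

theorem DelB_swap (W : Finset ℕ) (hW : ∀ w ∈ W, w ≠ 0) {s : ℕ} (hs : s ≠ 0) (P : Finset (Finset ℕ))
    (hP : ∀ Q ∈ P, Q ⊆ s.primeFactors) :
    ∑ w ∈ W.filter (· ∣ s), ((P.filter fun Q => Q ⊆ (s / w).primeFactors).card : ℝ) =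
      ∑ Q ∈ P, (DD W (s / ∏ q ∈ Q, q) : ℝ) := by
  have h := sum_card_bipartiteAbove_eq_sum_card_bipartiteBelow (s := W.filter (· ∣ s)) (t := P)
    fun w Q => Q ⊆ (s / w).primeFactors
  simp only [bipartiteAbove, bipartiteBelow, filter_filter] at h
  rw [← Nat.cast_sum, h, Nat.cast_sum]
  exact sum_congr rfl fun Q hQ => by rw [DD_div W hW hs Q (hP Q hQ)]

theorem DelB_low (W : Finset ℕ) (hW : ∀ w ∈ W, w ≠ 0) {s : ℕ} (hs : s ≠ 0) (k : ℕ) {t c : ℝ}
    (ht : 0 ≤ t) (hc : (om s : ℝ) ≤ c) :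
    (k.factorial : ℝ) * ∑ w ∈ W.filter (· ∣ s), ((((s / w).primeFactors.powersetCard k).filter
      fun Q => (DD W (s / ∏ q ∈ Q, q) : ℝ) < t).card : ℝ) ≤ c ^ k * t := by
  let P := (s.primeFactors.powersetCard k).filter fun Q => (DD W (s / ∏ q ∈ Q, q) : ℝ) < t
  have h1 : ∑ w ∈ W.filter (· ∣ s), ((((s / w).primeFactors.powersetCard k).filter
      fun Q => (DD W (s / ∏ q ∈ Q, q) : ℝ) < t).card : ℝ) ≤
      ∑ w ∈ W.filter (· ∣ s), ((P.filter fun Q => Q ⊆ (s / w).primeFactors).card : ℝ) := by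
    refine sum_le_sum fun w hw => Nat.cast_le.2 (card_le_card fun Q hQ => ?_)
    simp only [P, mem_filter, mem_powersetCard] at hQ ⊢
    exact ⟨⟨⟨hQ.1.1.trans (DelA_sub hs (mem_filter.1 hw).2), hQ.1.2⟩, hQ.2⟩, hQ.1.1⟩
  rw [DelB_swap W hW hs P fun Q hQ => (mem_powersetCard.1 (mem_filter.1 hQ).1).1] at h1
  have h2 := sum_le_card_nsmul P (fun Q => (DD W (s / ∏ q ∈ Q, q) : ℝ)) t
    fun Q hQ => (mem_filter.1 hQ).2.le
  have h3 : (P.card : ℝ) ≤ (s.primeFactors.powersetCard k).card :=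
    Nat.cast_le.2 (card_filter_le _ _)
  rw [nsmul_eq_mul] at h2
  calc _ ≤ (k.factorial : ℝ) * ((s.primeFactors.powersetCard k).card * t) :=
        mul_le_mul_of_nonneg_left (h1.trans (h2.trans (mul_le_mul_of_nonneg_right h3 ht)))
          (Nat.cast_nonneg _)
    _ ≤ _ := by
        rw [← mul_assoc]
        exact mul_le_mul_of_nonneg_right (DelB_choose_le _ k hc) ht

theorem DelB_high (W : Finset ℕ) (hW : ∀ w ∈ W, w ≠ 0) {s d : ℕ} (hs : s ≠ 0) (hd : d ∣ s)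
    {a b l c t : ℝ} {j : ℕ} (k : ℕ) (hN : Nor a b d) (hj : (j : ℝ) ≤ b) (hab : a ≤ b)
    (hl0 : 0 < l) (hl1 : l ≤ 1) (hc : (Om s : ℝ) ≤ c) :
    t * ((k.factorial : ℝ) * (((d.primeFactors.powersetCard k).filter
      fun Q => t < (DD W (s / ∏ q ∈ Q, q) : ℝ)).card : ℝ)) ≤
      (W.filter fun w => w ∣ s ∧ ¬ Nor a b (s / w)).card * b ^ k +
        (l ^ (-(j + 2 * (b - a))) * (1 + l) ^ c) ^ 2 * b ^ k + DD W s * (b - j) ^ k := by
  have hb : 0 ≤ b := (Nat.cast_nonneg j).trans hj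
  have hom : (d.primeFactors.card : ℝ) ≤ b := le_trans (Nat.cast_le.2 (DelA_om_le d)) hN.2
  have h1 : t * (((d.primeFactors.powersetCard k).filter
      fun Q => t < (DD W (s / ∏ q ∈ Q, q) : ℝ)).card : ℝ) ≤
      ∑ Q ∈ d.primeFactors.powersetCard k, (DD W (s / ∏ q ∈ Q, q) : ℝ) := by
    refine le_trans ?_ (sum_le_sum_of_subset_of_nonneg (filter_subset
      (fun Q => t < (DD W (s / ∏ q ∈ Q, q) : ℝ)) _) fun _ _ _ => Nat.cast_nonneg _)
    rw [mul_comm, ← nsmul_eq_mul]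
    exact card_nsmul_le_sum _ _ _ fun Q hQ => (mem_filter.1 hQ).2.le
  rw [← DelB_swap W hW hs _ fun Q hQ =>
    (mem_powersetCard.1 hQ).1.trans (Nat.primeFactors_mono hd hs)] at h1
  let Ne := W.filter fun w => w ∣ s ∧ Nor a b (s / w) ∧
    (d.primeFactors.filter fun q => ¬ q ∣ s / w).card ≤ j
  have h2 : (Ne.card : ℝ) ≤ (l ^ (-(j + 2 * (b - a))) * (1 + l) ^ c) ^ 2 := by
    have h3 := card_near hs hd hab hN hl0 hl1 j (Ne.image (s / ·)) fun d' hd' => by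
      obtain ⟨w, hw, rfl⟩ := mem_image.1 hd'
      obtain ⟨-, h4, h5⟩ := mem_filter.1 hw
      exact ⟨Nat.div_dvd_of_dvd h4, h5⟩
    rw [card_image_of_injOn fun x hx z hz h => by
      have h' : s / x = s / z := h
      rw [← Nat.div_div_self (mem_filter.1 hx).2.1 hs, h',
        Nat.div_div_self (mem_filter.1 hz).2.1 hs]] at h3
    refine h3.trans (pow_le_pow_left₀ (by positivity)
      (mul_le_mul_of_nonneg_left ?_ (by positivity)) 2)
    rw [← rpow_natCast]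
    exact rpow_le_rpow_of_exponent_le (by linarith) hc
  have h3 : ∀ w ∈ W.filter (· ∣ s), (k.factorial : ℝ) * (((d.primeFactors.powersetCard k).filter
      fun Q => Q ⊆ (s / w).primeFactors).card : ℝ) ≤
      (if w ∈ W.filter (fun w => w ∣ s ∧ ¬ Nor a b (s / w)) then b ^ k else 0) +
        (if w ∈ Ne then b ^ k else 0) + (b - j) ^ k := by
    intro w hw
    have h4 : 0 ≤ (b - j) ^ k := pow_nonneg (by linarith) k
    have h5 : (k.factorial : ℝ) * (((d.primeFactors.powersetCard k).filter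
        fun Q => Q ⊆ (s / w).primeFactors).card : ℝ) ≤ b ^ k :=
      (mul_le_mul_of_nonneg_left (Nat.cast_le.2 (card_filter_le _ _)) (Nat.cast_nonneg _)).trans
        (DelB_choose_le _ k hom)
    have h6 : 0 ≤ b ^ k := by positivity
    split_ifs with h7 h8 h8
    · linarith
    · linarith
    · linarith
    rw [zero_add, zero_add]
    obtain ⟨h9, h10⟩ := mem_filter.1 hw
    have h11 : j < (d.primeFactors.filter fun q => ¬ q ∣ s / w).card := by
      by_contra h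
      exact h8 (mem_filter.2 ⟨h9, h10, not_not.1 fun h' => h7 (mem_filter.2 ⟨h9, h10, h'⟩),
        not_lt.1 h⟩)
    have h12 := card_filter_add_card_filter_not (s := d.primeFactors) fun q => q ∣ s / w
    have h13 : ((d.primeFactors.filter fun q => q ∣ s / w).card : ℝ) + j ≤ d.primeFactors.card := by
      exact_mod_cast (by omega)
    refine le_trans (mul_le_mul_of_nonneg_left (Nat.cast_le.2 (card_le_card fun Q hQ => ?_))
      (Nat.cast_nonneg _)) (DelB_choose_le (d.primeFactors.filter fun q => q ∣ s / w) k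
        (by linarith))
    simp only [mem_filter, mem_powersetCard] at hQ ⊢
    exact ⟨fun q hq => mem_filter.2 ⟨hQ.1.1 hq, Nat.dvd_of_mem_primeFactors (hQ.2 hq)⟩, hQ.1.2⟩
  have h4 := sum_le_sum h3
  rw [← mul_sum, sum_add_distrib, sum_add_distrib, sum_ite_mem, sum_ite_mem,
    inter_eq_right.2 (monotone_filter_right _ fun _ _ h => h.1),
    inter_eq_right.2 (monotone_filter_right _ fun _ _ h => h.1)] at h4
  simp only [sum_const, nsmul_eq_mul] at h4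
  have h5 := mul_le_mul_of_nonneg_left h1 (Nat.cast_nonneg k.factorial : (0 : ℝ) ≤ _)
  have h6 := mul_le_mul_of_nonneg_right h2 (by positivity : 0 ≤ b ^ k)
  rw [mul_left_comm, DD]
  linarith

theorem DelB_point {y : ℝ} (Y : ℝ) (W : Finset ℕ) (hW : ∀ w ∈ W, w ≠ 0)
    {a b K ρ D0 D1 θ1 θ2 l : ℝ} {j k : ℕ} (hK0 : 0 ≤ K) (hK : ∀ w ∈ W, (Om w : ℝ) ≤ K)
    (hρ : ∀ d ∈ SS y Y, exp (3 * rs d.primeFactors) ≤ ρ) (hρ0 : 0 ≤ ρ)
    (hk : (k : ℝ) ≤ a) (hj : (j : ℝ) ≤ b) (hab : a ≤ b) (hl0 : 0 < l) (hl1 : l ≤ 1)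
    (hD0 : 0 < D0) (hθ1 : 0 ≤ θ1) (hθ2 : 0 < θ2) {s : ℕ} (hs : s ∈ SS y Y) (h0 : D0 ≤ DD W s)
    (h1 : (DD W s : ℝ) ≤ D1) :
    (a - k) ^ k * (mu y W s -
        ∑ w ∈ W.filter (fun w => w ∣ s ∧ ¬ Nor a b (s / w)), nu y (s / w) / w) ≤
      (k.factorial : ℝ) * ∑ w ∈ W.filter (· ∣ s), nu y (s / w) / w *
        (((s / w).primeFactors.powersetCard k).filter fun Q => s / ∏ q ∈ Q, q ∈ (SS y Y).filter
          (fun s => θ1 * D0 ≤ DD W s ∧ (DD W s : ℝ) ≤ θ2 * D1)).card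
      + ρ * θ1 * (K + b) ^ k * mu y W s
      + θ2⁻¹ * (ρ * b ^ k * ∑ w ∈ W.filter (fun w => w ∣ s ∧ ¬ Nor a b (s / w)), nu y (s / w) / w
        + ((l ^ (-(j + 2 * (b - a))) * (1 + l) ^ (K + b)) ^ 2 / D0 * b ^ k + (b - j) ^ k) *
          mu y W s) := by
  set T := (SS y Y).filter (fun s => θ1 * D0 ≤ DD W s ∧ (DD W s : ℝ) ≤ θ2 * D1) with hT
  set Ab := W.filter (fun w => w ∣ s ∧ ¬ Nor a b (s / w)) with hAb
  set R := (l ^ (-(j + 2 * (b - a))) * (1 + l) ^ (K + b)) ^ 2 with hR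
  let N := (W.filter (· ∣ s)).filter fun w => Nor a b (s / w)
  let m : ℕ → ℝ := fun w => nu y (s / w) / w
  let P : ℕ → Finset (Finset ℕ) := fun w => (s / w).primeFactors.powersetCard k
  have hm : ∀ w, 0 ≤ m w := fun w => div_nonneg (nu_nonneg _ _) (Nat.cast_nonneg _)
  have hb : 0 ≤ b := (Nat.cast_nonneg j).trans hj
  have hbj : 0 ≤ (b - j) ^ k := pow_nonneg (by linarith) k
  have hmu := mu_nonneg y W s
  have hab0 : 0 ≤ ∑ w ∈ Ab, m w := sum_nonneg fun w _ => hm w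
  have hsm := (mem_SS.1 hs).1
  have e1 : mu y W s - ∑ w ∈ Ab, m w = ∑ w ∈ N, m w := by
    rw [sub_eq_iff_eq_add, hAb, ← filter_filter, sum_filter_add_sum_filter_not]; rfl
  have hNs : ∑ w ∈ N, m w ≤ mu y W s := by linarith
  have hT0 : ∀ w, 0 ≤ m w * (((P w).filter fun Q => s / ∏ q ∈ Q, q ∈ T).card : ℝ) :=
    fun w => mul_nonneg (hm w) (Nat.cast_nonneg _)
  change _ * (_ - ∑ w ∈ Ab, m w) ≤ (k.factorial : ℝ) * ∑ w ∈ W.filter (· ∣ s), m w *
    (((P w).filter fun Q => s / ∏ q ∈ Q, q ∈ T).card : ℝ) + _ + _ * (_ * ∑ w ∈ Ab, m w + _)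
  rw [e1]
  rcases N.eq_empty_or_nonempty with hN | ⟨w0, hw0⟩
  · have := sum_nonneg fun w (_ : w ∈ W.filter (· ∣ s)) => hT0 w
    rw [hN, sum_empty, mul_zero]
    positivity
  have hOm : (Om s : ℝ) ≤ K + b := by
    obtain ⟨h2, h3⟩ := mem_filter.1 hw0
    obtain ⟨h4, h5⟩ := mem_filter.1 h2
    have h6 := DelA_Om_mul (hW w0 h4) ((Nat.div_ne_zero_iff_of_dvd h5).2 ⟨hsm.1, hW w0 h4⟩)
    rw [Nat.mul_div_cancel' h5] at h6
    rw [h6, Nat.cast_add]
    exact add_le_add (hK w0 h4) h3.2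
  set u := Py y / (2 * s) with hu
  have hu0 : 0 ≤ u := div_nonneg (DelB_Py y) (by positivity)
  have hDD : (0 : ℝ) < DD W s := hD0.trans_le h0
  have m1 : DD W s * u ≤ mu y W s := by
    rw [DD, ← nsmul_eq_mul]
    exact card_nsmul_le_sum _ _ _ fun w hw => (DelB_m hρ hs (mem_filter.1 hw).2).1
  have m2 : mu y W s ≤ DD W s * (ρ * u) := by
    rw [DD, ← nsmul_eq_mul]
    exact sum_le_card_nsmul _ _ _ fun w hw => (DelB_m hρ hs (mem_filter.1 hw).2).2
  have m3 : Ab.card * u ≤ ∑ w ∈ Ab, m w := by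
    rw [← nsmul_eq_mul]
    exact card_nsmul_le_sum _ _ _ fun w hw => (DelB_m hρ hs (mem_filter.1 hw).2.1).1
  set H := θ2⁻¹ * (Ab.card / DD W s * b ^ k + (R / D0 * b ^ k + (b - j) ^ k)) with hH
  have k1 : ∀ w ∈ N, (a - k) ^ k * m w ≤
      k.factorial * (m w * (((P w).filter fun Q => s / ∏ q ∈ Q, q ∈ T).card : ℝ)) +
      ρ * u * (k.factorial *
        (((P w).filter fun Q => (DD W (s / ∏ q ∈ Q, q) : ℝ) < θ1 * D0).card : ℝ)) + H * m w := by
    intro w hw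
    obtain ⟨h2, h3⟩ := mem_filter.1 hw
    obtain ⟨h4, h5⟩ := mem_filter.1 h2
    have c1 := DelB_le_choose (s / w).primeFactors hk h3.1
    have c2 : (P w).card ≤ ((P w).filter fun Q => s / ∏ q ∈ Q, q ∈ T).card +
        ((P w).filter fun Q => (DD W (s / ∏ q ∈ Q, q) : ℝ) < θ1 * D0).card +
        ((P w).filter fun Q => θ2 * DD W s < (DD W (s / ∏ q ∈ Q, q) : ℝ)).card := by
      refine le_trans (card_le_card fun Q hQ => ?_) ((card_union_le _ _).trans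
        (Nat.add_le_add_right (card_union_le _ _) _))
      simp only [mem_union, mem_filter, hQ, true_and, hT]
      by_contra hc
      simp only [not_or, not_lt] at hc
      refine hc.1.1 ⟨mem_SS.2 ⟨hsm.of_dvd (Nat.div_dvd_of_dvd (DelA_prod_dvd
        ((mem_powersetCard.1 hQ).1.trans (DelA_sub hsm.1 h5)))), ?_⟩, hc.1.2,
        hc.2.trans (mul_le_mul_of_nonneg_left h1 hθ2.le)⟩
      exact le_trans (Nat.cast_le.2 (Nat.div_le_self _ _)) (mem_SS.1 hs).2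
    have c3 := DelB_high W hW hsm.1 (Nat.div_dvd_of_dvd h5) (t := θ2 * DD W s) k h3 hj hab hl0
      hl1 hOm
    have c4 : (k.factorial : ℝ) *
        (((P w).filter fun Q => θ2 * DD W s < (DD W (s / ∏ q ∈ Q, q) : ℝ)).card : ℝ) ≤ H := by
      refine le_of_mul_le_mul_left (c3.trans ?_) (mul_pos hθ2 hDD)
      have c5 : R ≤ DD W s * (R / D0) := by
        rw [← mul_div_assoc, le_div_iff₀ hD0, mul_comm]
        exact mul_le_mul_of_nonneg_right h0 (by positivity)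
      have c6 := mul_le_mul_of_nonneg_right c5 (by positivity : 0 ≤ b ^ k)
      have c7 : θ2 * DD W s * H = Ab.card * b ^ k + DD W s * (R / D0) * b ^ k +
          DD W s * (b - j) ^ k := by
        rw [hH]; field_simp; ring
      rw [c7]
      linarith
    have c5 : ((P w).card : ℝ) ≤ (((P w).filter fun Q => s / ∏ q ∈ Q, q ∈ T).card : ℝ) +
        (((P w).filter fun Q => (DD W (s / ∏ q ∈ Q, q) : ℝ) < θ1 * D0).card : ℝ) +
        (((P w).filter fun Q => θ2 * DD W s < (DD W (s / ∏ q ∈ Q, q) : ℝ)).card : ℝ) := by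
      exact_mod_cast c2
    have c6 := mul_le_mul_of_nonneg_right (c1.trans
      (mul_le_mul_of_nonneg_left c5 (Nat.cast_nonneg _))) (hm w)
    have c7 := mul_le_mul_of_nonneg_right c4 (hm w)
    have c8 := mul_le_mul_of_nonneg_right (DelB_m hρ hs h5).2 (by positivity : (0 : ℝ) ≤
      k.factorial * (((P w).filter fun Q => (DD W (s / ∏ q ∈ Q, q) : ℝ) < θ1 * D0).card : ℝ))
    change m w * _ ≤ _ at c8
    linarith
  have k2 := sum_le_sum k1
  simp only [sum_add_distrib, ← mul_sum] at k2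
  have k3 := mul_le_mul_of_nonneg_left (sum_le_sum_of_subset_of_nonneg
    (filter_subset (fun w => Nor a b (s / w)) (W.filter (· ∣ s))) fun w _ _ => hT0 w)
    (Nat.cast_nonneg k.factorial : (0 : ℝ) ≤ _)
  have k4 := (mul_le_mul_of_nonneg_left (sum_le_sum_of_subset_of_nonneg
    (filter_subset (fun w => Nor a b (s / w)) (W.filter (· ∣ s)))
      fun w _ _ => Nat.cast_nonneg _) (Nat.cast_nonneg k.factorial)).trans
    (DelB_low W hW hsm.1 k (t := θ1 * D0) (by positivity)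
      (le_trans (Nat.cast_le.2 (DelA_om_le s)) hOm))
  have k5 := mul_le_mul_of_nonneg_left k4 (mul_nonneg hρ0 hu0)
  have k6 : ρ * u * ((K + b) ^ k * (θ1 * D0)) ≤ ρ * θ1 * (K + b) ^ k * mu y W s := by
    have := mul_le_mul_of_nonneg_left ((mul_le_mul_of_nonneg_right h0 hu0).trans m1)
      (by positivity : 0 ≤ ρ * θ1 * (K + b) ^ k)
    linarith
  have k7 : H * ∑ w ∈ N, m w ≤ θ2⁻¹ * (ρ * b ^ k * ∑ w ∈ Ab, m w +
      (R / D0 * b ^ k + (b - j) ^ k) * mu y W s) := by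
    refine (mul_le_mul_of_nonneg_left hNs (by positivity)).trans ?_
    rw [hH, mul_assoc, add_mul]
    refine mul_le_mul_of_nonneg_left (add_le_add_left ?_ _) (by positivity)
    calc _ ≤ Ab.card / DD W s * b ^ k * (DD W s * (ρ * u)) :=
          mul_le_mul_of_nonneg_left m2 (by positivity)
      _ = ρ * b ^ k * (Ab.card * u) := by field_simp
      _ ≤ _ := mul_le_mul_of_nonneg_left m3 (by positivity)
  linarith

/-- anti-concentration by deleting `k` primes -/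
theorem del {y : ℝ} (Y : ℝ) (W : Finset ℕ) (hW : ∀ w ∈ W, w ≠ 0)
    {a b K ρ D0 D1 θ1 θ2 l : ℝ} {j k : ℕ} (hK0 : 0 ≤ K) (hK : ∀ w ∈ W, (Om w : ℝ) ≤ K)
    (hρ : ∀ d ∈ SS y Y, exp (3 * rs d.primeFactors) ≤ ρ) (hρ0 : 0 ≤ ρ)
    (hk : (k : ℝ) ≤ a) (hj : (j : ℝ) ≤ b) (hab : a ≤ b) (hl0 : 0 < l) (hl1 : l ≤ 1)
    (hD0 : 0 < D0) (hθ1 : 0 ≤ θ1) (hθ2 : 0 < θ2) (S : Finset ℕ)
    (hS : ∀ s ∈ S, s ∈ SS y Y ∧ D0 ≤ DD W s ∧ (DD W s : ℝ) ≤ D1) :
    (a - k) ^ k * (∑ s ∈ S, mu y W s - muAb y Y W a b) ≤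
      (rs (PP y) + 3) ^ k * ∑ s ∈ (SS y Y).filter
          (fun s => θ1 * D0 ≤ DD W s ∧ (DD W s : ℝ) ≤ θ2 * D1), mu y W s
      + ρ * θ1 * (K + b) ^ k * ∑ s ∈ S, mu y W s
      + θ2⁻¹ * (ρ * b ^ k * muAb y Y W a b
        + ((l ^ (-(j + 2 * (b - a))) * (1 + l) ^ (K + b)) ^ 2 / D0 * b ^ k + (b - j) ^ k) *
          ∑ s ∈ S, mu y W s) := by
  have hb : 0 ≤ b := (Nat.cast_nonneg j).trans hj
  have h1 := sum_le_sum fun s hs => DelB_point Y W hW hK0 hK hρ hρ0 hk hj hab hl0 hl1 hD0 hθ1 hθ2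
    (hS s hs).1 (hS s hs).2.1 (hS s hs).2.2
  simp only [sum_add_distrib, ← mul_sum, sum_sub_distrib] at h1
  have hsub : S ⊆ SS y Y := fun s hs => (hS s hs).1
  have h2 : ∑ s ∈ S, ∑ w ∈ W.filter (fun w => w ∣ s ∧ ¬ Nor a b (s / w)), nu y (s / w) / w ≤
      muAb y Y W a b := sum_le_sum_of_subset_of_nonneg hsub fun _ _ _ =>
    sum_nonneg fun _ _ => div_nonneg (nu_nonneg _ _) (Nat.cast_nonneg _)
  have h3 := (mul_le_mul_of_nonneg_left (sum_le_sum_of_subset_of_nonneg hsub fun _ _ _ =>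
    sum_nonneg fun _ _ => mul_nonneg (div_nonneg (nu_nonneg _ _) (Nat.cast_nonneg _))
      (Nat.cast_nonneg _)) (Nat.cast_nonneg _)).trans (mecke Y W hW k _ (filter_subset
        (fun s => θ1 * D0 ≤ DD W s ∧ (DD W s : ℝ) ≤ θ2 * D1) (SS y Y)))
  have h4 := mul_le_mul_of_nonneg_left h2 (pow_nonneg (sub_nonneg.2 hk) k)
  have h5 := mul_le_mul_of_nonneg_left h2 (by positivity : 0 ≤ θ2⁻¹ * (ρ * b ^ k))
  linarith

end Vale.Agent.P031
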