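import Vale.Agent.P031.Par
import Vale.Agent.P031.TVb

namespace Vale.Agent.P031

open Finset Real Filter

theorem mb_omS_le {y : ℝ} (hy : 2 ≤ y) {p : ℕ} (hp : p.Prime) (h2 : p ≠ 2) (S : Finset ℕ)
    (hS : ∀ q ∈ S, q.Prime) : omS S (dd y p) ≤ om (p - 1) := by
  have h0 : p - 1 ≠ 0 := by have := hp.two_le; omega
  refine card_le_card fun q hq => ?_
  have h := mem_filter.1 hq
  refine Nat.mem_primeFactors.2 ⟨hS q h.1, h.2.trans (dvd_trans ?_ (sm_dvd y h0)), h0⟩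
  rw [← two_mul_dd hy hp h2]
  exact dvd_mul_left _ _

theorem mb_block : ∃ (c : ℝ) (j1 : ℕ), 0 ≤ c ∧ ∀ j : ℕ, j1 ≤ j → ∀ K : ℝ, ∀ T : Finset ℕ,
    (∀ p ∈ T, p.Prime ∧ (om (p - 1) : ℝ) ≤ K ∧ exp (2 ^ j) < p ∧ (p : ℝ) ≤ exp (2 ^ (j + 1))) →
    ∑ p ∈ T, (1 : ℝ) / p ≤ c * exp (K * log 2) * exp (-(log 2 / 4)) ^ j + (1 / 2) ^ j := by
  classical
  obtain ⟨C, hC⟩ := mertens
  have e0 : ∀ᶠ t : ℝ in atTop, _ := tendsto_exp_atTop.eventually (tv_rec 1)
  have e1 := ev_log_pow 1 3 (κ := 1) (b := 1 / 2) one_pos (by norm_num)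
  have e2 : ∀ᶠ t : ℝ in atTop, 7 ≤ √t := tendsto_sqrt_atTop.eventually_ge_atTop _
  have e3 := (tendsto_pow_atTop_atTop_of_one_lt (one_lt_two (α := ℝ))).eventually
    (e0.and (e1.and (e2.and (eventually_gt_atTop 1))))
  obtain ⟨j1, hj1⟩ := eventually_atTop.1 e3
  refine ⟨8 * exp (C / 2), j1, by positivity, fun j hj K T hT => ?_⟩
  obtain ⟨h0, h1, h2, h3⟩ := hj1 j hj
  set t : ℝ := 2 ^ j with ht
  rw [one_mul, one_mul, ← sqrt_eq_rpow] at h1
  have ht0 : 0 < t := by linarith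
  have hlt : 0 < log t := log_pos h3
  have hy : 8 ≤ exp (√t) := by linarith [add_one_le_exp (√t)]
  have hne : ∀ p ∈ T, p ≠ 2 := by
    rintro p hp rfl
    have := (hT 2 hp).2.2.1
    have h4 := add_one_le_exp t
    push_cast at this
    linarith
  have hsm : ∀ d ∈ T.image (dd (exp (√t))), Smooth (exp (√t)) d := fun d hd => by
    obtain ⟨p, hp, rfl⟩ := mem_image.1 hd
    exact dd_smooth (by linarith) (hT p hp).1 (hne p hp)
  have h4 := (h0 (exp (2 ^ (j + 1))) (exp (√t))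
    (exp_le_exp.2 (pow_le_pow_right₀ one_le_two (Nat.le_succ j))) hy (by
      rw [log_exp, log_exp, le_div_iff₀ (by positivity)]
      calc √t * log t ^ 3 ≤ √t * √t := mul_le_mul_of_nonneg_left h1 (sqrt_nonneg t)
        _ = t := mul_self_sqrt ht0.le)
    _ hsm (fun _ => 1) fun _ => ⟨zero_le_one, le_rfl⟩).2
  simp only [log_exp, mul_one, pow_one] at h4
  have h5 : log ((2 : ℝ) ^ (j + 1)) - log t + 1 ≤ 2 := by
    rw [pow_succ, ← ht, log_mul ht0.ne' two_ne_zero]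
    linarith [log_two_lt_d9]
  have h6 := nu_low (y := exp (√t)) (by linarith) (PP (exp (√t))) subset_rfl (l := 1 / 2)
    (by norm_num) (by norm_num) _ hsm
  have h7 : ∑ d ∈ T.image (dd (exp (√t))), nu (exp (√t)) d ≤ exp (K * log 2) *
      ∑ d ∈ T.image (dd (exp (√t))), nu (exp (√t)) d * (1 / 2) ^ omS (PP (exp (√t))) d := by
    rw [mul_sum]
    refine sum_le_sum fun d hd => ?_
    obtain ⟨p, hp, rfl⟩ := mem_image.1 hd
    have a1 : (omS (PP (exp (√t))) (dd (exp (√t)) p) : ℝ) ≤ om (p - 1) := by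
      exact_mod_cast mb_omS_le (by linarith) (hT p hp).1 (hne p hp) _ fun q hq => (mem_PP.1 hq).1
    set n := omS (PP (exp (√t))) (dd (exp (√t)) p)
    have a2 : (2 : ℝ) ^ n ≤ exp (K * log 2) := by
      rw [← exp_log (x := (2 : ℝ) ^ n) (by positivity), log_pow]
      exact exp_le_exp.2 (mul_le_mul_of_nonneg_right (a1.trans (hT p hp).2.1)
        (log_nonneg one_le_two))
    have a3 : 1 ≤ exp (K * log 2) * (1 / 2) ^ n := by
      rw [one_div_pow, mul_one_div, le_div_iff₀ (by positivity), one_mul]; exact a2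
    have a4 := nu_nonneg (exp (√t)) (dd (exp (√t)) p)
    nlinarith
  have h8 := (abs_le.1 (hC (exp (√t)) (by linarith))).1
  rw [log_exp, log_sqrt ht0.le, ht, log_pow] at h8
  have h9 : exp (-((1 - 1 / 2) * rs (PP (exp (√t))))) ≤ exp (C / 2) * exp (-(log 2 / 4)) ^ j := by
    rw [← exp_nat_mul, ← exp_add]
    exact exp_le_exp.2 (by rw [ht]; linarith)
  have h10 : ∑ p ∈ T, (1 : ℝ) / p ≤ ∑ p ∈ (PP (exp (2 ^ (j + 1)))).filter
      (fun p : ℕ => exp t < p ∧ dd (exp (√t)) p ∈ T.image (dd (exp (√t)))), (1 : ℝ) / p :=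
    sum_le_sum_of_subset_of_nonneg (fun p hp => mem_filter.2 ⟨mem_PP.2 ⟨(hT p hp).1,
      (hT p hp).2.2.2⟩, (hT p hp).2.2.1, mem_image_of_mem _ hp⟩) fun _ _ _ => by positivity
  have h11 : 0 ≤ ∑ d ∈ T.image (dd (exp (√t))), nu (exp (√t)) d :=
    sum_nonneg fun _ _ => nu_nonneg _ _
  have h12 := h7.trans (mul_le_mul_of_nonneg_left (h6.trans h9) (exp_pos _).le)
  have h13 : 1 / t = (1 / 2) ^ j := by rw [ht, one_div_pow]
  nlinarith

/-- few primes have a shifted value with few prime factors -/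
theorem bad_primes : ∃ C : ℝ, ∀ K : ℝ, 1 ≤ K → ∀ T : Finset ℕ,
    (∀ p ∈ T, p.Prime ∧ (om (p - 1) : ℝ) ≤ K) → ∑ p ∈ T, (1 : ℝ) / p ≤ C * K := by
  obtain ⟨C, hC⟩ := mertens
  obtain ⟨c, j1, hc, hb⟩ := mb_block
  set r := exp (-(log 2 / 4)) with hr
  have hl2 : 0 < log 2 := log_pos one_lt_two
  have r0 : 0 ≤ r := (exp_pos _).le
  have r1 : r < 1 := exp_lt_one_iff.2 (by linarith)
  have hci : 0 ≤ c * (1 - r)⁻¹ := mul_nonneg hc (inv_nonneg.2 (by linarith))
  refine ⟨j1 + 5 + |C| + c * (1 - r)⁻¹ + 2, fun K hK T hT => ?_⟩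
  set j0 := j1 + ⌈4 * K⌉₊ with hj0
  have key : ∀ n : ℕ, ∑ p ∈ T.filter (fun p : ℕ => (p : ℝ) ≤ exp (2 ^ (j0 + n))), (1 : ℝ) / p ≤
      rs (PP (exp (2 ^ j0))) +
        ∑ i ∈ range n, (c * exp (K * log 2) * r ^ (j0 + i) + (1 / 2) ^ (j0 + i)) := by
    intro n
    induction n with
    | zero =>
      rw [sum_range_zero, add_zero (rs _), Nat.add_zero]
      exact sum_le_sum_of_subset_of_nonneg (fun p hp => mem_PP.2
        ⟨(hT p (mem_filter.1 hp).1).1, (mem_filter.1 hp).2⟩) fun _ _ _ => by positivity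
    | succ n ih =>
      rw [sum_range_succ, ← sum_filter_add_sum_filter_not _
        (fun p : ℕ => (p : ℝ) ≤ exp (2 ^ (j0 + n)))]
      have a1 := hb (j0 + n) (by omega) K ((T.filter
        (fun p : ℕ => (p : ℝ) ≤ exp (2 ^ (j0 + (n + 1))))).filter
        fun p : ℕ => ¬ (p : ℝ) ≤ exp (2 ^ (j0 + n))) fun p hp => by
          have h1 := mem_filter.1 hp
          have h2 := mem_filter.1 h1.1
          exact ⟨(hT p h2.1).1, (hT p h2.1).2, not_le.1 h1.2, h2.2⟩
      have a2 : ∑ p ∈ (T.filter (fun p : ℕ => (p : ℝ) ≤ exp (2 ^ (j0 + (n + 1))))).filter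
          (fun p : ℕ => (p : ℝ) ≤ exp (2 ^ (j0 + n))), (1 : ℝ) / p ≤
          ∑ p ∈ T.filter (fun p : ℕ => (p : ℝ) ≤ exp (2 ^ (j0 + n))), (1 : ℝ) / p :=
        sum_le_sum_of_subset_of_nonneg (fun p hp => mem_filter.2
          ⟨(mem_filter.1 (mem_filter.1 hp).1).1, (mem_filter.1 hp).2⟩) fun _ _ _ => by positivity
      linarith
  have k1 := key (T.sup id)
  rw [filter_true_of_mem fun p hp => by
    have a1 : p ≤ T.sup id := le_sup (f := id) hp
    have a2 : p < 2 ^ (j0 + T.sup id) :=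
      Nat.lt_two_pow_self.trans_le (Nat.pow_le_pow_right two_pos (by omega))
    have a3 : (p : ℝ) < 2 ^ (j0 + T.sup id) := by exact_mod_cast a2
    linarith [add_one_le_exp ((2 : ℝ) ^ (j0 + T.sup id))]] at k1
  have k2 := (abs_le.1 (hC (exp (2 ^ j0)) (by
    linarith [add_one_le_exp ((2 : ℝ) ^ j0), one_le_pow₀ (one_le_two (α := ℝ)) (n := j0)]))).2
  rw [log_exp, log_pow] at k2
  have k3 : (j0 : ℝ) ≤ j1 + 4 * K + 1 := by
    rw [hj0]; push_cast
    linarith [Nat.ceil_lt_add_one (a := 4 * K) (by linarith)]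
  have k4 : 4 * K ≤ j0 := by
    rw [hj0]; push_cast
    linarith [Nat.le_ceil (4 * K), Nat.cast_nonneg (α := ℝ) j1]
  have k5 : exp (K * log 2) * r ^ j0 ≤ 1 := by
    rw [hr, ← exp_nat_mul, ← exp_add]
    exact exp_le_one_iff.2 (by nlinarith)
  have k6 : ∑ i ∈ range (T.sup id), (c * exp (K * log 2) * r ^ (j0 + i) + (1 / 2) ^ (j0 + i))
      ≤ c * (1 - r)⁻¹ + 2 := by
    rw [sum_add_distrib]
    refine add_le_add ?_ ?_
    · refine le_trans ?_ (mul_le_mul_of_nonneg_left (eul_geom r0 r1 (T.sup id)) hc)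
      rw [mul_sum]
      refine sum_le_sum fun i _ => ?_
      rw [pow_add]
      have : 0 ≤ c * r ^ i := by positivity
      nlinarith
    · refine le_trans (sum_le_sum fun i _ => ?_)
        ((eul_geom (u := 1 / 2) (by norm_num) (by norm_num) (T.sup id)).trans (by norm_num))
      exact pow_le_pow_of_le_one (by norm_num) (by norm_num) (by omega)
  have k7 : (j0 : ℝ) * log 2 ≤ j0 :=
    mul_le_of_le_one_right (Nat.cast_nonneg _) (by linarith [log_two_lt_d9])
  have k8 : 0 ≤ (j1 + 1 + |C| + c * (1 - r)⁻¹ + 2) * (K - 1) :=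
    mul_nonneg (by positivity) (by linarith)
  nlinarith [le_abs_self C]

theorem mb_tot (S : Finset ℕ) (hS : ∀ q ∈ S, q.Prime) (m : ℕ → ℝ) (hm : ∀ q, 0 ≤ m q)
    (T : Finset ℕ) (hT : ∀ d ∈ T, Over S d) :
    ∑ d ∈ T, (∏ q ∈ d.primeFactors, m q) / Nat.totient d ≤ exp (∑ q ∈ S, 4 * m q / q) := by
  have h1 := euler_le S hS
    (fun q j => if j = 0 then 1 else m q / ((q : ℝ) ^ (j - 1) * ((q - 1 : ℕ) : ℝ)))
    (fun q j => by have := hm q; split_ifs <;> positivity)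
    (fun q => exp (4 * m q / q)) (fun q hq J => ?_) T hT
  · rw [exp_sum]
    refine le_trans (le_of_eq (sum_congr rfl fun d hd => ?_)) h1
    rw [← prod_subset (hT d hd).subset fun q _ hq => if_pos (by
      rwa [← Nat.support_factorization, Finsupp.notMem_support_iff] at hq),
      Nat.totient_eq_prod_factorization (hT d hd).1, Finsupp.prod,
      Nat.support_factorization, Nat.cast_prod, ← prod_div_distrib]
    refine prod_congr rfl fun q hq => ?_
    rw [if_neg (by rwa [← Nat.support_factorization, Finsupp.mem_support_iff] at hq)]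
    push_cast; rfl
  · have q2 : (2 : ℝ) ≤ q := by exact_mod_cast (hS q hq).two_le
    have q0 : (0 : ℝ) < q := by linarith
    have q1 : (0 : ℝ) < q - 1 := by linarith
    have hmq := hm q
    refine le_trans ?_ (Real.add_one_le_exp _)
    rcases J with _ | J
    · rw [sum_range_zero]; positivity
    rw [sum_range_succ', if_pos rfl, Nat.cast_sub (hS q hq).one_le, Nat.cast_one]
    have e1 : ∑ j ∈ range J, (if j + 1 = 0 then 1 else m q / ((q : ℝ) ^ (j + 1 - 1) * (q - 1))) =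
        m q / (q - 1) * ∑ j ∈ range J, (1 / (q : ℝ)) ^ j := by
      rw [mul_sum]
      refine sum_congr rfl fun j _ => ?_
      rw [if_neg (Nat.succ_ne_zero j), Nat.add_sub_cancel, one_div_pow]
      field_simp
    have e2 := eul_geom (u := 1 / (q : ℝ)) (by positivity) ((div_lt_one q0).2 (by linarith)) J
    have e3 : 1 / ((q : ℝ) - 1) * (1 - 1 / (q : ℝ))⁻¹ ≤ 4 / q := by
      have a1 : 1 / ((q : ℝ) - 1) * (1 - 1 / (q : ℝ))⁻¹ = q / (q - 1) ^ 2 := by field_simp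
      rw [a1, div_le_div_iff₀ (by positivity) (by positivity)]
      nlinarith [mul_nonneg (sub_nonneg.2 q2) (sub_nonneg.2 q2)]
    have e4 := mul_le_mul_of_nonneg_left e2 (div_nonneg hmq q1.le)
    have e5 := mul_le_mul_of_nonneg_left e3 hmq
    have e6 : m q / (q - 1) * (1 - 1 / (q : ℝ))⁻¹ = m q * (1 / ((q : ℝ) - 1) * (1 - 1 / (q : ℝ))⁻¹) := by
      ring
    have e7 : 4 * m q / q = m q * (4 / q) := by ring
    rw [e1]
    linarith

theorem mb_Om_mul {a b : ℕ} (ha : a ≠ 0) (hb : b ≠ 0) : Om (a * b) = Om a + Om b :=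
  ArithmeticFunction.cardFactors_mul ha hb

theorem mb_om_le_Om {a : ℕ} (ha : a ≠ 0) : om a ≤ Om a := by
  have h : Over a.primeFactors a := ⟨ha, fun q hq hd => Nat.mem_primeFactors.2 ⟨hq, hd, ha⟩⟩
  rw [h.Om_eq, om, card_eq_sum_ones]
  exact sum_le_sum fun q hq => ((Nat.prime_of_mem_primeFactors hq).dvd_iff_one_le_factorization
    ha).1 (Nat.dvd_of_mem_primeFactors hq)

theorem mb_sum_om : ∀ m : ℕ, m ≠ 0 →
    ∑ p ∈ m.primeFactors, om (p - 1) ≤ Om (Nat.totient m) := by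
  intro m
  induction m using induction_on_primes with
  | zero => exact fun h => absurd rfl h
  | one => simp
  | prime_mul p a hp ih =>
    intro h
    have ha : a ≠ 0 := right_ne_zero_of_mul h
    have ha' : Nat.totient a ≠ 0 := (Nat.totient_pos.2 (Nat.pos_of_ne_zero ha)).ne'
    have h1 : p - 1 ≠ 0 := by have := hp.two_le; omega
    rw [Nat.primeFactors_mul hp.ne_zero ha, hp.primeFactors]
    by_cases hd : p ∣ a
    · rw [Nat.totient_mul_of_prime_of_dvd hp hd, mb_Om_mul hp.ne_zero ha', union_eq_right.2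
        (singleton_subset_iff.2 (Nat.mem_primeFactors.2 ⟨hp, hd, ha⟩))]
      exact (ih ha).trans (Nat.le_add_left _ _)
    · rw [Nat.totient_mul_of_prime_of_not_dvd hp hd, mb_Om_mul h1 ha', singleton_union,
        sum_insert fun h => hd (Nat.dvd_of_mem_primeFactors h)]
      exact Nat.add_le_add (mb_om_le_Om h1) (ih ha)

theorem mb_large {x C : ℝ} (hC : ∀ y : ℝ, 2 ≤ y → |rs (PP y) - log (log y)| ≤ C) (hx : Par x)
    (hL : 4 * |C| + 30 ≤ LL x) :
    ∑ v ∈ (Vs (x ^ 2)).filter (fun v => 5 * LL x < Om v), (1 : ℝ) / v ≤ 1 := by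
  have hx16 := hx.x16
  have h1 := sum_pow_Om_div_le (PP (x ^ 2)) (fun q hq => (mem_PP.1 hq).1) (l := 3 / 2)
    (by norm_num) (fun q hq => by
      have : (2 : ℝ) ≤ q := by exact_mod_cast (mem_PP.1 hq).1.two_le
      linarith) ((Vs (x ^ 2)).filter fun v => 5 * LL x < Om v) fun v hv => by
      obtain ⟨⟨n, hn, rfl⟩, h⟩ := mem_Vs.1 (mem_filter.1 hv).1
      have h0 := Nat.totient_pos.2 hn
      refine ⟨h0.ne', fun q hq hd => mem_PP.2 ⟨hq, le_trans ?_ h⟩⟩
      exact_mod_cast Nat.le_of_dvd h0 hd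
  have h2 := (abs_le.1 (hC (x ^ 2) (by nlinarith))).2
  have hl : 0 < log x := log_pos (by linarith)
  rw [log_pow, log_mul (by norm_num) hl.ne'] at h2
  have h3 : log ((2 : ℕ) : ℝ) ≤ 1 := by push_cast; linarith [log_two_lt_d9]
  have h4 : log (log x) = LL x := rfl
  have h5 : exp (2 / 5) ≤ 3 / 2 := by
    have := Real.exp_bound' (x := 2 / 5) (by norm_num) (by norm_num) (n := 3) (by norm_num)
    simp only [sum_range_succ, Nat.factorial] at this
    norm_num at this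
    linarith
  have h6 : exp (2 * LL x) * ∑ v ∈ (Vs (x ^ 2)).filter (fun v => 5 * LL x < Om v), (1 : ℝ) / v ≤
      ∑ v ∈ (Vs (x ^ 2)).filter (fun v => 5 * LL x < Om v), (3 / 2 : ℝ) ^ Om v / v := by
    rw [mul_sum]
    refine sum_le_sum fun v hv => ?_
    rw [mul_one_div]
    refine div_le_div_of_nonneg_right ?_ (Nat.cast_nonneg _)
    refine le_trans ?_ (pow_le_pow_left₀ (exp_pos _).le h5 _)
    rw [← exp_nat_mul]
    exact exp_le_exp.2 (by linarith [(mem_filter.1 hv).2])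
  have h7 : exp (3 / 2 * rs (PP (x ^ 2)) + 4 * (3 / 2) ^ 2) ≤ exp (2 * LL x) * 1 := by
    rw [mul_one]
    exact exp_le_exp.2 (by linarith [le_abs_self C, abs_nonneg C])
  exact le_of_mul_le_mul_left (h6.trans (h1.trans h7)) (exp_pos _)

theorem mb_small {x C C' : ℝ} (hC : ∀ y : ℝ, 2 ≤ y → |rs (PP y) - log (log y)| ≤ C)
    (hC' : ∀ K : ℝ, 1 ≤ K → ∀ T : Finset ℕ,
      (∀ p ∈ T, p.Prime ∧ (om (p - 1) : ℝ) ≤ K) → ∑ p ∈ T, (1 : ℝ) / p ≤ C' * K) (hx : Par x)
    (hL : 4 * |C| + 30 ≤ LL x) :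
    ∑ v ∈ (Vs (x ^ 2)).filter (fun v => ¬ 5 * LL x < Om v), (1 : ℝ) / v ≤
      exp (5 / 2 * √(LL x) * log (LL x) + (4 * C' + 8) * √(LL x)) := by
  classical
  have hx16 := hx.x16
  have hL1 := hx.L100
  set K := √(LL x) with hK
  have K1 : 1 ≤ K := one_le_sqrt.2 (by linarith)
  have KK : K * K = LL x := mul_self_sqrt (by linarith)
  have K0 : 0 < K := by linarith
  set T := (Vs (x ^ 2)).filter (fun v => ¬ 5 * LL x < Om v) with hT
  have hch : ∀ v : ℕ, ∃ n : ℕ, v ∈ T → 1 ≤ n ∧ Nat.totient n = v := fun v => by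
    by_cases h : v ∈ T
    · obtain ⟨n, hn⟩ := (mem_Vs.1 (mem_filter.1 h).1).1
      exact ⟨n, fun _ => hn⟩
    · exact ⟨0, fun h' => absurd h' h⟩
  choose g hg using hch
  set wt : ℕ → ℝ := fun q => if (om (q - 1) : ℝ) ≤ K then 1 else 1 / K with hwt
  have wt0 : ∀ q, 0 ≤ wt q := fun q => by simp only [hwt]; split_ifs <;> positivity
  have h1 := mb_tot (PP (x ^ 2 + 1)) (fun q hq => (mem_PP.1 hq).1) wt wt0 (T.image g)
    fun d hd => by
      obtain ⟨v, hv, rfl⟩ := mem_image.1 hd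
      obtain ⟨a1, a2⟩ := hg v hv
      refine ⟨by omega, fun q hq hd => mem_PP.2 ⟨hq, ?_⟩⟩
      have a3 : q - 1 ≤ v := by
        rw [← Nat.totient_prime hq, ← a2]
        exact Nat.le_of_dvd (Nat.totient_pos.2 a1) (Nat.totient_dvd_of_dvd hd)
      have a4 : (q : ℝ) ≤ v + 1 := by exact_mod_cast (by omega : q ≤ v + 1)
      linarith [(mem_Vs.1 (mem_filter.1 hv).1).2]
  rw [sum_image fun a ha b hb h => by
    rw [← (hg a (mem_coe.1 ha)).2, ← (hg b (mem_coe.1 hb)).2, h]] at h1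
  have h2 : ∑ v ∈ T, (1 : ℝ) / v ≤ exp (5 / 2 * K * log (LL x)) *
      ∑ v ∈ T, (∏ q ∈ (g v).primeFactors, wt q) / Nat.totient (g v) := by
    rw [mul_sum]
    refine sum_le_sum fun v hv => ?_
    obtain ⟨a1, a2⟩ := hg v hv
    rw [a2, ← mul_div_assoc]
    refine div_le_div_of_nonneg_right ?_ (Nat.cast_nonneg _)
    rw [hwt, prod_ite, prod_const_one, one_mul, prod_const]
    set G := (g v).primeFactors.filter fun q => ¬ (om (q - 1) : ℝ) ≤ K
    have b1 : (G.card : ℝ) * K ≤ 5 * LL x := by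
      calc (G.card : ℝ) * K = ∑ _q ∈ G, K := by rw [sum_const, nsmul_eq_mul]
        _ ≤ ∑ q ∈ G, (om (q - 1) : ℝ) := sum_le_sum fun q hq => (not_le.1 (mem_filter.1 hq).2).le
        _ ≤ ∑ q ∈ (g v).primeFactors, (om (q - 1) : ℝ) :=
          sum_le_sum_of_subset_of_nonneg (filter_subset _ _) fun _ _ _ => Nat.cast_nonneg _
        _ ≤ Om v := by
          have := mb_sum_om (g v) (by omega)
          rw [a2] at this
          exact_mod_cast this
        _ ≤ _ := not_lt.1 (mem_filter.1 hv).2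
    have b2 : (G.card : ℝ) ≤ 5 * K := le_of_mul_le_mul_right (by linarith) K0
    have b3 : log (LL x) = 2 * log K := by rw [← KK, log_mul K0.ne' K0.ne']; ring
    rw [one_div_pow, mul_one_div, le_div_iff₀ (by positivity), one_mul,
      ← exp_log (x := K ^ G.card) (by positivity), log_pow, b3]
    exact exp_le_exp.2 (by nlinarith [log_nonneg K1])
  have h3 : ∑ q ∈ PP (x ^ 2 + 1), 4 * wt q / q ≤ (4 * C' + 8) * K := by
    have b1 := hC' K K1 ((PP (x ^ 2 + 1)).filter fun q => (om (q - 1) : ℝ) ≤ K) fun p hp =>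
      ⟨(mem_PP.1 (mem_filter.1 hp).1).1, (mem_filter.1 hp).2⟩
    have b2 := (abs_le.1 (hC (x ^ 2 + 1) (by nlinarith))).2
    have hl : 0 < log x := log_pos (by linarith)
    have b3 : log (log (x ^ 2 + 1)) ≤ 2 + LL x := by
      have c1 : log (x ^ 2 + 1) ≤ 3 * log x := by
        rw [show 3 * log x = log (x ^ 3) by rw [log_pow]; norm_num]
        exact log_le_log (by positivity) (by nlinarith)
      have c2 : log 3 ≤ 2 := by linarith [log_le_sub_one_of_pos (x := 3) (by norm_num)]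
      calc _ ≤ log (3 * log x) := log_le_log (log_pos (by nlinarith)) c1
        _ = log 3 + LL x := log_mul (by norm_num) hl.ne'
        _ ≤ _ := by linarith
    have b4 : ∑ q ∈ PP (x ^ 2 + 1), 4 * wt q / q ≤
        4 * ∑ q ∈ (PP (x ^ 2 + 1)).filter (fun q => (om (q - 1) : ℝ) ≤ K), (1 : ℝ) / q
          + 4 / K * rs (PP (x ^ 2 + 1)) := by
      rw [sum_filter, rs, mul_sum, mul_sum, ← sum_add_distrib]
      refine sum_le_sum fun q _ => ?_
      simp only [hwt]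
      have : 0 ≤ 4 / K * (1 / (q : ℝ)) := by positivity
      split_ifs
      · have e : 4 * 1 / (q : ℝ) = 4 * (1 / q) := by ring
        linarith
      · exact le_of_eq (by ring)
    have b5 : 4 / K * rs (PP (x ^ 2 + 1)) ≤ 8 * K := by
      rw [div_mul_eq_mul_div, div_le_iff₀ K0]
      linarith [le_abs_self C, abs_nonneg C]
    linarith
  refine h2.trans ?_
  rw [exp_add]
  exact mul_le_mul_of_nonneg_left (h1.trans (exp_le_exp.2 h3)) (exp_pos _).le

/-- a quantitative form of Erdős' bound -/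
theorem MM_le : ∀ᶠ x in atTop, MM x ≤ exp (LL x ^ (3 / 4 : ℝ)) := by
  obtain ⟨C, hC⟩ := mertens
  obtain ⟨C', hC'⟩ := bad_primes
  have e1 := ev_log_pow (5 / 2) 1 (κ := 1 / 3) (b := 1 / 4) (by norm_num) (by norm_num)
  have e2 := ev_rpow (4 * C' + 8) (κ := 1 / 3) (a := 1 / 2) (b := 3 / 4) (by norm_num) (by norm_num)
  have e3 : ∀ᶠ L : ℝ in atTop, 3 ≤ L ^ (3 / 4 : ℝ) :=
    (tendsto_rpow_atTop (by norm_num)).eventually_ge_atTop _
  filter_upwards [ev_par, ev_LL (4 * |C| + 30), tendsto_LL.eventually e1, tendsto_LL.eventually e2,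
    tendsto_LL.eventually e3] with x hx hL h1 h2 h3
  have a1 := mb_large hC hx hL
  have a2 := mb_small hC hC' hx hL
  have hL0 : 0 < LL x := by linarith [hx.L100]
  rw [← sqrt_eq_rpow] at h2
  rw [pow_one] at h1
  have a3 : √(LL x) * LL x ^ (1 / 4 : ℝ) = LL x ^ (3 / 4 : ℝ) := by
    rw [sqrt_eq_rpow, ← rpow_add hL0]; norm_num
  have a4 := mul_le_mul_of_nonneg_left h1 (sqrt_nonneg (LL x))
  have a5 : exp (5 / 2 * √(LL x) * log (LL x) + (4 * C' + 8) * √(LL x)) ≤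
      exp (LL x ^ (3 / 4 : ℝ) - 1) := exp_le_exp.2 (by nlinarith)
  have a6 : 1 ≤ exp (LL x ^ (3 / 4 : ℝ) - 1) := one_le_exp (by linarith)
  have a7 : exp (LL x ^ (3 / 4 : ℝ)) = exp (LL x ^ (3 / 4 : ℝ) - 1) * exp 1 := by
    rw [← exp_add, sub_add_cancel]
  have a8 : (2 : ℝ) ≤ exp 1 := by linarith [add_one_le_exp (1 : ℝ)]
  rw [MM, ← sum_filter_add_sum_filter_not _ (fun v => 5 * LL x < Om v)]
  nlinarith

end Vale.Agent.P031
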