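import Vale.Agent.P031.DelB
import Vale.Agent.P031.MB

namespace Vale.Agent.P031

open Finset Real Filter

theorem DelC_alg {L Λ δ D0 μ τ ab : ℝ} {k j : ℕ} (hL : 100 ≤ L) (hΛ : 99 / 100 * L ≤ Λ)
    (hΛ' : Λ ≤ L) (hδ : 0 < δ) (hδ' : δ ≤ 1 / 10000) (hk : 55 * (δ * k) ≤ 1) (hk' : k ≤ δ * Λ)
    (h3 : 3 ≤ δ * Λ) (hj : j ≤ L / 1000) (hj' : L / 1000 ≤ j + 1) (hD : exp (L / 2) ≤ D0)
    (hμ : 0 ≤ μ) (hτ : 0 ≤ τ) (hab : 0 ≤ ab)
    (H : ((1 - δ) * Λ - k) ^ k * (μ - ab) ≤ (Λ + 3) ^ k * τ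
      + L ^ 4 * (10 * L ^ 4 * 7 ^ k)⁻¹ * (5 * L + (1 + δ) * Λ) ^ k * μ
      + (20 * exp (-(k / 2000 : ℝ)))⁻¹ * (L ^ 4 * ((1 + δ) * Λ) ^ k * ab
        + (((1 / 100 : ℝ) ^ (-(j + 2 * ((1 + δ) * Λ - (1 - δ) * Λ))) *
          (1 + 1 / 100) ^ (5 * L + (1 + δ) * Λ)) ^ 2 / D0 * ((1 + δ) * Λ) ^ k +
          ((1 + δ) * Λ - j) ^ k) * μ)) : μ ≤ 2 * τ + 4 * (exp k * L ^ 4) * ab := by
  have hδΛ : δ * Λ ≤ L / 10000 := by nlinarith
  set A := (1 - δ) * Λ - k with hA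
  set b := (1 + δ) * Λ with hb
  have hA1 : Λ - 2 * (δ * Λ) ≤ A := by rw [hA]; linarith
  have hb1 : b = Λ + δ * Λ := by rw [hb]; ring
  have hA0 : 0 < A := by linarith
  have hb0 : 0 ≤ b := by linarith
  have hD0 : 0 < D0 := (exp_pos _).trans_le hD
  have hAk : 0 < A ^ k := by positivity
  have e1 : b ^ k ≤ 11 / 10 * A ^ k := by
    have h1 : b ≤ exp (5 * δ) * A := by
      refine le_trans ?_ (mul_le_mul_of_nonneg_right (add_one_le_exp _) hA0.le)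
      nlinarith
    refine (pow_le_pow_left₀ (by linarith) h1 k).trans ?_
    rw [mul_pow, ← exp_nat_mul]
    refine mul_le_mul_of_nonneg_right ?_ hAk.le
    have h2 := add_one_le_exp (-(k * (5 * δ)))
    have h4 : exp (k * (5 * δ)) * exp (-(k * (5 * δ))) = 1 := by rw [← exp_add]; simp
    nlinarith [exp_pos (k * (5 * δ))]
  have e2 : (Λ + 3) ^ k ≤ 11 / 10 * A ^ k :=
    (pow_le_pow_left₀ (by linarith) (by linarith) k).trans e1
  have e3 : L ^ 4 * (10 * L ^ 4 * 7 ^ k)⁻¹ * (5 * L + b) ^ k ≤ 1 / 10 * A ^ k := by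
    have h1 : (5 * L + b) ^ k ≤ 7 ^ k * A ^ k := by
      rw [← mul_pow]; exact pow_le_pow_left₀ (by linarith) (by linarith) k
    refine (mul_le_mul_of_nonneg_left h1 (by positivity)).trans_eq ?_
    field_simp
  have e4 : (20 * exp (-(k / 2000 : ℝ)))⁻¹ = exp (k / 2000) / 20 := by
    rw [exp_neg]; field_simp
  have e5 : exp (k / 2000) / 20 * (b - j) ^ k ≤ 1 / 20 * A ^ k := by
    have h1 : b - j ≤ exp (-(1 / 2000)) * A := by
      refine le_trans ?_ (mul_le_mul_of_nonneg_right (add_one_le_exp _) hA0.le)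
      linarith
    have h2 := pow_le_pow_left₀ (by linarith) h1 k
    rw [mul_pow, ← exp_nat_mul] at h2
    refine (mul_le_mul_of_nonneg_left h2 (by positivity)).trans_eq ?_
    have h4 : exp (k / 2000) * exp (k * -(1 / 2000)) = 1 := by
      rw [← exp_add, exp_eq_one_iff]; ring
    linear_combination A ^ k / 20 * h4
  set R := ((1 / 100 : ℝ) ^ (-(j + 2 * (b - (1 - δ) * Λ))) * (1 + 1 / 100) ^ (5 * L + b)) ^ 2
    with hR
  have e6 : exp (k / 2000) * (R / D0) ≤ 1 := by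
    have h1 : (1 / 100 : ℝ) ^ (-(j + 2 * (b - (1 - δ) * Λ))) ≤ exp (7 / 1000 * L) := by
      rw [rpow_def_of_pos (by norm_num), exp_le_exp, one_div, log_inv, neg_mul_neg]
      have h2 : log 100 ≤ 5 := by
        rw [log_le_iff_le_exp (by norm_num)]
        have h4 : exp 5 = exp 1 ^ 5 := by rw [← exp_nat_mul]; norm_num
        rw [h4]
        exact le_trans (by norm_num) (pow_le_pow_left₀ (by norm_num) exp_one_gt_d9.le 5)
      have h4 : j + 2 * (b - (1 - δ) * Λ) = j + 4 * (δ * Λ) := by rw [hb]; ring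
      rw [h4]
      have h5 := mul_le_mul_of_nonneg_right h2 (by positivity : (0 : ℝ) ≤ j + 4 * (δ * Λ))
      linarith
    have h2 : (1 + 1 / 100 : ℝ) ^ (5 * L + b) ≤ exp (7 / 100 * L) := by
      rw [rpow_def_of_pos (by norm_num), exp_le_exp]
      have h4 := log_le_sub_one_of_pos (by norm_num : (0 : ℝ) < 1 + 1 / 100)
      have h5 := mul_le_mul_of_nonneg_right h4 (by linarith : 0 ≤ 5 * L + b)
      linarith
    have h4 : R ≤ exp (2 * (7 / 1000 * L + 7 / 100 * L)) := by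
      rw [show (2 : ℝ) = (2 : ℕ) by norm_num, exp_nat_mul, exp_add]
      exact pow_le_pow_left₀ (by positivity) (mul_le_mul h1 h2 (by positivity) (by positivity)) 2
    rw [← mul_div_assoc, div_le_one hD0]
    refine (mul_le_mul_of_nonneg_left h4 (by positivity)).trans (le_trans ?_ hD)
    rw [← exp_add, exp_le_exp]
    linarith
  have e7 : exp (k / 2000) / 20 * (R / D0 * b ^ k) ≤ 1 / 18 * A ^ k := by
    have := mul_le_mul e6 e1 (by positivity) zero_le_one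
    linarith
  have e8 : exp (k / 2000) / 20 * (L ^ 4 * b ^ k) ≤ exp k * L ^ 4 * A ^ k := by
    have h1 : exp (k / 2000) ≤ exp k := exp_le_exp.2 (by linarith [Nat.cast_nonneg (α := ℝ) k])
    have h2 := mul_le_mul h1 (mul_le_mul_of_nonneg_left e1 (by positivity : 0 ≤ L ^ 4))
      (by positivity) (by positivity)
    have h4 : 0 ≤ exp k * L ^ 4 * A ^ k := by positivity
    linarith
  have e9 : 1 ≤ exp k * L ^ 4 :=
    one_le_mul_of_one_le_of_one_le (one_le_exp (Nat.cast_nonneg k)) (one_le_pow₀ (by linarith))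
  rw [e4] at H
  generalize L ^ 4 * (10 * L ^ 4 * 7 ^ k)⁻¹ * (5 * L + b) ^ k = X2 at H e3
  generalize L ^ 4 * b ^ k = X3 at H e8
  generalize R / D0 * b ^ k = X4 at H e7
  generalize (b - j) ^ k = X5 at H e5
  generalize exp (k / 2000) / 20 = E at H e5 e7 e8
  generalize A ^ k = P at H e2 e3 e5 e7 e8 hAk
  have f2 := mul_le_mul_of_nonneg_right e2 hτ
  have f3 := mul_le_mul_of_nonneg_right e3 hμ
  have f5 := mul_le_mul_of_nonneg_right e5 hμ
  have f7 := mul_le_mul_of_nonneg_right e7 hμ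
  have f8 := mul_le_mul_of_nonneg_right e8 hab
  have f9 := mul_le_mul_of_nonneg_right e9 (mul_nonneg hAk.le hab)
  have g1 := mul_nonneg hAk.le hμ
  have g2 := mul_nonneg hAk.le hτ
  have g3 := mul_nonneg hAk.le hab
  refine le_of_mul_le_mul_left ?_ hAk
  linarith

theorem DelC_ab {y Y δ : ℝ} (hy : 2 ≤ y) (h0 : 0 ≤ δ) (h1 : δ ≤ 1 / 2) (W : Finset ℕ) :
    muAb y Y W ((1 - δ) * rs (PP y)) ((1 + δ) * rs (PP y)) ≤
      (∑ w ∈ W, (1 : ℝ) / w) * (51 * exp (-(δ ^ 2 / 4 * rs (PP y)))) := by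
  set a := (1 - δ) * rs (PP y)
  set b := (1 + δ) * rs (PP y)
  let T := (SS y Y).filter fun d => ¬ Nor a b d
  have h2 : muAb y Y W a b ≤ ∑ w ∈ W, ∑ d ∈ T, 1 / (w : ℝ) * nu y d := by
    simp only [muAb, sum_sigma']
    refine DelA_sum_le _ _ (fun t => ⟨t.2, t.1 / t.2⟩) _ _ ?_ ?_ ?_ ?_
    · rintro ⟨s, w⟩ h ⟨s', w'⟩ h' e
      simp only [coe_sigma, Set.mem_sigma_iff, mem_coe, mem_filter] at h h'
      simp only [Sigma.mk.injEq, heq_eq_eq] at e
      obtain ⟨rfl, e1⟩ := e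
      rw [← Nat.div_mul_cancel h.2.2.1, ← Nat.div_mul_cancel h'.2.2.1, e1]
    · rintro ⟨s, w⟩ h
      simp only [mem_sigma, mem_filter, T] at h ⊢
      exact ⟨h.2.1, mem_SS.2 ⟨(mem_SS.1 h.1).1.of_dvd (Nat.div_dvd_of_dvd h.2.2.1),
        le_trans (Nat.cast_le.2 (Nat.div_le_self _ _)) (mem_SS.1 h.1).2⟩, h.2.2.2⟩
    · exact fun t _ => le_of_eq (by ring)
    · exact fun t _ => mul_nonneg (by positivity) (nu_nonneg _ _)
  simp only [← mul_sum, ← sum_mul] at h2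
  refine h2.trans (mul_le_mul_of_nonneg_left ?_ (by positivity))
  have h3 := nu_low_tail hy (PP y) Subset.rfl h0 h1 (T.filter fun d => (om d : ℝ) < a)
    fun d hd => by
      have h4 := (mem_SS.1 (mem_filter.1 (mem_filter.1 hd).1).1).1
      refine ⟨h4, le_trans (Nat.cast_le.2 (card_le_card fun q hq => ?_)) (mem_filter.1 hd).2.le⟩
      exact Nat.mem_primeFactors.2 ⟨(mem_PP.1 (mem_filter.1 hq).1).1, (mem_filter.1 hq).2, h4.1⟩
  have h4 := nu_up_tail hy h0 h1 (T.filter fun d => ¬ (om d : ℝ) < a) fun d hd => by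
    obtain ⟨h5, h6⟩ := mem_filter.1 hd
    obtain ⟨h7, h8⟩ := mem_filter.1 h5
    exact ⟨(mem_SS.1 h7).1, le_of_not_ge fun h => h8 ⟨not_lt.1 h6, h⟩⟩
  have h5 : exp (-(δ ^ 2 / 2 * rs (PP y))) ≤ exp (-(δ ^ 2 / 4 * rs (PP y))) := by
    have : 0 ≤ δ ^ 2 * rs (PP y) := mul_nonneg (sq_nonneg _) (sum_nonneg fun _ _ => by positivity)
    rw [exp_le_exp]; linarith
  rw [← sum_filter_add_sum_filter_not T fun d => (om d : ℝ) < a]
  linarith

theorem del_x : ∀ᶠ x in atTop, ∀ (k : ℕ) (D0 D1 : ℝ), (k : ℝ) ≤ LL x ^ (1 / 25 : ℝ) →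
    exp (LL x / 2) ≤ D0 → ∀ S : Finset ℕ,
    (∀ s ∈ S, s ∈ SS (yy x) (YY x) ∧ D0 ≤ DD (WW x) s ∧ (DD (WW x) s : ℝ) ≤ D1) →
    ∑ s ∈ S, mu (yy x) (WW x) s ≤ 2 * ∑ s ∈ (SS (yy x) (YY x)).filter
        (fun s => D0 / (10 * LL x ^ 4 * 7 ^ k) ≤ DD (WW x) s ∧
          (DD (WW x) s : ℝ) ≤ 20 * exp (-(k / 2000 : ℝ)) * D1), mu (yy x) (WW x) s
      + exp (-√(LL x)) := by
  filter_upwards [ev_par, MM_le,
    tendsto_LL.eventually (ev_rpow 10000 (a := -(1 / 10)) (b := 0) one_pos (by norm_num)),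
    tendsto_LL.eventually (ev_rpow 55 (a := -(1 / 10) + 1 / 25) (b := 0) one_pos (by norm_num)),
    tendsto_LL.eventually (ev_rpow 3 (κ := 99 / 100) (a := 1 / 25) (b := -(1 / 10) + 1)
      (by norm_num) (by norm_num)),
    tendsto_LL.eventually (ev_rpow 5 (κ := 6 / 25) (a := 3 / 4) (b := -(1 / 10) * 2 + 1)
      (by norm_num) (by norm_num)),
    tendsto_LL.eventually (ev_rpow 6 (a := 0) (b := 3 / 4) one_pos (by norm_num)),
    tendsto_LL.eventually (ev_log_pow 4 1 (b := 3 / 4) one_pos (by norm_num))]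
    with x hP hM n1 n2 n3 n4 n5 n6 k D0 D1 hk hD S hS
  have hL := hP.L100
  obtain ⟨hΛ, hΛ'⟩ := hP.rs_yy
  set L := LL x with hLdef
  have hL0 : 0 < L := by linarith
  rw [rpow_zero] at n1 n2 n5
  rw [rpow_add hL0] at n2 n3 n4
  rw [rpow_one] at n3 n4
  rw [rpow_mul hL0.le, rpow_two] at n4
  set δ := L ^ (-(1 / 10) : ℝ) with hδ
  have hδ0 : 0 < δ := rpow_pos_of_pos hL0 _
  have h1 : 1 ≤ L ^ (1 / 25 : ℝ) := one_le_rpow (by linarith) (by norm_num)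
  have h2 := mul_le_mul_of_nonneg_left hΛ hδ0.le
  have h3 := mul_le_mul_of_nonneg_left hk hδ0.le
  have hy : 2 ≤ yy x := by
    linarith [hP.z1_ge, hP.z1_zz, hP.zz_ZZ, hP.ZZ_z2, hP.z2_z3, hP.z3_y8, hP.y8_yy]
  have hY : YY x ≤ x := by
    have h4 : YY x + 2 ≤ (YY x + 2) ^ 20 :=
      le_self_pow₀ (by linarith [hP.yy_YY]) (by norm_num)
    linarith [hP.YY_x]
  have hD0 : 0 < D0 := (exp_pos _).trans_le hD
  have hj := Nat.floor_le (by positivity : 0 ≤ L / 1000)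
  have hδΛ : δ * rs (PP (yy x)) ≤ L / 10000 := by nlinarith
  have H := del (y := yy x) (YY x) (WW x) (fun w hw => (mem_WW.1 hw).1.1.1)
    (a := (1 - δ) * rs (PP (yy x))) (b := (1 + δ) * rs (PP (yy x))) (K := 5 * L) (ρ := L ^ 4)
    (D1 := D1) (θ1 := (10 * L ^ 4 * 7 ^ k)⁻¹) (θ2 := 20 * exp (-(k / 2000 : ℝ))) (l := 1 / 100)
    (j := ⌊L / 1000⌋₊) (k := k) (by positivity) (fun w hw => (mem_WW.1 hw).2.2)
    (fun d hd => hP.rho d (mem_SS.1 hd).1.1 ((mem_SS.1 hd).2.trans hY)) (by positivity)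
    (by linarith) (by linarith) (by linarith) (by norm_num) (by norm_num) hD0 (by positivity)
    (by positivity) S hS
  have hab : 0 ≤ muAb (yy x) (YY x) (WW x) ((1 - δ) * rs (PP (yy x)))
      ((1 + δ) * rs (PP (yy x))) := sum_nonneg fun _ _ =>
    sum_nonneg fun _ _ => div_nonneg (nu_nonneg _ _) (Nat.cast_nonneg _)
  have H' := DelC_alg hL hΛ hΛ' hδ0 (by linarith) (by linarith) (by linarith) (by linarith) hj
    (Nat.lt_floor_add_one _).le hD (sum_nonneg fun _ _ => mu_nonneg _ _ _)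
    (sum_nonneg fun _ _ => mu_nonneg _ _ _) hab H
  simp only [inv_mul_eq_div] at H'
  refine H'.trans (add_le_add_right ?_ _)
  have h4 : ∑ w ∈ WW x, (1 : ℝ) / w ≤ MM x := by
    refine sum_le_sum_of_subset_of_nonneg (fun w hw => ?_) fun _ _ _ => by positivity
    obtain ⟨⟨-, h5⟩, ⟨m, h6, h7⟩, -⟩ := mem_WW.1 hw
    exact mem_Vs.2 ⟨⟨m, Nat.one_le_iff_ne_zero.2 h6.1, h7⟩, by nlinarith [hP.x16]⟩
  have h5 := (DelC_ab (Y := YY x) hy hδ0.le (by linarith) (WW x)).trans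
    (mul_le_mul_of_nonneg_right (h4.trans hM) (by positivity))
  refine (mul_le_mul_of_nonneg_left h5 (by positivity)).trans ?_
  have h6 : L ^ 4 = exp (4 * log L) := by
    rw [show (4 : ℝ) = (4 : ℕ) by norm_num, exp_nat_mul, exp_log hL0]
  have h7 : (204 : ℝ) ≤ exp 6 := by
    have h8 : exp 6 = exp 1 ^ 6 := by rw [← exp_nat_mul]; norm_num
    rw [h8]
    exact le_trans (by norm_num) (pow_le_pow_left₀ (by norm_num) exp_one_gt_d9.le 6)
  have h8 : L ^ (1 / 25 : ℝ) ≤ L ^ (3 / 4 : ℝ) :=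
    rpow_le_rpow_of_exponent_le (by linarith) (by norm_num)
  have h9 : √L ≤ L ^ (3 / 4 : ℝ) := by
    rw [sqrt_eq_rpow]; exact rpow_le_rpow_of_exponent_le (by linarith) (by norm_num)
  have h10 := mul_le_mul_of_nonneg_left hΛ (sq_nonneg δ)
  have h11 : 0 ≤ δ ^ 2 * L := by positivity
  calc _ = 204 * (exp k * L ^ 4 * exp (L ^ (3 / 4 : ℝ)) *
        exp (-(δ ^ 2 / 4 * rs (PP (yy x))))) := by ring
    _ ≤ exp 6 * (exp k * L ^ 4 * exp (L ^ (3 / 4 : ℝ)) *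
        exp (-(δ ^ 2 / 4 * rs (PP (yy x))))) := mul_le_mul_of_nonneg_right h7 (by positivity)
    _ ≤ _ := by
        rw [h6, ← exp_add, ← exp_add, ← exp_add, ← exp_add, exp_le_exp]
        rw [pow_one] at n6
        linarith

end Vale.Agent.P031
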