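import Vale.Agent.P031.MnA

namespace Vale.Agent.P031

open Finset Real Filter

/-- the image of a finite set is at least the set minus its collisions -/
theorem card_image_ge {α : Type} [DecidableEq α] (P : Finset α) (f : α → ℕ) :
    (P.card : ℝ) - ((P ×ˢ P).filter fun t => t.1 ≠ t.2 ∧ f t.1 = f t.2).card
      ≤ (P.image f).card := by
  obtain ⟨Q, h1, h2, h3⟩ := exists_subset_injOn_image_eq_of_surjOn (f := f) (P : Set α) (P.image f)
    (by rw [coe_image]; exact Set.surjOn_image _ _)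
  have : P \ Q ⊆ ((P ×ˢ P).filter fun t => t.1 ≠ t.2 ∧ f t.1 = f t.2).image Prod.fst := fun a ha => by
    obtain ⟨a1, a2⟩ := mem_sdiff.1 ha
    obtain ⟨b, b1, b2⟩ := mem_image.1 (h3 ▸ mem_image_of_mem f a1)
    exact mem_image.2 ⟨(a, b), mem_filter.2 ⟨mem_product.2 ⟨a1, h1 b1⟩, fun e => a2 ((show a = b from e) ▸ b1),
      b2.symm⟩, rfl⟩
  have a := (card_le_card this).trans card_image_le
  rw [← h3, card_image_of_injOn h2, sub_le_iff_le_add, ← card_sdiff_add_card_eq_card (coe_subset.1 h1), add_comm]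
  exact_mod_cast Nat.add_le_add_left a _

theorem MnL_fac {x : ℝ} (h : Par x) {p : ℕ} (hp : p.Prime) (h2 : YY x + 1 < p) :
    ∃ r, r ≠ 0 ∧ Rough (yy x) r ∧ p - 1 = 2 * dd (yy x) p * r ∧ Rough (yy x) (2 * dd (yy x) p * r + 1) := by
  have y := MnA_yy h
  have y' := h.yy_YY
  have p0 : p - 1 ≠ 0 := by have := hp.two_le; omega
  have e : p - 1 = 2 * dd (yy x) p * ((p - 1) / sm (yy x) (p - 1)) := by
    rw [two_mul_dd (by linarith) hp (by rintro rfl; norm_num at h2; linarith), Nat.mul_div_cancel' (sm_dvd _ p0)]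
  refine ⟨_, fun c => p0 (by rw [e, c, mul_zero]), rough_div_sm _ p0, e, ?_⟩
  rw [← e, Nat.sub_add_cancel hp.pos]
  exact rough_of_prime hp (by linarith)

theorem main_coll {a ε : ℝ} (ha : 1 ≤ a) (hε : 0 < ε) : ∀ᶠ x in atTop,
    ∀ C : Finset ((ℕ × ℕ) × (ℕ × ℕ)), (∀ t ∈ C, t.1 ∈ Prs x a (Good x) ∧ t.2 ∈ Prs x a (Good x) ∧
      YY x + 1 < t.1.1 ∧ YY x + 1 < t.2.1 ∧ t.1 ≠ t.2 ∧
      (t.1.1 - 1) * t.1.2 = (t.2.1 - 1) * t.2.2) →
    (C.card : ℝ) ≤ ε * (x / ll x) * GG x := by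
  obtain ⟨K, hK⟩ := sieve3
  obtain ⟨c, c0, hc⟩ := Py_ge
  filter_upwards [ev_par, tendsto_sqrt_atTop.eventually hK, ev_LL (|K| * a / (c * ε))] with x h h1 h2 C hC
  have y := MnA_yy h
  have l := MnA_ll h
  have L := h.L100
  have x0 := h.x16
  have key : ∀ t ∈ C, ∃ s r, s ∈ Good x ∧ t.1.2 ∈ WW x ∧ t.2.2 ∈ WW x ∧ s = t.1.2 * dd (yy x) t.1.1 ∧
      s = t.2.2 * dd (yy x) t.2.1 ∧ t.1.1 = 2 * dd (yy x) t.1.1 * r + 1 ∧ t.2.1 = 2 * dd (yy x) t.2.1 * r + 1 ∧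
      r ≠ 0 ∧ ((2 * s * r : ℕ) : ℝ) ≤ a * x ∧ Rough (yy x) r ∧ Rough (yy x) (2 * dd (yy x) t.1.1 * r + 1) ∧
      Rough (yy x) (2 * dd (yy x) t.2.1 * r + 1) := by
    rintro ⟨⟨p, w⟩, p', w'⟩ ht
    obtain ⟨a1, a2, a3, a4, -, a6⟩ := hC _ ht
    simp only [Prs, mem_filter, mem_product, mem_PP] at a1 a2 a3 a4 a6 ⊢
    obtain ⟨r, r1, r2, r3, r4⟩ := MnL_fac h a1.1.1.1 a3
    obtain ⟨r', r1', r2', r3', r4'⟩ := MnL_fac h a2.1.1.1 a4
    have t : Smooth (yy x) 2 := ⟨two_ne_zero, fun q hq hd => by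
      rw [(Nat.prime_dvd_prime_iff_eq hq Nat.prime_two).1 hd]; norm_num; linarith⟩
    have s1 := t.mul (mem_SS.1 (mem_filter.1 a1.2.2).1).1
    have s2 := t.mul (mem_SS.1 (mem_filter.1 a2.2.2).1).1
    have e : 2 * (w * dd (yy x) p) * r = 2 * (w' * dd (yy x) p') * r' := by
      rw [r3, r3'] at a6
      linarith
    have e1 := congrArg (sm (yy x)) e
    rw [sm_smooth_mul_rough s1 r2 r1, sm_smooth_mul_rough s2 r2' r1'] at e1
    obtain rfl : r = r' := Nat.eq_of_mul_eq_mul_left (Nat.pos_of_ne_zero s1.1) (e.trans (by rw [e1]))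
    refine ⟨_, r, a1.2.2, a1.1.2, a2.1.2, rfl, by omega, by have := a1.1.1.1.pos; omega,
      by have := a2.1.1.1.pos; omega, r1, le_trans (le_of_eq (congrArg _ ?_)) a1.2.1, r2, r4, r4'⟩
    rw [r3]
    ring
  choose! σ ρ k1 k2 k3 k4 k5 k6 k7 k8 k9 k10 k11 k12 using key
  rw [card_eq_sum_card_fiberwise (f := σ) k1, Nat.cast_sum, GG, mul_sum]
  refine sum_le_sum fun s hs => ?_
  obtain ⟨s1, s2⟩ := mem_filter.1 hs
  obtain ⟨s1, s3⟩ := mem_SS.1 s1
  have s0 : (0 : ℝ) < s := by exact_mod_cast Nat.pos_of_ne_zero s1.1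
  have ly : 0 < log (yy x) := log_pos (by linarith)
  rw [card_eq_sum_card_fiberwise (f := fun t => (t.1.2, t.2.2)) (t := (WW x).filter (· ∣ s) ×ˢ (WW x).filter (· ∣ s))
    fun t ht => by
      obtain ⟨t1, rfl⟩ := mem_filter.1 ht
      exact mem_product.2 ⟨mem_filter.2 ⟨k2 t t1, _, k4 t t1⟩, mem_filter.2 ⟨k3 t t1, _, k5 t t1⟩⟩, Nat.cast_sum]
  refine (sum_le_card_nsmul _ _ (|K| * (a * x / (2 * s)) * LL x ^ 9 / (log (yy x) * log (yy x) ^ 2))
    fun q hq => ?_).trans ?_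
  · rcases ((C.filter (σ · = s)).filter fun t => (t.1.2, t.2.2) = q).eq_empty_or_nonempty with e | ⟨t0, e⟩
    · rw [e, card_empty, Nat.cast_zero]
      positivity
    have f : ∀ t ∈ (C.filter (σ · = s)).filter fun t => (t.1.2, t.2.2) = q, t ∈ C ∧ σ t = s ∧
        t.1.2 = t0.1.2 ∧ t.2.2 = t0.2.2 ∧ dd (yy x) t.1.1 = dd (yy x) t0.1.1 ∧ dd (yy x) t.2.1 = dd (yy x) t0.2.1 :=
      fun t ht => by
        simp only [mem_filter] at ht e
        obtain ⟨e1, e2⟩ := Prod.ext_iff.1 (ht.2.trans e.2.symm)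
        have a1 := (k4 t ht.1.1).symm.trans (ht.1.2.trans (e.1.2.symm.trans (k4 t0 e.1.1)))
        have a2 := (k5 t ht.1.1).symm.trans (ht.1.2.trans (e.1.2.symm.trans (k5 t0 e.1.1)))
        dsimp only at e1 e2
        rw [e1] at a1
        rw [e2] at a2
        exact ⟨ht.1.1, ht.1.2, e1, e2, Nat.eq_of_mul_eq_mul_left
          (Nat.pos_of_ne_zero (mem_WW.1 (k2 t0 e.1.1)).1.1.1) a1, Nat.eq_of_mul_eq_mul_left
          (Nat.pos_of_ne_zero (mem_WW.1 (k3 t0 e.1.1)).1.1.1) a2⟩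
    obtain ⟨t1, t2, -⟩ := f t0 e
    have a1 := t2 ▸ k4 t0 t1
    have a2 := t2 ▸ k5 t0 t1
    have b : ∀ w d, s = w * d → 2 * d ≠ 0 ∧ ((2 * d : ℕ) : ℝ) ≤ x := fun w d e => by
      have : (d : ℝ) ≤ s := by exact_mod_cast Nat.le_of_dvd (Nat.pos_of_ne_zero s1.1) ⟨w, by rw [e, mul_comm]⟩
      refine ⟨mul_ne_zero two_ne_zero (right_ne_zero_of_mul (e ▸ s1.1)), le_trans ?_
        (MnA_mul h (t := 2 * d) (by linarith))⟩
      push_cast
      exact le_mul_of_one_le_left (by positivity) (one_le_sqrt.2 (by linarith))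
    rw [← card_image_of_injOn (f := ρ) fun t ht t' ht' c => by
      obtain ⟨u1, -, u2, u3, u4, u5⟩ := f t ht
      obtain ⟨v1, -, v2, v3, v4, v5⟩ := f t' ht'
      refine Prod.ext (Prod.ext ?_ (u2.trans v2.symm)) (Prod.ext ?_ (u3.trans v3.symm))
      · rw [k6 t u1, k6 t' v1, u4, v4, c]
      · rw [k7 t u1, k7 t' v1, u5, v5, c]]
    refine (h1 (yy x) (yy x) 0 (a * x / (2 * s)) x _ _ (by linarith) le_rfl (MnA_sqrt h).2
      ((le_div_iff₀ (by positivity)).2 ((MnA_mul h (by linarith)).trans (le_mul_of_one_le_left (by linarith) ha)))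
      le_rfl x0 (b _ _ a1).1 (b _ _ a2).1 (fun c => (hC t0 t1).2.2.2.2.1 (Prod.ext ?_ ?_)) (b _ _ a1).2 (b _ _ a2).2
      _ fun r hr => ?_).trans ?_
    · rw [k6 t0 t1, k7 t0 t1, c]
    · have d := Nat.eq_of_mul_eq_mul_left two_pos c
      exact Nat.eq_of_mul_eq_mul_right (Nat.pos_of_ne_zero (right_ne_zero_of_mul (b _ _ a1).1))
        (a1.symm.trans (d ▸ a2))
    · obtain ⟨t, ht, rfl⟩ := mem_image.1 hr
      obtain ⟨u1, u0, -, -, u4, u5⟩ := f t ht
      refine ⟨by exact_mod_cast Nat.pos_of_ne_zero (k8 t u1), ?_, k10 t u1, u4 ▸ k11 t u1, u5 ▸ k12 t u1⟩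
      have := k9 t u1
      rw [zero_add, le_div_iff₀' (by positivity), ← u0]
      exact_mod_cast this
    · rw [← LL]
      gcongr
      exact le_abs_self K
  · have a1 := (mul_le_mul_of_nonneg_left (div_le_div_of_nonneg_right (hc _ (by linarith)) (by positivity))
      (Nat.cast_nonneg _)).trans (MnA_mu (y := yy x) (WW x) s1.1)
    rw [card_product, ← DD, nsmul_eq_mul, Nat.cast_mul]
    refine le_trans ?_ (mul_le_mul_of_nonneg_left a1 (by positivity))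
    rw [mul_assoc, mul_left_comm (ε * _)]
    refine mul_le_mul_of_nonneg_left ((mul_le_mul_of_nonneg_right s2 (by positivity)).trans ?_) (Nat.cast_nonneg _)
    rw [div_le_iff₀ (by positivity)] at h2
    have a2 : LL x ≤ LL x ^ 3 := le_self_pow₀ (by linarith) (by norm_num)
    rw [yy, log_exp, tm]
    field_simp
    nlinarith [mul_le_mul_of_nonneg_right a2 (mul_pos c0 hε).le]

theorem main_lower {a ε : ℝ} (ha : 1 ≤ a) (hε : 0 < ε) : ∀ᶠ x in atTop,
    (a - ε) * (x / ll x) * GG x - ε * (x / ll x) ≤ V (a * x) := by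
  filter_upwards [ev_par, prs_card (show 0 < a by linarith) (half_pos hε), main_coll ha (half_pos hε),
    ev_ll (2 / ε)] with x h h1 h2 h3
  have y := MnA_yy h
  have y' := h.yy_YY
  have l := MnA_ll h
  have a1 := card_image_ge ((Prs x a (Good x)).filter fun t => YY x + 1 < t.1) fun t => (t.1 - 1) * t.2
  have a2 := h2 _ fun t (ht : t ∈ (((Prs x a (Good x)).filter fun t => YY x + 1 < t.1) ×ˢ
      ((Prs x a (Good x)).filter fun t => YY x + 1 < t.1)).filter fun t => t.1 ≠ t.2 ∧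
      (t.1.1 - 1) * t.1.2 = (t.2.1 - 1) * t.2.2) => by
    simp only [mem_filter, mem_product] at ht
    tauto
  have a3 := (abs_le.1 (h1 (Good x) (filter_subset _ _))).1
  have a4 : (((Prs x a (Good x)).filter fun t => YY x + 1 < t.1).image fun t => (t.1 - 1) * t.2) ⊆ Vs (a * x) :=
    fun v hv => by
      obtain ⟨⟨p, w⟩, ht, rfl⟩ := mem_image.1 hv
      simp only [Prs, mem_filter, mem_product, mem_PP] at ht
      obtain ⟨m, m1, m2⟩ := (mem_WW.1 ht.1.1.2).2.1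
      have p1 := ht.1.1.1.1
      refine mem_Vs.2 ⟨⟨p * m, Nat.mul_pos p1.pos (Nat.pos_of_ne_zero m1.1), ?_⟩, ht.1.2.1⟩
      rw [Nat.totient_mul ((Nat.Prime.coprime_iff_not_dvd p1).2 fun c => by linarith [m1.2 p p1 c, ht.2]),
        Nat.totient_prime p1, m2]
  have a5 : ((Prs x a (Good x)).filter fun t => ¬YY x + 1 < t.1) ⊆
      range (⌊YY x⌋₊ + 2) ×ˢ range (⌊YY x⌋₊ + 2) := fun t ht => by
    simp only [Prs, mem_filter, mem_product, mem_range, not_lt] at ht ⊢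
    have := Nat.le_floor (mem_WW.1 ht.1.1.2).1.2
    have := Nat.le_floor ht.2
    rw [Nat.floor_add_one (by linarith)] at this
    omega
  have a6 := (Nat.cast_le (α := ℝ)).2 (card_le_card a5)
  have a7 := (Nat.cast_le (α := ℝ)).2 (card_le_card a4)
  have a8 := congrArg (Nat.cast : ℕ → ℝ) (card_filter_add_card_filter_not (s := Prs x a (Good x))
    fun t => YY x + 1 < t.1)
  rw [card_product, card_range, ← sq] at a6
  push_cast at a6 a8
  have a9 := (pow_le_pow_left₀ (by positivity) (add_le_add_left (Nat.floor_le (show 0 ≤ YY x by linarith)) 2) 2).trans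
    (MnA_sqrt h).1
  have a10 : √x ≤ ε / 2 * (x / ll x) := by
    have := MnA_mul h (t := ll x ^ 2) (by linarith [h.ll_z1, h.z1_zz, h.zz_ZZ, h.ZZ_z2, h.z2_z3, h.z3_y8, h.y8_yy,
      h.z1_ge])
    rw [div_le_iff₀ hε] at h3
    rw [← mul_div_assoc, le_div_iff₀ (by linarith)]
    nlinarith [mul_le_mul_of_nonneg_left this hε.le, mul_le_mul_of_nonneg_left h3
      (show 0 ≤ √x * ll x by positivity)]
  rw [V_eq]
  rw [← GG] at a3
  linarith

end Vale.Agent.P031
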