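import Vale.Agent.P031.MnA
import Vale.Agent.P031.AC

namespace Vale.Agent.P031

open Finset Real Filter

theorem main_upper {a ε : ℝ} (ha : 1 ≤ a) (hε : 0 < ε) : ∀ᶠ x in atTop, ∀ T : Finset ℕ,
    (∀ v ∈ T, (v : ℝ) ≤ a * x ∧ Main x v) →
    (T.card : ℝ) ≤ (a + ε) * (x / ll x) * GG x + ε * (x / ll x) := by
  obtain ⟨C, hC⟩ := sat_card ha
  obtain ⟨η, η0, η1, η2⟩ : ∃ η : ℝ, 0 < η ∧ η ≤ 1 ∧ η * (3 + a + |C|) ≤ ε :=
    ⟨min 1 (ε / (3 + a + |C|)), by positivity, min_le_left _ _, (le_div_iff₀ (by positivity)).1 (min_le_right _ _)⟩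
  filter_upwards [ev_par, hC, prs_card (show 0 < a by linarith) η0, ac1 η0, ac2 η0] with x h h1 h2 h3 h4 T hT
  have y := MnA_yy h
  have l := MnA_ll h
  have x0 := h.x16
  have key : ∀ v ∈ T, v ≠ 0 ∧ sm (yy x) v = 2 * (sm (yy x) v / 2) ∧ sm (yy x) v / 2 ∈ SS (yy x) (YY x) ∧
      ∀ S, sm (yy x) v / 2 ∈ S → v ∈ (Prs x a S).image fun t => (t.1 - 1) * t.2 := fun v hv => by
    obtain ⟨v1, v2, p, w, p1, p2, w1, rfl⟩ := hT v hv
    have w2 := (mem_WW.1 w1).1.1
    have p3 : p ≠ 2 := by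
      rintro rfl
      norm_num at p2
      linarith
    have p0 : p - 1 ≠ 0 := by have := p1.two_le; omega
    have e : sm (yy x) ((p - 1) * w) = 2 * (w * dd (yy x) p) := by
      rw [sm_mul _ p0 w2.1, sm_of_smooth w2, ← two_mul_dd (by linarith) p1 p3]
      ring
    rw [e] at v2
    rw [e, Nat.mul_div_cancel_left _ two_pos]
    refine ⟨mul_ne_zero p0 w2.1, rfl, mem_SS.2 ⟨w2.mul (dd_smooth (by linarith) p1 p3), le_trans ?_ v2⟩,
      fun S hS => mem_image.2 ⟨(p, w), mem_filter.2 ⟨mem_product.2 ⟨mem_PP.2 ⟨p1, ?_⟩, w1⟩, v1, hS⟩, rfl⟩⟩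
    · exact_mod_cast by omega
    · have := (Nat.cast_le.2 (Nat.le_mul_of_pos_right (p - 1) (Nat.pos_of_ne_zero w2.1))).trans v1
      rw [Nat.cast_pred p1.pos] at this
      linarith
  have k2 : ∀ S ⊆ SS (yy x) (YY x), ((T.filter fun v => sm (yy x) v / 2 ∈ S).card : ℝ) ≤
      (a + η) * (x / ll x) * ∑ s ∈ S, mu (yy x) (WW x) s + η * (x / ll x) := fun S hS => by
    have := (card_le_card fun v (hv : v ∈ T.filter fun v => sm (yy x) v / 2 ∈ S) =>
      (key v (mem_filter.1 hv).1).2.2.2 S (mem_filter.1 hv).2).trans card_image_le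
    have := (Nat.cast_le (α := ℝ)).2 this
    linarith [(abs_le.1 (h2 S hS)).2]
  have k3 := k2 (Good x) (filter_subset _ _)
  have k4 := k2 _ (filter_subset (fun s => tm x < DD (WW x) s ∧ (DD (WW x) s : ℝ) ≤ tp x) _)
  have k5 : ((T.filter fun v => sm (yy x) v / 2 ∈ (SS (yy x) (YY x)).filter fun s => tp x < DD (WW x) s).card : ℝ) ≤
      |C| * (x / ll x) * ∑ s ∈ (SS (yy x) (YY x)).filter (fun s => tp x < DD (WW x) s),
        ll x / DD (WW x) s * mu (yy x) (WW x) s := by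
    rw [card_eq_sum_card_fiberwise (f := fun v => sm (yy x) v / 2) (t := (SS (yy x) (YY x)).filter fun s =>
      tp x < DD (WW x) s) fun v hv => mem_coe.2 (mem_filter.1 (mem_coe.1 hv)).2, Nat.cast_sum, mul_sum]
    refine sum_le_sum fun s hs => ?_
    obtain ⟨s1, s2⟩ := mem_filter.1 hs
    have d0 : (0 : ℝ) < DD (WW x) s := lt_of_le_of_lt (by have := h.L100; unfold tp; positivity) s2
    refine ((le_div_iff₀ d0).2 ((h1 s s1 _ fun v hv => ?_).trans (mul_le_mul_of_nonneg_right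
      (mul_le_mul_of_nonneg_right (le_abs_self C) (by linarith)) (mu_nonneg _ _ _)))).trans_eq (by field_simp)
    obtain ⟨v1, rfl⟩ := mem_filter.1 hv
    have v2 := (mem_filter.1 v1).1
    exact ⟨(key v v2).1, (hT v v2).1, (key v v2).2.1⟩
  have k6 : T ⊆ (T.filter fun v => sm (yy x) v / 2 ∈ Good x) ∪ ((T.filter fun v => sm (yy x) v / 2 ∈
      (SS (yy x) (YY x)).filter fun s => tm x < DD (WW x) s ∧ (DD (WW x) s : ℝ) ≤ tp x) ∪ T.filter fun v =>
      sm (yy x) v / 2 ∈ (SS (yy x) (YY x)).filter fun s => tp x < DD (WW x) s) := fun v hv => by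
    simp only [mem_union, mem_filter, Good, hv, (key v hv).2.2.1, true_and]
    grind
  have k7 := (Nat.cast_le (α := ℝ)).2 ((card_le_card k6).trans ((card_union_le _ _).trans
    (Nat.add_le_add_left (card_union_le _ _) _)))
  have g := GG_nonneg x
  have q : 0 ≤ x / ll x := by positivity
  push_cast at k7
  rw [← GG] at k3
  have k8 := mul_le_mul_of_nonneg_left h3 (show 0 ≤ (a + η) * (x / ll x) by positivity)
  have k9 := mul_le_mul_of_nonneg_left h4 (show 0 ≤ |C| * (x / ll x) by positivity)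
  generalize x / ll x = r at *
  nlinarith [mul_le_mul_of_nonneg_right η2 q, mul_le_mul_of_nonneg_right η2 (mul_nonneg q g),
    mul_le_mul_of_nonneg_right η1 (mul_nonneg η0.le q), mul_le_mul_of_nonneg_right η1
      (mul_nonneg η0.le (mul_nonneg q g)), mul_nonneg η0.le (mul_nonneg q g)]

end Vale.Agent.P031
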