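import Vale.Agent.P031.Par
import Vale.Agent.P031.EulA

namespace Vale.Agent.P031

open Finset Real Filter

theorem Neg_sub {T : Finset ℕ} {X : ℝ} (h : ∀ v ∈ T, v ≠ 0 ∧ (v : ℝ) ≤ X) : T ⊆ Icc 1 ⌊X⌋₊ :=
  fun v hv => mem_Icc.2 ⟨Nat.pos_of_ne_zero (h v hv).1, Nat.le_floor (h v hv).2⟩

theorem Neg_triv {T : Finset ℕ} {X : ℝ} (hX : 0 ≤ X) (h : ∀ v ∈ T, v ≠ 0 ∧ (v : ℝ) ≤ X) :
    (T.card : ℝ) ≤ X := by
  have := card_le_card (Neg_sub h)
  rw [Nat.card_Icc, Nat.add_sub_cancel] at this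
  exact (Nat.cast_le.2 this).trans (Nat.floor_le hX)

theorem Neg_chern (S : Finset ℕ) (hS : ∀ q ∈ S, q.Prime) {l : ℝ} (hl : 1 ≤ l)
    (hlq : ∀ q ∈ S, l ≤ 3 / 4 * q) {X a : ℝ} (hX : 0 ≤ X) {T : Finset ℕ}
    (h : ∀ v ∈ T, v ≠ 0 ∧ (v : ℝ) ≤ X ∧ a ≤ OmS S v) :
    (T.card : ℝ) ≤ X * exp ((l - 1) * rs S + 4 * l ^ 2 - a * log l) := by
  have h1 : (T.card : ℝ) * exp (a * log l) ≤ ∑ v ∈ T, l ^ OmS S v := by
    rw [← nsmul_eq_mul]
    refine card_nsmul_le_sum _ _ _ fun v hv => ?_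
    rw [mul_comm, ← rpow_def_of_pos (by linarith), ← rpow_natCast]
    exact rpow_le_rpow_of_exponent_le hl (h v hv).2.2
  have h2 := (sum_le_sum_of_subset_of_nonneg (Neg_sub fun v hv => ⟨(h v hv).1, (h v hv).2.1⟩)
    fun _ _ _ => by positivity).trans (sum_pow_OmS_le S hS hl hlq ⌊X⌋₊)
  rw [exp_sub, ← mul_div_assoc, le_div_iff₀ (exp_pos _)]
  exact h1.trans (h2.trans (mul_le_mul_of_nonneg_right (Nat.floor_le hX) (exp_pos _).le))

theorem Neg_Om {X : ℝ} {v : ℕ} (h0 : v ≠ 0) (h : (v : ℝ) ≤ X) : OmS (PP X) v = Om v := by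
  rw [Om, ArithmeticFunction.cardFactors_eq_sum_factorization, Finsupp.sum, OmS]
  refine (sum_subset (fun q hq => ?_) fun q _ hq => Finsupp.notMem_support_iff.1 hq).symm
  have := Nat.mem_primeFactors.1 (Nat.support_factorization v ▸ hq)
  exact mem_PP.2 ⟨this.1, (Nat.cast_le.2 (Nat.le_of_dvd (Nat.pos_of_ne_zero h0) this.2.1)).trans h⟩

theorem Neg_tele {M : ℕ} (hM : 1 ≤ M) (N : ℕ) :
    ∑ n ∈ Ioc M N, (1 : ℝ) / (n * (n - 1) : ℕ) ≤ 1 / M := by
  have key : ∀ N, M ≤ N → ∑ n ∈ Ioc M N, (1 : ℝ) / (n * (n - 1) : ℕ) = 1 / M - 1 / N := by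
    intro N hN
    induction N, hN using Nat.le_induction with
    | base => simp
    | succ N hN ih =>
      have : (0 : ℝ) < N := by exact_mod_cast (by omega : 0 < N)
      rw [sum_Ioc_succ_top hN, ih, Nat.add_sub_cancel]
      push_cast
      field_simp
      ring
  rcases le_total M N with h | h
  · rw [key N h]; exact sub_le_self _ (by positivity)
  · rw [Ioc_eq_empty_of_le h, sum_empty]; positivity

theorem Neg_sq {X y : ℝ} (hX : 0 ≤ X) (hy : 1 ≤ y) {T : Finset ℕ}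
    (h : ∀ v ∈ T, v ≠ 0 ∧ (v : ℝ) ≤ X ∧ ∃ p : ℕ, p.Prime ∧ y < p ∧ p * (p - 1) ∣ v) :
    (T.card : ℝ) ≤ 2 * X / y := by
  have hM : 1 ≤ ⌊y⌋₊ := Nat.floor_pos.2 hy
  have h1 : T ⊆ (Ioc ⌊y⌋₊ ⌊X⌋₊).biUnion fun p => (Ioc 0 ⌊X⌋₊).filter (p * (p - 1) ∣ ·) := by
    intro v hv
    obtain ⟨a, b, p, -, c, d⟩ := h v hv
    have e := Nat.le_floor b
    have hv0 := Nat.pos_of_ne_zero a
    exact mem_biUnion.2 ⟨p, mem_Ioc.2 ⟨(Nat.floor_lt (by linarith)).2 c,
      (Nat.le_of_dvd hv0 ((dvd_mul_right _ _).trans d)).trans e⟩,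
      mem_filter.2 ⟨mem_Ioc.2 ⟨hv0, e⟩, d⟩⟩
  have h2 := (card_le_card h1).trans card_biUnion_le
  simp only [Nat.Ioc_filter_dvd_card_eq_div] at h2
  refine (Nat.cast_le.2 h2).trans ?_
  rw [Nat.cast_sum]
  refine (sum_le_sum (g := fun p => X * ((1 : ℝ) / (p * (p - 1) : ℕ))) fun p _ =>
    Nat.cast_div_le.trans ?_).trans ?_
  · rw [mul_one_div]; exact div_le_div_of_nonneg_right (Nat.floor_le hX) (by positivity)
  rw [← mul_sum]
  refine (mul_le_mul_of_nonneg_left (Neg_tele hM _) hX).trans ?_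
  have h3 : (1 : ℝ) ≤ ⌊y⌋₊ := by exact_mod_cast hM
  have h4 := Nat.lt_floor_add_one y
  rw [mul_one_div, div_le_div_iff₀ (by linarith) (by linarith)]
  nlinarith

theorem Neg_ev (C : ℝ) {κ : ℝ} (hκ : 0 < κ) : ∀ᶠ x in atTop, C ≤ exp (κ * LL x) :=
  (tendsto_LL.eventually (ev_pow_exp C 0 0 hκ)).mono fun x h => by simpa using h

theorem Neg_fin {x ε C κ t : ℝ} (hP : Par x) (hε : 0 < ε) (h : C / ε ≤ exp (κ * LL x))
    (ht : t ≤ -(1 + κ) * LL x) : C * x * exp t ≤ ε * (x / ll x) := by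
  have hx : 0 < x := by linarith [hP.x16]
  rw [div_le_iff₀' hε] at h
  calc C * x * exp t ≤ ε * exp (κ * LL x) * x * exp (-(1 + κ) * LL x) := by
        exact mul_le_mul (mul_le_mul_of_nonneg_right h hx.le) (exp_le_exp.2 ht) (exp_pos _).le
          (by positivity)
    _ = ε * (x * (exp (κ * LL x) * exp (-(1 + κ) * LL x))) := by ring
    _ = _ := by rw [← exp_add, hP.ll_eq, div_eq_mul_inv, ← exp_neg]; congr 3; ring

theorem neg_card {c ε : ℝ} (hc : 1 ≤ c) (hε : 0 < ε) : ∀ᶠ x in atTop, ∀ T : Finset ℕ,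
    (∀ v ∈ T, v ≠ 0 ∧ (v : ℝ) ≤ c * x ∧ Neg x v) → (T.card : ℝ) ≤ ε * (x / ll x) := by
  obtain ⟨C, hC⟩ := mertens
  obtain ⟨D, hD⟩ := card_sm_gt
  have hε' : 0 < ε / 5 := by positivity
  filter_upwards [ev_par, eventually_ge_atTop c, Neg_ev (1 / (ε / 5)) one_pos,
    Neg_ev (2 * c / (ε / 5)) one_pos, Neg_ev (D * c / (ε / 5)) one_pos,
    Neg_ev (c * exp (C / 2 + 10) / (ε / 5)) (κ := 1 / 6) (by norm_num)] with x hP hx e1 e2 e3 e4 T hT
  have hx0 : 0 < x := by linarith [hP.x16]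
  have hL := hP.L100
  have hl : 1 ≤ ll x := hP.ll_eq ▸ one_le_exp (by linarith)
  have hcx : 0 ≤ c * x := by positivity
  have el : (ll x ^ 2)⁻¹ = exp (-2 * LL x) := by
    rw [hP.ll_eq, ← exp_nat_mul, ← exp_neg]; congr 1; push_cast; ring
  classical
  have h1 : ((T.filter fun v : ℕ => (v : ℝ) ≤ x / ll x ^ 2).card : ℝ) ≤ ε / 5 * (x / ll x) := by
    refine (Neg_triv (by positivity) fun v hv =>
      ⟨(hT v (mem_filter.1 hv).1).1, (mem_filter.1 hv).2⟩).trans ?_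
    rw [div_eq_mul_inv x, el, ← one_mul x]
    simpa using Neg_fin hP hε' e1 (t := -2 * LL x) (by linarith)
  have h2 : ((T.filter fun v : ℕ => 5 * LL x < Om v).card : ℝ) ≤ ε / 5 * (x / ll x) := by
    refine (Neg_chern (PP (c * x)) (fun q hq => (mem_PP.1 hq).1) (l := 3 / 2) (a := 5 * LL x)
      (by norm_num) (fun q hq => ?_) hcx fun v hv => ?_).trans ?_
    · have : (2 : ℝ) ≤ q := by exact_mod_cast (mem_PP.1 hq).1.two_le
      linarith
    · have h := hT v (mem_filter.1 hv).1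
      exact ⟨h.1, h.2.1, by rw [Neg_Om h.1 h.2.1]; exact (mem_filter.1 hv).2.le⟩
    have a1 := (abs_le.1 (hC (c * x) (by nlinarith [hP.x16]))).2
    have a2 : log (log (c * x)) ≤ LL x + 1 := by
      have b1 : log (c * x) ≤ 2 * ll x := by
        rw [log_mul (by linarith) hx0.ne', two_mul]
        exact add_le_add_left (log_le_log (by linarith) hx) _
      refine (log_le_log (log_pos (by nlinarith [hP.x16])) b1).trans ?_
      rw [log_mul two_ne_zero (by linarith), hP.ll_eq, log_exp]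
      linarith [log_two_lt_d9]
    have a3 : 1 / 3 ≤ log (3 / 2) := by
      have := one_sub_inv_le_log_of_pos (show (0 : ℝ) < 3 / 2 by norm_num)
      linarith
    refine le_trans ?_ (Neg_fin hP hε' e4 le_rfl)
    rw [mul_right_comm c _ x, mul_assoc (c * x), ← exp_add]
    refine mul_le_mul_of_nonneg_left (exp_le_exp.2 ?_) hcx
    nlinarith
  have h3 : ((T.filter fun v : ℕ => ∃ p : ℕ, p.Prime ∧ ll x ^ 2 < p ∧ p * (p - 1) ∣ v).card : ℝ) ≤
      ε / 5 * (x / ll x) := by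
    refine (Neg_sq hcx (one_le_pow₀ hl) fun v hv => ⟨(hT v (mem_filter.1 hv).1).1,
      (hT v (mem_filter.1 hv).1).2.1, (mem_filter.1 hv).2⟩).trans ?_
    rw [div_eq_mul_inv _ (ll x ^ 2), el, ← mul_assoc]
    exact Neg_fin hP hε' e2 (by linarith)
  have h45 : ∀ y Y : ℝ, 8 ≤ y → y ≤ Y → log y ≤ ll x → log Y / log y = LL x ^ 2 →
      ((T.filter fun v : ℕ => Y < sm y v).card : ℝ) ≤ ε / 5 * (x / ll x) := fun y Y a b d e => by
    refine (hD y Y (c * x) a (by linarith) hcx _ fun v hv => ⟨(hT v (mem_filter.1 hv).1).1,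
      (hT v (mem_filter.1 hv).1).2.1, (mem_filter.1 hv).2⟩).trans ?_
    have a0 : 0 < log y := log_pos (by linarith)
    rw [e, mul_assoc (D * _), ← mul_assoc D, ← exp_log (pow_pos a0 12), ← exp_add]
    refine Neg_fin hP hε' e3 ?_
    have := log_le_log a0 d
    rw [hP.ll_eq, log_exp] at this
    rw [log_pow]
    push_cast
    nlinarith
  have z8 : 8 ≤ zz x := hP.z1_ge.trans hP.z1_zz
  have zy : zz x ≤ yy x := by
    linarith [hP.zz_ZZ, hP.ZZ_z2, hP.z2_z3, hP.z3_y8, hP.y8_yy]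
  have ly : log (yy x) ≤ ll x := by
    rw [yy, log_exp]; exact div_le_self (by linarith) (one_le_pow₀ (by linarith))
  have h4 := h45 (yy x) (YY x) (z8.trans zy) hP.yy_YY ly (by
    rw [yy, YY, log_exp, log_exp]; field_simp)
  have h5 := h45 (zz x) (ZZ x) z8 hP.zz_ZZ ((log_le_log (by linarith) zy).trans ly) (by
    rw [zz, ZZ, log_exp, log_exp]; field_simp)
  have h6 : T ⊆ T.filter (fun v : ℕ => (v : ℝ) ≤ x / ll x ^ 2) ∪
      (T.filter (fun v : ℕ => 5 * LL x < Om v) ∪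
      (T.filter (fun v : ℕ => ∃ p : ℕ, p.Prime ∧ ll x ^ 2 < p ∧ p * (p - 1) ∣ v) ∪
      (T.filter (fun v : ℕ => YY x < sm (yy x) v) ∪ T.filter fun v : ℕ => ZZ x < sm (zz x) v))) :=
    fun v hv => by
      simp only [mem_union, mem_filter, hv, true_and]
      exact (hT v hv).2.2
  have h7 := (card_le_card h6).trans ((card_union_le _ _).trans (Nat.add_le_add_left
    ((card_union_le _ _).trans (Nat.add_le_add_left ((card_union_le _ _).trans
      (Nat.add_le_add_left (card_union_le _ _) _)) _)) _))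
  have h8 := (Nat.cast_le (α := ℝ)).2 h7
  push_cast at h8
  linarith

theorem three_card {c ε : ℝ} (hc : 1 ≤ c) (hε : 0 < ε) : ∀ᶠ x in atTop, ∀ T : Finset ℕ,
    (∀ v ∈ T, v ≠ 0 ∧ (v : ℝ) ≤ c * x ∧ Three x v) → (T.card : ℝ) ≤ ε * (x / ll x) := by
  filter_upwards [ev_par, Neg_ev (c * exp 36 / ε) (κ := 1 / 20) (by norm_num)] with x hP e T hT
  have hx0 : 0 < x := by linarith [hP.x16]
  have hcx : 0 ≤ c * x := by positivity
  refine (Neg_chern (S1 x) (fun q hq => (mem_PP.1 (mem_filter.1 hq).1).1) (l := 3) (by norm_num)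
    (fun q hq => ?_) hcx hT).trans (le_trans ?_ (Neg_fin hP hε e le_rfl))
  · have : (5 : ℝ) ≤ q := by exact_mod_cast (mem_filter.1 hq).2
    linarith
  rw [mul_right_comm c _ x, mul_assoc (c * x), ← exp_add]
  refine mul_le_mul_of_nonneg_left (exp_le_exp.2 ?_) hcx
  nlinarith [log_three_gt_d9, hP.rs_S1.1, hP.L100]

end Vale.Agent.P031
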