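import Vale.Agent.P031.Par

namespace Vale.Agent.P031

open Finset Real Filter

theorem str_smooth_totient {y : ℝ} : ∀ m : ℕ, Smooth y m → Smooth y (Nat.totient m) := by
  intro m
  induction m using induction_on_primes with
  | zero => exact fun h => absurd rfl h.1
  | one => exact fun h => by simpa using h
  | prime_mul p a hp ih =>
    intro h
    have ha : Smooth y a := h.of_dvd (dvd_mul_left _ _)
    have hpy : (p : ℝ) ≤ y := h.2 p hp (dvd_mul_right _ _)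
    by_cases hd : p ∣ a
    · rw [Nat.totient_mul_of_prime_of_dvd hp hd]
      exact (h.of_dvd (dvd_mul_right p a)).mul (ih ha)
    · rw [Nat.totient_mul_of_prime_of_not_dvd hp hd]
      refine Smooth.mul ⟨by have := hp.two_le; omega, fun q _ hq => ?_⟩ (ih ha)
      have h1 : q ≤ p := (Nat.le_of_dvd (by have := hp.two_le; omega) hq).trans (Nat.sub_le _ _)
      exact le_trans (by exact_mod_cast h1) hpy

theorem str_OmS_mul (S : Finset ℕ) {a b : ℕ} (ha : a ≠ 0) (hb : b ≠ 0) :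
    OmS S (a * b) = OmS S a + OmS S b := by
  simp only [OmS, Nat.factorization_mul ha hb, Finsupp.add_apply, sum_add_distrib]

theorem str_omS_le (S : Finset ℕ) (hS : ∀ q ∈ S, q.Prime) {a : ℕ} (ha : a ≠ 0) :
    omS S a ≤ OmS S a := by
  rw [omS, OmS, card_filter]
  refine sum_le_sum fun q hq => ?_
  split_ifs with h
  · exact ((hS q hq).dvd_iff_one_le_factorization ha).1 h
  · exact Nat.zero_le _

theorem str_Om_le {a b : ℕ} (hb : b ≠ 0) (h : a ∣ b) : Om a ≤ Om b := by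
  obtain ⟨k, rfl⟩ := h
  rw [Om, Om, ArithmeticFunction.cardFactors_mul (left_ne_zero_of_mul hb) (right_ne_zero_of_mul hb)]
  exact Nat.le_add_right _ _

/-- splitting off a large prime -/
theorem str_split {B : ℝ} {v : ℕ} (hv : ¬ ∃ p : ℕ, p.Prime ∧ B < p ∧ p * (p - 1) ∣ v) {m p : ℕ}
    (hm : Nat.totient m ∣ v) (hp : p.Prime) (hB : B < p) (hd : p ∣ m) :
    ∃ m', m = p * m' ∧ ¬ p ∣ m' ∧ Nat.totient m = (p - 1) * Nat.totient m' := by
  obtain ⟨m', rfl⟩ := hd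
  have h : ¬ p ∣ m' := by
    rintro ⟨k, rfl⟩
    refine hv ⟨p, hp, hB, dvd_trans ?_ hm⟩
    have h1 : Nat.totient (p ^ (1 + 1)) = p * (p - 1) := by
      rw [Nat.totient_prime_pow_succ hp, pow_one]
    rw [← h1]
    exact Nat.totient_dvd_of_dvd ⟨k, by ring⟩
  exact ⟨m', rfl, h, Nat.totient_mul_of_prime_of_not_dvd hp h⟩

theorem str_not_smooth {y : ℝ} {m : ℕ} (h0 : m ≠ 0) (h : ¬ Smooth y m) :
    ∃ q : ℕ, q.Prime ∧ q ∣ m ∧ y < q := by
  by_contra hc
  push Not at hc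
  exact h ⟨h0, hc⟩

theorem str_le_sm {y Y : ℝ} {w v : ℕ} (hw : Smooth y w) (hv : v ≠ 0) (hd : w ∣ v)
    (h : ¬ Y < sm y v) : (w : ℝ) ≤ Y := by
  have h1 : w ≤ sm y v := Nat.le_of_dvd (Nat.pos_of_ne_zero (sm_ne_zero y v)) (hw.dvd_sm hv hd)
  exact le_trans (by exact_mod_cast h1) (not_lt.1 h)

theorem str_two {x : ℝ} (hx : Par x) {v p0 p1 m : ℕ} (hN : ¬ Neg x v) (hp0 : p0.Prime)
    (hp1 : p1.Prime) (h1 : yy x < p1) (h01 : p1 < p0) (hm : m ≠ 0)
    (hv : v = (p0 - 1) * (p1 - 1) * Nat.totient m)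
    (d0 : ¬ p0 ∣ m) (d1 : ¬ p1 ∣ m) :
    Three x v ∨ AbA x v ∨ AbB x v ∨ Cl1 x v := by
  have t0 : IsTot ((p1 - 1) * Nat.totient m) := ⟨p1 * m,
    Nat.mul_pos hp1.pos (Nat.pos_of_ne_zero hm), Nat.totient_mul_of_prime_of_not_dvd hp1 d1⟩
  have t1 : IsTot ((p0 - 1) * Nat.totient m) := ⟨p0 * m,
    Nat.mul_pos hp0.pos (Nat.pos_of_ne_zero hm), Nat.totient_mul_of_prime_of_not_dvd hp0 d0⟩
  simp only [Neg, not_or] at hN
  obtain ⟨n1, -, n3, n4, n5⟩ := hN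
  have h0 : yy x < p0 := h1.trans (by exact_mod_cast h01)
  have hzy : zz x ≤ yy x := by
    linarith [hx.zz_ZZ, hx.ZZ_z2, hx.z2_z3, hx.z3_y8, hx.y8_yy, hx.z1_ge, hx.z1_zz]
  have e0 : p0 - 1 ≠ 0 := by have := hp0.two_le; omega
  have e1 : p1 - 1 ≠ 0 := by have := hp1.two_le; omega
  have em : Nat.totient m ≠ 0 := (Nat.totient_pos.2 (Nat.pos_of_ne_zero hm)).ne'
  have hv0 : v ≠ 0 := by rw [hv]; exact mul_ne_zero (mul_ne_zero e0 e1) em
  by_cases a0 : Abn x p0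
  · exact Or.inr (Or.inl ⟨p0, _, a0, h0, t0, by rw [hv, mul_assoc]⟩)
  by_cases a1 : Abn x p1
  · exact Or.inr (Or.inl ⟨p1, _, a1, h1, t1, by rw [hv]; ring⟩)
  simp only [Abn, hp0, hp1, true_and, not_or, not_and, not_le] at a0 a1
  have hS1 : ∀ q ∈ S1 x, q.Prime := fun q hq => (mem_PP.1 (mem_filter.1 hq).1).1
  have hS2 : ∀ q ∈ S2 x, q.Prime := fun q hq => (mem_PP.1 (mem_filter.1 hq).1).1
  by_cases hs : Smooth (zz x) m
  · refine Or.inr (Or.inr (Or.inr ⟨not_le.1 n1, not_lt.1 n4, not_lt.1 n5, ?_, p0, p1,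
      Nat.totient m, hp0, hp1, h1, h01, ?_, hv⟩))
    · have b0 : (omS (S2 x) (p0 - 1) : ℝ) ≤ OmS (S2 x) (p0 - 1) := by
        exact_mod_cast str_omS_le _ hS2 e0
      have b1 : (omS (S2 x) (p1 - 1) : ℝ) ≤ OmS (S2 x) (p1 - 1) := by
        exact_mod_cast str_omS_le _ hS2 e1
      have b2 : (0 : ℝ) ≤ OmS (S2 x) (Nat.totient m) := Nat.cast_nonneg _
      rw [hv, str_OmS_mul _ (mul_ne_zero e0 e1) em, str_OmS_mul _ e0 e1]
      push_cast
      linarith [a0.2 h0, a1.2 h1]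
    · have hw := str_smooth_totient m hs
      exact mem_Wz.2 ⟨⟨hw, str_le_sm hw hv0 (by rw [hv]; exact dvd_mul_left _ _) n5⟩, m, hs, rfl⟩
  obtain ⟨p2, hp2, hd2, h2⟩ := str_not_smooth hm hs
  obtain ⟨m', hm', -, ht⟩ := str_split n3 (m := m) (by rw [hv]; exact dvd_mul_left _ _) hp2
    (by linarith [hx.ll_z1, hx.z1_zz]) hd2
  have hm0 : m' ≠ 0 := by rintro rfl; exact hm (by rw [hm', mul_zero])
  have e2 : p2 - 1 ≠ 0 := by have := hp2.two_le; omega
  have em' : Nat.totient m' ≠ 0 := (Nat.totient_pos.2 (Nat.pos_of_ne_zero hm0)).ne'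
  by_cases a2 : Abn x p2
  · by_cases hd : p1 ∣ m'
    · exact absurd (hm' ▸ hd.mul_left p2) d1
    · refine Or.inr (Or.inr (Or.inl ⟨p0, p2, (p1 - 1) * Nat.totient m', hp0, h0, a2,
        ⟨p1 * m', Nat.mul_pos hp1.pos (Nat.pos_of_ne_zero hm0),
          Nat.totient_mul_of_prime_of_not_dvd hp1 hd⟩, by rw [hv, ht]; ring⟩))
  simp only [Abn, hp2, true_and, not_or, not_and, not_le] at a2
  left
  have b0 : (omS (S1 x) (p0 - 1) : ℝ) ≤ OmS (S1 x) (p0 - 1) := by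
    exact_mod_cast str_omS_le _ hS1 e0
  have b1 : (omS (S1 x) (p1 - 1) : ℝ) ≤ OmS (S1 x) (p1 - 1) := by
    exact_mod_cast str_omS_le _ hS1 e1
  have b2 : (omS (S1 x) (p2 - 1) : ℝ) ≤ OmS (S1 x) (p2 - 1) := by
    exact_mod_cast str_omS_le _ hS1 e2
  have b3 : (0 : ℝ) ≤ OmS (S1 x) (Nat.totient m') := Nat.cast_nonneg _
  rw [Three, hv, ht, str_OmS_mul _ (mul_ne_zero e0 e1) (mul_ne_zero e2 em'), str_OmS_mul _ e0 e1,
    str_OmS_mul _ e2 em']
  push_cast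
  linarith [a0.1 (hzy.trans_lt h0), a1.1 (hzy.trans_lt h1), a2.1 h2]

/-- classification of totient values -/
theorem struct {x : ℝ} (hx : Par x) {v : ℕ} (hv : IsTot v) :
    Neg x v ∨ Three x v ∨ AbA x v ∨ AbB x v ∨ Main x v ∨ Cl1 x v := by
  by_cases hN : Neg x v
  · exact Or.inl hN
  right
  have hN' := hN
  simp only [Neg, not_or] at hN'
  obtain ⟨n1, n2, n3, n4, -⟩ := hN'
  obtain ⟨n, hn, rfl⟩ := hv
  have hn0 : n ≠ 0 := by omega
  have hv0 : Nat.totient n ≠ 0 := (Nat.totient_pos.2 hn).ne'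
  have hly : ll x ^ 2 ≤ yy x := by
    linarith [hx.zz_ZZ, hx.ZZ_z2, hx.z2_z3, hx.z3_y8, hx.y8_yy, hx.z1_ge, hx.z1_zz, hx.ll_z1]
  by_cases hs : Smooth (yy x) n
  · exfalso
    have h1 := str_le_sm (str_smooth_totient n hs) hv0 dvd_rfl n4
    have hl : 0 < ll x := by rw [hx.ll_eq]; exact exp_pos _
    have hY : 0 < YY x := exp_pos _
    refine n1 (h1.trans ?_)
    rw [le_div_iff₀ (by positivity)]
    have h2 : YY x * ll x ^ 2 ≤ (YY x + 2) ^ 2 := by nlinarith [hx.yy_YY]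
    exact h2.trans ((pow_le_pow_right₀ (by linarith) (by norm_num)).trans hx.YY_x)
  obtain ⟨p, hp, hd, hy⟩ := str_not_smooth hn0 hs
  obtain ⟨m, hm, hpm, ht⟩ := str_split n3 dvd_rfl hp (hly.trans_lt hy) hd
  have hm0 : m ≠ 0 := by rintro rfl; exact hn0 (by rw [hm, mul_zero])
  have hmv : Nat.totient m ∣ Nat.totient n := by rw [ht]; exact dvd_mul_left _ _
  by_cases hs' : Smooth (yy x) m
  · have hw := str_smooth_totient m hs'
    refine Or.inr (Or.inr (Or.inr (Or.inl ⟨not_lt.1 n4, p, Nat.totient m, hp, hy, ?_, ht⟩)))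
    refine mem_WW.2 ⟨⟨hw, str_le_sm hw hv0 hmv n4⟩, ⟨m, hs', rfl⟩, ?_⟩
    have : (Om (Nat.totient m) : ℝ) ≤ Om (Nat.totient n) := by exact_mod_cast str_Om_le hv0 hmv
    linarith [not_lt.1 n2]
  obtain ⟨q, hq, hdq, hyq⟩ := str_not_smooth hm0 hs'
  obtain ⟨m', hm', hqm, ht'⟩ := str_split n3 hmv hq (hly.trans_lt hyq) hdq
  have hm0' : m' ≠ 0 := by rintro rfl; exact hm0 (by rw [hm', mul_zero])
  have hpm' : ¬ p ∣ m' := fun h => hpm (hm' ▸ h.mul_left q)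
  have hne : p ≠ q := by rintro rfl; exact hpm hdq
  have key : Three x (Nat.totient n) ∨ AbA x (Nat.totient n) ∨ AbB x (Nat.totient n) ∨
      Cl1 x (Nat.totient n) := by
    rcases lt_or_gt_of_ne hne with h | h
    · exact str_two hx hN hq hp hy h hm0' (by rw [ht, ht']; ring) hqm hpm'
    · exact str_two hx hN hp hq hyq h hm0' (by rw [ht, ht']; ring) hpm' hqm
  tauto

theorem V_lower : ∀ᶠ x in atTop, x / ll x ≤ 2 * (V x : ℝ) := by
  have e1 := ev_log_pow 2 1 (κ := 1 / 20) (b := 1) (by norm_num) one_pos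
  filter_upwards [e1, eventually_ge_atTop 100] with x h1 hx
  rw [pow_one, rpow_one] at h1
  have h2 := Chebyshev.pi_ge' (x := x) (by linarith)
  have h3 : (PP x).card ≤ (Vs x).card := by
    refine card_le_card_of_injOn (fun p => p - 1) (fun p hp => ?_) fun p hp q hq h => ?_
    · have h := mem_PP.1 (mem_coe.1 hp)
      refine mem_coe.2 (mem_Vs.2 ⟨⟨p, h.1.one_le, Nat.totient_prime h.1⟩, le_trans ?_ h.2⟩)
      exact_mod_cast Nat.sub_le p 1
    · have a := (mem_PP.1 (mem_coe.1 hp)).1.two_le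
      have b := (mem_PP.1 (mem_coe.1 hq)).1.two_le
      simp only at h
      omega
  rw [PP, Nat.primesLE_card_eq_primeCounting, ← V_eq] at h3
  have h4 : (Nat.primeCounting ⌊x⌋₊ : ℝ) ≤ V x := by exact_mod_cast h3
  have hl : 0 < log x := log_pos (by linarith)
  have h5 : log (x + 2) ≤ 2 * log x := by
    rw [show 2 * log x = log (x ^ 2) by rw [log_pow]; norm_num]
    exact log_le_log (by linarith) (by nlinarith)
  have h6 := log_two_gt_d9
  have h7 : log 2 ≤ 1 := by linarith [log_two_lt_d9]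
  have h8 : x / 2 / log x ≤ ((x - 1) * log 2 - log (x + 2)) / log x :=
    div_le_div_of_nonneg_right (by nlinarith) hl.le
  have h9 : x / ll x = 2 * (x / 2 / log x) := by rw [ll]; ring
  linarith

end Vale.Agent.P031
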