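import Vale.Agent.P031.C2a
import Vale.Agent.P031.CoA
import Vale.Agent.P031.CoB
import Vale.Agent.P031.CoC
import Vale.Agent.P031.CId
import Vale.Agent.P031.MnL
import Vale.Agent.P031.MnU
import Vale.Agent.P031.Str
import Vale.Agent.P031.Neg
import Vale.Agent.P031.Ab

namespace Vale.Agent.P031

open Finset Real Filter

theorem cl2_lower : ∀ᶠ x in atTop, x / ll x * √(LL x) * G2 x ≤ 200 * (V x : ℝ) := by
  classical
  have e5 : ∀ᶠ L : ℝ in atTop, 120 ≤ √L := tendsto_sqrt_atTop.eventually_ge_atTop _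
  filter_upwards [ev_par, tr2_lower, collA, collB, collC, V_lower, tendsto_LL.eventually e5,
    ev_ll 1] with x hP h1 hA hB hC hV hL hl
  have himg := card_image_ge (Tr2 x) val
  have hsub : (Tr2 x).image val ⊆ Vs x := fun v hv => by
    obtain ⟨t, ht, rfl⟩ := mem_image.1 hv
    exact tr2_tot hP ht
  have h2 : (((Tr2 x).image val).card : ℝ) ≤ V x := by
    rw [V_eq]; exact_mod_cast card_le_card hsub
  set K := (Tr2 x ×ˢ Tr2 x).filter fun t => t.1 ≠ t.2 ∧ val t.1 = val t.2 with hK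
  have hm : ∀ t ∈ K, t.1 ∈ Tr2 x ∧ t.2 ∈ Tr2 x ∧ t.1 ≠ t.2 ∧ val t.1 = val t.2 := fun t ht => by
    have h := mem_filter.1 ht
    have h' := mem_product.1 h.1
    exact ⟨h'.1, h'.2, h.2.1, h.2.2⟩
  have a1 := hA (K.filter fun t => t.1.1 = t.2.1) fun t ht => by
    have h := mem_filter.1 ht
    obtain ⟨a, b, c, d⟩ := hm t h.1
    exact ⟨a, b, c, d, h.2⟩
  have a2 := hB ((K.filter fun t => ¬ t.1.1 = t.2.1).filter fun t => t.1.2.1 = t.2.2.1)
    fun t ht => by
      have h := mem_filter.1 ht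
      have h' := mem_filter.1 h.1
      obtain ⟨a, b, c, d⟩ := hm t h'.1
      exact ⟨a, b, c, d, h'.2, h.2⟩
  have a3 := hC ((K.filter fun t => ¬ t.1.1 = t.2.1).filter fun t => ¬ t.1.2.1 = t.2.2.1)
    fun t ht => by
      have h := mem_filter.1 ht
      have h' := mem_filter.1 h.1
      obtain ⟨a, b, c, d⟩ := hm t h'.1
      exact ⟨a, b, c, d, h'.2, h.2⟩
  have c1 := card_filter_add_card_filter_not (s := K) fun t => t.1.1 = t.2.1
  have c2 := card_filter_add_card_filter_not (s := K.filter fun t => ¬ t.1.1 = t.2.1)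
    fun t => t.1.2.1 = t.2.2.1
  have c3 : (K.card : ℝ) ≤ 3 * (x / ll x * G2 x) := by
    rw [← c1, ← c2]; push_cast; linarith
  have hx0 : 0 ≤ x / ll x := div_nonneg (by linarith [hP.x16]) (by linarith)
  have hG : 0 ≤ x / ll x * G2 x := mul_nonneg hx0 (G2_nonneg x)
  have c4 : 120 * (x / ll x * G2 x) ≤ x / ll x * √(LL x) * G2 x := by nlinarith
  have hV0 : (0 : ℝ) ≤ V x := Nat.cast_nonneg _
  linarith

theorem V_upper {a ε : ℝ} (ha : 1 ≤ a) (hε : 0 < ε) : ∀ᶠ x in atTop,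
    (V (a * x) : ℝ) ≤ (a + ε) * (x / ll x) * GG x + ε * V x := by
  classical
  have hε' : 0 < ε / 14 := by positivity
  obtain ⟨C, hC0, hC⟩ := cl1_card ha hε'
  have e1 : ∀ᶠ L : ℝ in atTop, 200 * C * log L ≤ ε / 7 * √L := by
    filter_upwards [ev_log_pow (200 * C) 1 (κ := ε / 7) (b := 1 / 2) (by positivity) (by norm_num)]
      with L h
    rwa [pow_one, ← sqrt_eq_rpow] at h
  filter_upwards [ev_par, neg_card ha hε', three_card ha hε', abA_card ha hε', abB_card ha hε',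
    main_upper ha hε', hC, cl2_lower, V_lower, tendsto_LL.eventually e1, ev_ll 1]
    with x hP h1 h2 h3 h4 h5 h6 h7 hV hL hl
  set T := Vs (a * x) with hT
  have hm : ∀ v ∈ T, v ≠ 0 ∧ (v : ℝ) ≤ a * x := fun v hv => by
    obtain ⟨⟨n, hn, rfl⟩, h⟩ := mem_Vs.1 hv
    exact ⟨(Nat.totient_pos.2 hn).ne', h⟩
  have a1 := h1 (T.filter (Neg x)) fun v hv => by
    have h := mem_filter.1 hv; exact ⟨(hm v h.1).1, (hm v h.1).2, h.2⟩
  have a2 := h2 (T.filter (Three x)) fun v hv => by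
    have h := mem_filter.1 hv; exact ⟨(hm v h.1).1, (hm v h.1).2, h.2⟩
  have a3 := h3 (T.filter (AbA x)) fun v hv => by
    have h := mem_filter.1 hv; exact ⟨(hm v h.1).2, h.2⟩
  have a4 := h4 (T.filter (AbB x)) fun v hv => by
    have h := mem_filter.1 hv; exact ⟨(hm v h.1).2, h.2⟩
  have a5 := h5 (T.filter (Main x)) fun v hv => by
    have h := mem_filter.1 hv; exact ⟨(hm v h.1).2, h.2⟩
  have a6 := h6 (T.filter (Cl1 x)) fun v hv => by
    have h := mem_filter.1 hv; exact ⟨(hm v h.1).2, h.2⟩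
  have hsub : T ⊆ T.filter (Neg x) ∪ T.filter (Three x) ∪ T.filter (AbA x) ∪ T.filter (AbB x) ∪
      T.filter (Main x) ∪ T.filter (Cl1 x) := fun v hv => by
    simp only [mem_union, mem_filter]
    have := struct hP (mem_Vs.1 hv).1
    tauto
  have hc : T.card ≤ (T.filter (Neg x)).card + (T.filter (Three x)).card + (T.filter (AbA x)).card
      + (T.filter (AbB x)).card + (T.filter (Main x)).card + (T.filter (Cl1 x)).card := by
    refine (card_le_card hsub).trans ?_
    refine (card_union_le _ _).trans (Nat.add_le_add_right ?_ _)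
    refine (card_union_le _ _).trans (Nat.add_le_add_right ?_ _)
    refine (card_union_le _ _).trans (Nat.add_le_add_right ?_ _)
    refine (card_union_le _ _).trans (Nat.add_le_add_right ?_ _)
    exact card_union_le _ _
  have hc' : (T.card : ℝ) ≤ (T.filter (Neg x)).card + (T.filter (Three x)).card
      + (T.filter (AbA x)).card + (T.filter (AbB x)).card + (T.filter (Main x)).card
      + (T.filter (Cl1 x)).card := by exact_mod_cast hc
  have hx0 : 0 ≤ x / ll x := div_nonneg (by linarith [hP.x16]) (by linarith)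
  have hG : 0 ≤ x / ll x * G2 x := mul_nonneg hx0 (G2_nonneg x)
  have hGG : 0 ≤ x / ll x * GG x := mul_nonneg hx0 (GG_nonneg x)
  have b1 : 200 * (C * (x / ll x) * log (LL x) * G2 x) ≤ ε / 7 * (200 * V x) := by
    calc 200 * (C * (x / ll x) * log (LL x) * G2 x) = 200 * C * log (LL x) * (x / ll x * G2 x) := by
          ring
      _ ≤ ε / 7 * √(LL x) * (x / ll x * G2 x) := mul_le_mul_of_nonneg_right hL hG
      _ = ε / 7 * (x / ll x * √(LL x) * G2 x) := by ring
      _ ≤ _ := mul_le_mul_of_nonneg_left h7 (by positivity)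
  have b2 : ε / 14 * (x / ll x) ≤ ε / 7 * V x := by nlinarith
  have b3 : (a + ε / 14) * (x / ll x) * GG x ≤ (a + ε) * (x / ll x) * GG x := by nlinarith
  rw [V_eq]
  linarith

theorem fin_alg {c δ A V1 Vc u : ℝ} (hc : 1 < c) (hδ : 0 < δ) (hδ1 : δ ≤ 1 / 10) (hA : 0 ≤ A)
    (hu : 0 < u) (hV : u ≤ 2 * V1) (h1 : V1 ≤ (1 + δ) * A + δ * V1)
    (h2 : (1 - δ) * A - δ * u ≤ V1) (h3 : Vc ≤ (c + δ) * A + δ * V1)
    (h4 : (c - δ) * A - δ * u ≤ Vc) : |Vc / V1 - c| ≤ 10 * c * δ := by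
  have hV0 : 0 < V1 := by linarith
  have a1 : A ≤ (1 + 4 * δ) * V1 := by
    have : (1 - δ) * A ≤ (1 + 2 * δ) * V1 := by nlinarith
    have h5 : (1 + 2 * δ) * V1 ≤ (1 - δ) * ((1 + 4 * δ) * V1) := by
      have : 0 ≤ δ * (1 - 4 * δ) * V1 := mul_nonneg (mul_nonneg hδ.le (by linarith)) hV0.le
      nlinarith
    exact le_of_mul_le_mul_left (this.trans h5) (by linarith)
  have a2 : (1 - 2 * δ) * V1 ≤ A := by
    have : (1 - δ) * V1 ≤ (1 + δ) * A := by nlinarith
    have h5 : (1 + δ) * ((1 - 2 * δ) * V1) ≤ (1 - δ) * V1 := by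
      have : 0 ≤ δ * δ * V1 := by positivity
      nlinarith
    exact le_of_mul_le_mul_left (h5.trans this) (by linarith)
  have hcd : 0 ≤ c * δ * V1 := by positivity
  have hd : δ * V1 ≤ c * δ * V1 := by
    have : 0 ≤ (c - 1) * (δ * V1) := mul_nonneg (by linarith) (by positivity)
    nlinarith
  have hdd : δ * δ * V1 ≤ δ * V1 := by
    have : 0 ≤ (1 - δ) * (δ * V1) := mul_nonneg (by linarith) (by positivity)
    nlinarith
  have hdd0 : 0 ≤ δ * δ * V1 := by positivity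
  rw [abs_le, le_sub_iff_add_le, sub_le_iff_le_add, le_div_iff₀ hV0, div_le_iff₀ hV0]
  constructor
  · have b1 : (c - δ) * ((1 - 2 * δ) * V1) ≤ (c - δ) * A :=
      mul_le_mul_of_nonneg_left a2 (by linarith)
    have b2 : δ * u ≤ δ * (2 * V1) := mul_le_mul_of_nonneg_left hV hδ.le
    nlinarith
  · have b1 : (c + δ) * A ≤ (c + δ) * ((1 + 4 * δ) * V1) :=
      mul_le_mul_of_nonneg_left a1 (by linarith)
    nlinarith

theorem erdos_hall (c : ℝ) (hc : 1 < c) :
    Tendsto (fun x : ℝ => (V (c * x) : ℝ) / (V x : ℝ)) atTop (nhds c) := by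
  rw [Metric.tendsto_nhds]
  intro ε hε
  set δ := min (1 / 10) (ε / (20 * c)) with hδ
  have hδ0 : 0 < δ := lt_min (by norm_num) (by positivity)
  have hδ1 : δ ≤ 1 / 10 := min_le_left _ _
  have hδ2 : δ ≤ ε / (20 * c) := min_le_right _ _
  filter_upwards [V_upper le_rfl hδ0, main_lower le_rfl hδ0, V_upper hc.le hδ0,
    main_lower hc.le hδ0, V_lower, ev_ll 1, eventually_gt_atTop 0] with x h1 h2 h3 h4 hV hl hx
  rw [one_mul] at h1 h2
  have hu : 0 < x / ll x := div_pos hx (by linarith)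
  have := fin_alg (A := x / ll x * GG x) hc hδ0 hδ1 (mul_nonneg hu.le (GG_nonneg x)) hu hV
    (by linarith) (by linarith) (Vc := V (c * x)) (by linarith) (by linarith)
  rw [Real.dist_eq]
  rw [le_div_iff₀ (by positivity)] at hδ2
  nlinarith

end Vale.Agent.P031
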