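import Vale.Agent.P031.LL

namespace Vale.Agent.P031

open Finset Real Filter

theorem Fk_summable {r : ℕ} (χ : DirichletCharacter ℂ r) (k : ℕ) {s : ℂ} (hs : 1 < s.re) :
    LSeriesSummable (fun n => lamChi χ n * ((log n : ℝ) : ℂ) ^ k) s := by
  refine Summable.of_norm_bounded (summable_norm_iff.2 (Lj_summable χ (k + 1) hs)) fun n => ?_
  refine LSeries.norm_term_le s ?_
  simp only [lamChi, norm_mul, norm_pow, Complex.norm_real, pow_succ,
    norm_of_nonneg ArithmeticFunction.vonMangoldt_nonneg, norm_of_nonneg (log_natCast_nonneg n)]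
  have h1 := mul_le_mul_of_nonneg_left (ArithmeticFunction.vonMangoldt_le_log (n := n))
    (mul_nonneg (norm_nonneg (χ n)) (pow_nonneg (log_natCast_nonneg n) k))
  linarith

theorem Fk_rec {r : ℕ} (χ : DirichletCharacter ℂ r) (k : ℕ) {s : ℂ} (hs : 1 < s.re) :
    ∑ j ∈ range (k + 1), (k.choose j : ℂ) * Fk χ j s * Lj χ (k - j) s = Lj χ (k + 1) s := by
  have h1 := LSeriesHasSum.sum (S := range (k + 1)) fun j _ =>
    ((Fk_summable χ j hs).LSeriesHasSum.convolution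
      (Lj_summable χ (k - j) hs).LSeriesHasSum).smul (k.choose j : ℂ)
  simp only [mul_assoc]
  refine h1.LSeries_eq.symm.trans (LSeries_congr (fun {n} hn => ?_) s)
  simp only [Finset.sum_apply, Pi.smul_apply, LSeries.convolution_def, smul_eq_mul, mul_sum]
  rw [sum_comm]
  have h2 : ∀ p ∈ n.divisorsAntidiagonal, ∑ j ∈ range (k + 1), (k.choose j : ℂ) *
      (lamChi χ p.1 * ((log p.1 : ℝ) : ℂ) ^ j * (χ p.2 * ((log p.2 : ℝ) : ℂ) ^ (k - j))) =
      χ n * ((log n : ℝ) : ℂ) ^ k * (ArithmeticFunction.vonMangoldt p.1 : ℂ) := by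
    intro p hp
    obtain ⟨h3, -⟩ := Nat.mem_divisorsAntidiagonal.1 hp
    have h4 := Nat.ne_zero_of_mem_divisorsAntidiagonal hp
    rw [← h3, Nat.cast_mul, Nat.cast_mul, map_mul, log_mul (by exact_mod_cast h4.1)
      (by exact_mod_cast h4.2), Complex.ofReal_add, add_pow, mul_sum, sum_mul]
    refine sum_congr rfl fun j _ => ?_
    simp only [lamChi]
    ring
  rw [sum_congr rfl h2, ← mul_sum, Nat.sum_divisorsAntidiagonal
    (fun d _ => (ArithmeticFunction.vonMangoldt d : ℂ)), ← Complex.ofReal_sum,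
    ArithmeticFunction.vonMangoldt_sum]
  ring

/-- bounded by a small power of `R` times a power of `T` -/
def FkB {ι : Type} (R T : ι → ℝ) (f : ι → ℂ) : Prop :=
  ∀ η : ℝ, 0 < η → ∃ (C : ℝ) (N : ℕ), 0 ≤ C ∧ ∀ x, ‖f x‖ ≤ C * R x ^ η * T x ^ N

section B
variable {ι : Type} {R T : ι → ℝ} {f g : ι → ℂ}

theorem FkB.add (hR : ∀ x, 1 ≤ R x) (hT : ∀ x, 1 ≤ T x) (hf : FkB R T f) (hg : FkB R T g) :
    FkB R T fun x => f x + g x := fun η hη => by
  obtain ⟨C, N, hC, h⟩ := hf η hη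
  obtain ⟨C', N', hC', h'⟩ := hg η hη
  refine ⟨C + C', N + N', by positivity, fun x => (norm_add_le _ _).trans ?_⟩
  have h0 : 0 ≤ R x ^ η := rpow_nonneg (by linarith [hR x]) _
  have h1 := mul_le_mul_of_nonneg_left (pow_le_pow_right₀ (hT x) (Nat.le_add_right N N'))
    (mul_nonneg hC h0)
  have h2 := mul_le_mul_of_nonneg_left (pow_le_pow_right₀ (hT x) (Nat.le_add_left N' N))
    (mul_nonneg hC' h0)
  linarith [h x, h' x]

theorem FkB.mul (hR : ∀ x, 1 ≤ R x) (hf : FkB R T f) (hg : FkB R T g) :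
    FkB R T fun x => f x * g x := fun η hη => by
  obtain ⟨C, N, hC, h⟩ := hf (η / 2) (by positivity)
  obtain ⟨C', N', hC', h'⟩ := hg (η / 2) (by positivity)
  refine ⟨C * C', N + N', by positivity, fun x => ?_⟩
  have h1 : R x ^ η = R x ^ (η / 2) * R x ^ (η / 2) := by
    rw [← rpow_add (by linarith [hR x]), add_halves]
  rw [norm_mul, h1, pow_add]
  exact (mul_le_mul (h x) (h' x) (norm_nonneg _) ((norm_nonneg _).trans (h x))).trans_eq (by ring)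

theorem FkB.of_le (hR : ∀ x, 1 ≤ R x) (hT : ∀ x, 1 ≤ T x) {C : ℝ} (hC : 0 ≤ C) (N : ℕ)
    (h : ∀ x, ‖f x‖ ≤ C * T x ^ N) : FkB R T f := fun η hη =>
  ⟨C, N, hC, fun x => (h x).trans (mul_le_mul_of_nonneg_right
    (le_mul_of_one_le_right hC (one_le_rpow (hR x) hη.le)) (pow_nonneg (by linarith [hT x]) N))⟩

theorem FkB.const (hR : ∀ x, 1 ≤ R x) (hT : ∀ x, 1 ≤ T x) (c : ℂ) : FkB R T fun _ => c :=
  FkB.of_le hR hT (norm_nonneg c) 0 fun _ => by simp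

theorem FkB.sub (hR : ∀ x, 1 ≤ R x) (hT : ∀ x, 1 ≤ T x) (hf : FkB R T f) (hg : FkB R T g) :
    FkB R T fun x => f x - g x := by
  simpa [sub_eq_add_neg] using hf.add hR hT ((FkB.const hR hT (-1)).mul hR hg)

theorem FkB.sum (hR : ∀ x, 1 ≤ R x) (hT : ∀ x, 1 ≤ T x) {κ : Type} (S : Finset κ)
    {f : κ → ι → ℂ} (h : ∀ j ∈ S, FkB R T (f j)) : FkB R T fun x => ∑ j ∈ S, f j x := by
  classical
  induction S using Finset.induction_on with
  | empty => simpa using FkB.const hR hT 0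
  | insert a S ha ih =>
    simp only [sum_insert ha]
    exact (h a (mem_insert_self _ _)).add hR hT (ih fun j hj => h j (mem_insert_of_mem hj))

end B

theorem Fk_inv {z : ℂ} {c a b : ℝ} (hc : 0 < c) (ha : 0 < a) (hb : 0 < b)
    (h : c * a⁻¹ / b ≤ ‖z‖) : z ≠ 0 ∧ ‖z⁻¹‖ ≤ c⁻¹ * a * b := by
  have h1 : 0 < c * a⁻¹ / b := by positivity
  refine ⟨norm_pos_iff.1 (h1.trans_le h), ?_⟩
  rw [norm_inv]
  refine (inv_anti₀ h1 h).trans_eq ?_
  field_simp

/-- the parameters of the estimates for nontrivial characters -/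
structure FkP where
  r : ℕ
  χ : DirichletCharacter ℂ r
  s : ℂ
  hr : r ≠ 0
  hp : χ.IsPrimitive
  h1 : χ ≠ 1
  hs : 1 < s.re
  hs' : s.re ≤ 2

theorem Fk_le (k : ℕ) {η : ℝ} (hη : 0 < η) : ∃ (C : ℝ) (N : ℕ), ∀ (r : ℕ)
    (χ : DirichletCharacter ℂ r), r ≠ 0 → χ.IsPrimitive → χ ≠ 1 → ∀ s : ℂ, 1 < s.re → s.re ≤ 2 →
    ‖Fk χ k s‖ ≤ C * (r : ℝ) ^ η * (1 + ‖s‖) ^ N := by
  have hR : ∀ x : FkP, (1 : ℝ) ≤ x.r := fun x => by exact_mod_cast Nat.one_le_iff_ne_zero.2 x.hr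
  have hT : ∀ x : FkP, 1 ≤ 1 + ‖x.s‖ := fun x => le_add_of_nonneg_right (norm_nonneg _)
  have hL : ∀ j, FkB (fun x : FkP => (x.r : ℝ)) (fun x => 1 + ‖x.s‖) fun x => Lj x.χ j x.s :=
    fun j η hη => by
      obtain ⟨C, hC, h⟩ := Lj_le j hη
      exact ⟨C, 1, by linarith, fun x => by simpa using h x.r x.χ x.hr x.h1 x.s x.hs x.hs'⟩
  have h0 : ∀ η : ℝ, 0 < η → ∃ c : ℝ, 0 < c ∧ ∀ x : FkP, Lj x.χ 0 x.s ≠ 0 ∧
      ‖(Lj x.χ 0 x.s)⁻¹‖ ≤ c⁻¹ * (x.r : ℝ) ^ η * (1 + ‖x.s‖) ^ 4 := fun η hη => by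
    obtain ⟨c, hc, h⟩ := L0_ge hη
    refine ⟨c, hc, fun x => Fk_inv hc (rpow_pos_of_pos (by linarith [hR x]) _) (by positivity) ?_⟩
    rw [← rpow_neg (Nat.cast_nonneg _)]
    exact h x.r x.χ x.hr x.hp x.h1 x.s x.hs x.hs'
  have hI : FkB (fun x : FkP => (x.r : ℝ)) (fun x => 1 + ‖x.s‖) fun x => (Lj x.χ 0 x.s)⁻¹ :=
    fun η hη => by
      obtain ⟨c, hc, h⟩ := h0 η hη
      exact ⟨c⁻¹, 4, by positivity, fun x => (h x).2⟩
  have key : ∀ k, FkB (fun x : FkP => (x.r : ℝ)) (fun x => 1 + ‖x.s‖) fun x => Fk x.χ k x.s := by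
    intro k
    induction k using Nat.strong_induction_on with
    | _ k ih =>
      have h1 := ((hL (k + 1)).sub hR hT (FkB.sum hR hT (range k) fun j hj =>
        ((FkB.const hR hT (k.choose j : ℂ)).mul hR (ih j (mem_range.1 hj))).mul hR
          (hL (k - j)))).mul hR hI
      convert h1 using 2 with x
      obtain ⟨c, -, h⟩ := h0 1 one_pos
      rw [eq_mul_inv_iff_mul_eq₀ (h x).1, ← Fk_rec x.χ k x.hs, sum_range_succ]
      simp
  obtain ⟨C, N, -, h⟩ := key k η hη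
  exact ⟨C, N, fun r χ hr hp h1 s hs hs' => h ⟨r, χ, s, hr, hp, h1, hs, hs'⟩⟩

theorem Fk_zeta_le (k : ℕ) (hk : k ≤ 1) : ∃ (C : ℝ) (N : ℕ), ∀ s : ℂ, 1 < s.re → s.re ≤ 2 →
    ‖Fk (1 : DirichletCharacter ℂ 1) k s - Lj (1 : DirichletCharacter ℂ 1) k s‖
      ≤ C * (1 + ‖s‖) ^ N := by
  let ι := {s : ℂ // 1 < s.re ∧ s.re ≤ 2}
  have hR : ∀ _ : ι, (1 : ℝ) ≤ 1 := fun _ => le_rfl
  have hT : ∀ x : ι, 1 ≤ 1 + ‖x.1‖ := fun x => le_add_of_nonneg_right (norm_nonneg _)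
  let E : ℕ → ι → ℂ := fun j x =>
    Lj (1 : DirichletCharacter ℂ 1) j x.1 - (j.factorial : ℂ) / (x.1 - 1) ^ (j + 1)
  have hE : ∀ j ≤ 2, FkB (fun _ : ι => 1) (fun x => 1 + ‖x.1‖) (E j) := fun j hj => by
    obtain ⟨C, hC, h⟩ := zeta_j j hj
    exact FkB.of_le hR hT (C := C) (by linarith) 1 fun x => by simpa using h x.1 x.2.1 x.2.2
  have hu : FkB (fun _ : ι => 1) (fun x => 1 + ‖x.1‖) fun x => x.1 - 1 :=
    FkB.of_le hR hT zero_le_one 1 fun x => by simpa [add_comm] using norm_sub_le x.1 1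
  obtain ⟨c, hc, hZ⟩ := Z_ge
  have hZ' := fun x : ι => Fk_inv (b := (1 + ‖x.1‖) ^ 4)
    (z := (x.1 - 1) * Lj (1 : DirichletCharacter ℂ 1) 0 x.1) hc one_pos (by positivity)
    (by simpa only [inv_one, mul_one] using hZ x.1 x.2.1 x.2.2)
  have hY : FkB (fun _ : ι => 1) (fun x => 1 + ‖x.1‖)
      fun x => ((x.1 - 1) * Lj (1 : DirichletCharacter ℂ 1) 0 x.1)⁻¹ :=
    FkB.of_le hR hT (C := c⁻¹) (by positivity) 4 fun x => by
      simpa only [mul_one] using (hZ' x).2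
  have hA := ((hu.mul hR (hE 1 one_le_two)).sub hR hT (hE 0 zero_le_two)).mul hR hY
  have r0 : ∀ x : ι, Fk (1 : DirichletCharacter ℂ 1) 0 x.1 =
      Lj (1 : DirichletCharacter ℂ 1) 1 x.1 / Lj (1 : DirichletCharacter ℂ 1) 0 x.1 := fun x => by
    rw [eq_div_iff (right_ne_zero_of_mul (hZ' x).1)]
    simpa using Fk_rec (1 : DirichletCharacter ℂ 1) 0 x.2.1
  have r1 : ∀ x : ι, Fk (1 : DirichletCharacter ℂ 1) 1 x.1 =
      (Lj (1 : DirichletCharacter ℂ 1) 2 x.1 - Fk (1 : DirichletCharacter ℂ 1) 0 x.1 *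
        Lj (1 : DirichletCharacter ℂ 1) 1 x.1) / Lj (1 : DirichletCharacter ℂ 1) 0 x.1 :=
    fun x => by
      rw [eq_div_iff (right_ne_zero_of_mul (hZ' x).1), eq_sub_iff_add_eq']
      simpa [sum_range_succ] using Fk_rec (1 : DirichletCharacter ℂ 1) 1 x.2.1
  have key : FkB (fun _ : ι => 1) (fun x => 1 + ‖x.1‖) fun x =>
      Fk (1 : DirichletCharacter ℂ 1) k x.1 - Lj (1 : DirichletCharacter ℂ 1) k x.1 := by
    interval_cases k
    · convert hA.sub hR hT (hE 0 zero_le_two) using 2 with x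
      have h1 := left_ne_zero_of_mul (hZ' x).1
      have h2 := right_ne_zero_of_mul (hZ' x).1
      simp only [r0, E, Nat.factorial, Nat.succ_eq_add_one]
      field_simp
      ring
    · convert (((((hu.mul hR (hE 2 le_rfl)).sub hR hT (hE 1 one_le_two)).sub hR hT
        ((hA.mul hR hu).mul hR (hE 1 one_le_two))).mul hR hY).sub hR hT
        (((((hE 0 zero_le_two).mul hR (hE 0 zero_le_two)).add hR hT (hE 1 one_le_two)).mul hR
          hY).mul hR hY)).sub hR hT (hE 1 one_le_two) using 2 with x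
      have h1 := left_ne_zero_of_mul (hZ' x).1
      have h2 := right_ne_zero_of_mul (hZ' x).1
      simp only [r1, r0, E, Nat.factorial, Nat.succ_eq_add_one]
      field_simp
      ring
  obtain ⟨C, N, -, h⟩ := key 1 one_pos
  exact ⟨C, N, fun s hs hs' => by simpa using h ⟨s, hs, hs'⟩⟩

end Vale.Agent.P031
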