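import Vale.Agent.P031.D

namespace Vale.Agent.P031

open Finset Real Filter

theorem LSa_sep {ι : Type*} [DecidableEq ι] (H : ℝ → ℝ) (hH : Monotone H) (p : ι → ℝ) (δ : ℝ)
    (t : Finset ι) : (∀ i ∈ t, ∀ j ∈ t, i ≠ j → δ ≤ |p i - p j|) → (∀ i ∈ t, 0 ≤ p i) →
    ∀ b, 0 ≤ b → (∀ i ∈ t, p i + δ ≤ b) → ∑ i ∈ t, (H (p i + δ) - H (p i)) ≤ H b - H 0 := by
  induction t using Finset.induction_on_max_value p with
  | empty => intro _ _ b hb _; simpa using hH hb
  | insert a s ha hmax ih =>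
    intro hsep h0 b _ hb
    rw [sum_insert ha]
    have := ih (fun i hi j hj => hsep i (mem_insert_of_mem hi) j (mem_insert_of_mem hj))
      (fun i hi => h0 i (mem_insert_of_mem hi)) (p a) (h0 a (mem_insert_self _ _)) (fun i hi => by
        have h1 := hsep a (mem_insert_self _ _) i (mem_insert_of_mem hi) (fun e => ha (e ▸ hi))
        rw [abs_of_nonneg (sub_nonneg.2 (hmax i hi))] at h1
        linarith)
    have h2 := hH (hb a (mem_insert_self _ _))
    linarith

theorem LSa_mono (g : ℝ → ℝ) (hg : Continuous g) (h0 : ∀ x, 0 ≤ g x) :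
    Monotone fun u => ∫ x in (0 : ℝ)..u, g x :=
  monotone_of_deriv_nonneg (fun x => (hg.integral_hasStrictDerivAt 0 x).hasDerivAt.differentiableAt)
    fun x => by rw [(hg.integral_hasStrictDerivAt 0 x).hasDerivAt.deriv]; exact h0 x

theorem LSa_gall {ι : Type*} [DecidableEq ι] (f f' g : ℝ → ℝ) (hf : ∀ x, HasDerivAt f (f' x) x)
    (hg : Continuous g) (hf0 : ∀ x, 0 ≤ f x) (hfg : ∀ x, |f' x| ≤ g x) (p : ι → ℝ) {δ : ℝ}
    (hδ : 0 < δ) (t : Finset ι) (hsep : ∀ i ∈ t, ∀ j ∈ t, i ≠ j → δ ≤ |p i - p j|)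
    (h0 : ∀ i ∈ t, 0 ≤ p i) (h2 : ∀ i ∈ t, p i + δ ≤ 2) :
    δ * ∑ i ∈ t, f (p i) ≤ (∫ x in (0 : ℝ)..2, f x) + δ * ∫ x in (0 : ℝ)..2, g x := by
  have hfc : Continuous f := continuous_iff_continuousAt.2 fun x => (hf x).continuousAt
  have hg0 : ∀ x, 0 ≤ g x := fun x => (abs_nonneg _).trans (hfg x)
  set F : ℝ → ℝ := fun u => ∫ x in (0 : ℝ)..u, f x with hF
  set G : ℝ → ℝ := fun u => ∫ x in (0 : ℝ)..u, g x with hG
  have hFm : Monotone F := LSa_mono f hfc hf0
  have hGm : Monotone G := LSa_mono g hg hg0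
  have hd : ∀ x, HasDerivAt (fun x => f x + G x) (f' x + g x) x := fun x =>
    (hf x).add (hg.integral_hasStrictDerivAt 0 x).hasDerivAt
  have hm : Monotone fun x => f x + G x :=
    monotone_of_deriv_nonneg (fun x => (hd x).differentiableAt) fun x => by
      rw [(hd x).deriv]; linarith [(abs_le.1 (hfg x)).1]
  have loc : ∀ a, δ * f a ≤ (F (a + δ) - F a) + δ * (G (a + δ) - G a) := by
    intro a
    have e : F (a + δ) - F a = ∫ x in a..(a + δ), f x :=
      intervalIntegral.integral_interval_sub_left (hfc.intervalIntegrable _ _)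
        (hfc.intervalIntegrable _ _)
    have h1 : ∫ _ in a..(a + δ), (f a - (G (a + δ) - G a)) ≤ ∫ x in a..(a + δ), f x := by
      refine intervalIntegral.integral_mono_on (by linarith) (by simp)
        (hfc.intervalIntegrable _ _) fun x hx => ?_
      have a1 := hm hx.1
      have a2 := hGm hx.2
      simp only at a1
      linarith
    rw [intervalIntegral.integral_const, smul_eq_mul] at h1
    rw [e]
    nlinarith
  have s1 := LSa_sep F hFm p δ t hsep h0 2 (by norm_num) h2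
  have s2 := LSa_sep G hGm p δ t hsep h0 2 (by norm_num) h2
  have e1 : F 0 = 0 := by simp [hF]
  have e2 : G 0 = 0 := by simp [hG]
  rw [mul_sum]
  refine (sum_le_sum fun i _ => loc (p i)).trans ?_
  rw [sum_add_distrib, ← mul_sum]
  have := mul_le_mul_of_nonneg_left s2 hδ.le
  simp only [hF, hG] at s1 this e1 e2 ⊢
  rw [e1] at s1
  rw [e2] at this
  linarith

/-- trigonometric polynomial -/
noncomputable def LSa_T (s : Finset ℕ) (M : ℕ) (d : ℕ → ℂ) (x : ℝ) : ℂ :=
  ∑ n ∈ s, d n * Complex.exp (2 * π * Complex.I * ((n : ℂ) - M) * x)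

theorem LSa_deriv (s : Finset ℕ) (M : ℕ) (d : ℕ → ℂ) (x : ℝ) : HasDerivAt (LSa_T s M d)
    (LSa_T s M (fun n => d n * (2 * π * Complex.I * ((n : ℂ) - M))) x) x := by
  unfold LSa_T
  refine HasDerivAt.fun_sum fun n _ => ?_
  have h := ((((hasDerivAt_id (x : ℂ)).const_mul
    (2 * π * Complex.I * ((n : ℂ) - M))).cexp).const_mul (d n)).comp_ofReal
  refine HasDerivAt.congr_deriv h ?_
  simp only [id]
  ring

theorem LSa_cont (s : Finset ℕ) (M : ℕ) (d : ℕ → ℂ) : Continuous (LSa_T s M d) :=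
  continuous_iff_continuousAt.2 fun x => (LSa_deriv s M d x).continuousAt

theorem LSa_parseval (s : Finset ℕ) (M : ℕ) (d : ℕ → ℂ) :
    ∫ x in (0 : ℝ)..2, ‖LSa_T s M d x‖ ^ 2 = 2 * ∑ n ∈ s, ‖d n‖ ^ 2 := by
  have e : ∀ x : ℝ, ((‖LSa_T s M d x‖ ^ 2 : ℝ) : ℂ) = ∑ m ∈ s, ∑ n ∈ s,
      d m * (starRingEnd ℂ) (d n) * Complex.exp (2 * π * Complex.I * ((m : ℂ) - n) * x) := by
    intro x
    rw [Complex.ofReal_pow, ← Complex.mul_conj', LSa_T, map_sum, sum_mul_sum]
    refine sum_congr rfl fun m _ => sum_congr rfl fun n _ => ?_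
    rw [map_mul, ← Complex.exp_conj, mul_mul_mul_comm, ← Complex.exp_add]
    congr 2
    simp only [map_mul, map_sub, Complex.conj_ofReal, Complex.conj_I, map_natCast, map_ofNat]
    ring
  have o : ∀ m n : ℕ, ∫ x in (0 : ℝ)..2, Complex.exp (2 * π * Complex.I * ((m : ℂ) - n) * x) =
      if m = n then 2 else 0 := by
    intro m n
    split_ifs with h
    · subst h; simp
    · have hne : (2 * π * Complex.I * ((m : ℂ) - n)) ≠ 0 :=
        mul_ne_zero Complex.two_pi_I_ne_zero (sub_ne_zero.2 (by exact_mod_cast h))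
      rw [integral_exp_mul_complex hne]
      have : Complex.exp (2 * π * Complex.I * ((m : ℂ) - n) * (2 : ℝ)) = 1 := by
        rw [← Complex.exp_int_mul_two_pi_mul_I (2 * (m - n))]
        congr 1
        push_cast
        ring
      rw [this]
      simp
  apply Complex.ofReal_injective
  rw [← intervalIntegral.integral_ofReal]
  simp only [e]
  rw [intervalIntegral.integral_finsetSum fun m _ => Continuous.intervalIntegrable (by fun_prop) _ _]
  push_cast
  rw [mul_sum]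
  refine sum_congr rfl fun m hm => ?_
  rw [intervalIntegral.integral_finsetSum fun m _ => Continuous.intervalIntegrable (by fun_prop) _ _]
  simp only [intervalIntegral.integral_const_mul, o, mul_ite, mul_zero]
  rw [sum_ite_eq, if_pos hm, Complex.mul_conj']
  ring

/-- the additive large sieve inequality -/
theorem large_sieve_add : ∃ C : ℝ, 0 ≤ C ∧ ∀ (Q M N : ℕ) (c : ℕ → ℂ),
    ∑ r ∈ Icc 1 Q, ∑ a ∈ (range r).filter (fun a => a.Coprime r),
      ‖∑ n ∈ Ioc M (M + N), c n * Complex.exp (2 * π * Complex.I * n * a / r)‖ ^ 2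
      ≤ C * (N + Q ^ 2) * ∑ n ∈ Ioc M (M + N), ‖c n‖ ^ 2 := by
  refine ⟨200, by norm_num, fun Q M N c => ?_⟩
  set s := Ioc M (M + N) with hs
  set P := ∑ n ∈ s, ‖c n‖ ^ 2 with hP
  have hP0 : 0 ≤ P := sum_nonneg fun _ _ => by positivity
  rcases Nat.eq_zero_or_pos Q with rfl | hQ
  · simp only [Nat.lt_one_iff, Icc_eq_empty_of_lt, sum_empty]; positivity
  have hQ1 : (1 : ℝ) ≤ Q := by exact_mod_cast hQ
  set c' : ℕ → ℂ := fun n => c n * (2 * π * Complex.I * ((n : ℂ) - M)) with hc'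
  set lam : ℝ := N + 1 with hlam
  have hl : 0 < lam := by positivity
  have hc1 := LSa_cont s M c
  have hc2 := LSa_cont s M c'
  have key := LSa_gall (ι := (_ : ℕ) × ℕ) (fun x => ‖LSa_T s M c x‖ ^ 2) _
    (fun x => lam * ‖LSa_T s M c x‖ ^ 2 + lam⁻¹ * ‖LSa_T s M c' x‖ ^ 2)
    (fun x => (LSa_deriv s M c x).norm_sq) (by fun_prop) (fun x => by positivity) (fun x => by
      rw [abs_mul, abs_two]
      have h1 := abs_real_inner_le_norm (LSa_T s M c x) (LSa_T s M c' x)
      have h2 : 2 * (‖LSa_T s M c x‖ * ‖LSa_T s M c' x‖) ≤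
          lam * ‖LSa_T s M c x‖ ^ 2 + lam⁻¹ * ‖LSa_T s M c' x‖ ^ 2 := by
        have h3 : 0 ≤ lam⁻¹ * (lam * ‖LSa_T s M c x‖ - ‖LSa_T s M c' x‖) ^ 2 := by positivity
        have h4 : lam⁻¹ * (lam * ‖LSa_T s M c x‖ - ‖LSa_T s M c' x‖) ^ 2 =
            lam * ‖LSa_T s M c x‖ ^ 2 + lam⁻¹ * ‖LSa_T s M c' x‖ ^ 2 -
              2 * (‖LSa_T s M c x‖ * ‖LSa_T s M c' x‖) := by field_simp; ring
        linarith
      linarith)
    (fun q => (q.2 : ℝ) / q.1) (δ := 1 / Q ^ 2) (by positivity)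
    ((Icc 1 Q).sigma fun r => (range r).filter fun a => a.Coprime r) ?_
    (fun i _ => by positivity) ?_
  · rw [sum_sigma] at key
    rw [intervalIntegral.integral_add (Continuous.intervalIntegrable (by fun_prop) _ _)
      (Continuous.intervalIntegrable (by fun_prop) _ _), intervalIntegral.integral_const_mul,
      intervalIntegral.integral_const_mul, LSa_parseval, LSa_parseval] at key
    have h1 : ∑ n ∈ s, ‖c' n‖ ^ 2 ≤ 64 * lam ^ 2 * P := by
      rw [hP, mul_sum]
      refine sum_le_sum fun n hn => ?_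
      have hn' := mem_Ioc.1 hn
      have h2 : ‖(n : ℂ) - M‖ ≤ lam := by
        rw [← Nat.cast_sub hn'.1.le, Complex.norm_natCast, hlam]
        exact_mod_cast (by omega : n - M ≤ N + 1)
      have h3 : ‖(2 * π * Complex.I * ((n : ℂ) - M))‖ ≤ 8 * lam := by
        rw [norm_mul, norm_mul, norm_mul, Complex.norm_I, Complex.norm_real, Complex.norm_ofNat,
          Real.norm_of_nonneg pi_pos.le]
        exact mul_le_mul (by linarith [pi_le_four]) h2 (norm_nonneg _) (by norm_num)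
      rw [hc', norm_mul, mul_pow, mul_comm]
      refine mul_le_mul_of_nonneg_right ?_ (by positivity)
      calc _ ≤ (8 * lam) ^ 2 := pow_le_pow_left₀ (norm_nonneg _) h3 2
        _ = _ := by ring
    have h4 : lam⁻¹ * (2 * ∑ n ∈ s, ‖c' n‖ ^ 2) ≤ 128 * lam * P := by
      rw [inv_mul_le_iff₀ hl]; nlinarith
    have e : ∑ r ∈ Icc 1 Q, ∑ a ∈ (range r).filter (fun a => a.Coprime r),
        ‖∑ n ∈ s, c n * Complex.exp (2 * π * Complex.I * n * a / r)‖ ^ 2 =
        ∑ r ∈ Icc 1 Q, ∑ a ∈ (range r).filter (fun a => a.Coprime r),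
          ‖LSa_T s M c ((a : ℝ) / r)‖ ^ 2 := by
      refine sum_congr rfl fun r _ => sum_congr rfl fun a _ => ?_
      have : ∑ n ∈ s, c n * Complex.exp (2 * π * Complex.I * n * a / r) =
          LSa_T s M c ((a : ℝ) / r) * Complex.exp (((2 * π * M * a / r : ℝ) : ℂ) * Complex.I) := by
        rw [LSa_T, sum_mul]
        refine sum_congr rfl fun n _ => ?_
        rw [mul_assoc (c n), ← Complex.exp_add]
        congr 2
        push_cast
        ring
      rw [this, norm_mul, Complex.norm_exp_ofReal_mul_I, mul_one]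
    rw [e]
    have hQ2 : (0 : ℝ) < Q ^ 2 := by positivity
    have h5 := mul_le_mul_of_nonneg_left key hQ2.le
    rw [← mul_assoc, mul_add, ← mul_assoc _ (1 / (Q : ℝ) ^ 2), mul_one_div_cancel hQ2.ne',
      one_mul, one_mul] at h5
    have h6 : lam ≤ N + Q ^ 2 := by rw [hlam]; nlinarith
    have h7 : (Q : ℝ) ^ 2 ≤ N + Q ^ 2 := by linarith [(N.cast_nonneg : (0 : ℝ) ≤ N)]
    have h8 := mul_le_mul_of_nonneg_right h6 hP0
    have h9 := mul_le_mul_of_nonneg_right h7 hP0
    have h10 : 0 ≤ ((N : ℝ) + Q ^ 2) * P := by positivity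
    simp only at h5
    nlinarith
  · rintro ⟨r, a⟩ h1 ⟨r', a'⟩ h2 hne
    simp only [mem_sigma, mem_Icc, mem_filter, mem_range] at h1 h2
    have hr : (0 : ℝ) < r := by exact_mod_cast h1.1.1
    have hr' : (0 : ℝ) < r' := by exact_mod_cast h2.1.1
    have h3 : a * r' ≠ a' * r := by
      intro e
      have d1 : r ∣ r' := h1.2.2.symm.dvd_of_dvd_mul_left ⟨a', by rw [e, mul_comm]⟩
      have d2 : r' ∣ r := h2.2.2.symm.dvd_of_dvd_mul_left ⟨a, by rw [← e, mul_comm]⟩
      obtain rfl := Nat.dvd_antisymm d1 d2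
      obtain rfl := Nat.eq_of_mul_eq_mul_right h1.1.1 e
      exact hne rfl
    have h4 : (1 : ℝ) ≤ |(a : ℝ) * r' - r * a'| := by
      have : (1 : ℤ) ≤ |(a : ℤ) * r' - r * a'| := Int.one_le_abs (by
        rw [sub_ne_zero, mul_comm (r : ℤ)]; exact_mod_cast h3)
      exact_mod_cast this
    simp only
    rw [div_sub_div _ _ hr.ne' hr'.ne', abs_div, abs_of_pos (mul_pos hr hr')]
    have h5 : (r : ℝ) ≤ Q := by exact_mod_cast h1.1.2
    have h6 : (r' : ℝ) ≤ Q := by exact_mod_cast h2.1.2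
    exact div_le_div₀ (abs_nonneg _) h4 (mul_pos hr hr') (by nlinarith)
  · rintro ⟨r, a⟩ h1
    simp only [mem_sigma, mem_Icc, mem_filter, mem_range] at h1
    have hr : (0 : ℝ) < r := by exact_mod_cast h1.1.1
    have h2 : (a : ℝ) / r ≤ 1 := (div_le_one hr).2 (by exact_mod_cast h1.2.1.le)
    have h3 : 1 / (Q : ℝ) ^ 2 ≤ 1 := (div_le_one (by positivity)).2 (by nlinarith)
    simp only
    linarith

end Vale.Agent.P031
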