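import Vale.Agent.P031.Par
import Vale.Agent.P031.TVb
import Vale.Agent.P031.Sv

namespace Vale.Agent.P031

open Finset Real Filter

theorem MnA_ll {x : ℝ} (h : Par x) : 100 ≤ ll x := by
  linarith [h.ll_eq, add_one_le_exp (LL x), h.L100]

theorem MnA_yy {x : ℝ} (h : Par x) : 8 ≤ yy x := by
  linarith [h.z1_ge, h.z1_zz, h.zz_ZZ, h.ZZ_z2, h.z2_z3, h.z3_y8, h.y8_yy]

theorem MnA_cond {x X : ℝ} (h : Par x) (h1 : ll x / 2 ≤ log X) (h2 : log X ≤ 2 * ll x) :
    log (yy x) ≤ log X / log (log X) ^ 3 := by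
  have l := MnA_ll h
  have L := h.L100
  have a1 : 0 < log (log X) := log_pos (by linarith)
  have a2 : log (log X) ≤ LL x + 1 := by
    refine (log_le_log (by linarith) h2).trans ?_
    rw [log_mul two_ne_zero (by linarith), add_comm]
    exact add_le_add_right (log_le_sub_one_of_pos two_pos |>.trans (by norm_num)) _
  rw [yy, log_exp, div_le_div_iff₀ (by positivity) (by positivity)]
  have a3 := pow_le_pow_left₀ a1.le (a2.trans (show LL x + 1 ≤ 2 * LL x by linarith)) 3
  have a4 : 16 * LL x ^ 3 ≤ LL x ^ 4 := by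
    rw [pow_succ' _ 3]
    exact mul_le_mul_of_nonneg_right (by linarith) (by positivity)
  nlinarith [mul_le_mul_of_nonneg_left a3 (show 0 ≤ ll x by linarith),
    mul_le_mul h1 a4 (by positivity) (by linarith)]

theorem MnA_sqrt {x : ℝ} (h : Par x) : (YY x + 2) ^ 2 ≤ √x ∧ log (yy x) ≤ log √x / log (log √x) ^ 3 := by
  have y := (MnA_yy h).trans h.yy_YY
  have l := MnA_ll h
  refine ⟨le_sqrt_of_sq_le (le_trans ?_ h.YY_x), MnA_cond h ?_ ?_⟩
  · rw [← pow_mul]
    exact pow_le_pow_right₀ (by linarith) (by norm_num)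
  all_goals
    rw [log_sqrt (by linarith [h.x16]), ← ll]
  linarith

theorem MnA_mul {x t : ℝ} (h : Par x) (ht : t ≤ 2 * YY x) : √x * t ≤ x := by
  have y := (MnA_yy h).trans h.yy_YY
  refine (mul_le_mul_of_nonneg_left (ht.trans (le_trans ?_ (MnA_sqrt h).1)) (sqrt_nonneg x)).trans_eq
    (mul_self_sqrt (by linarith [h.x16]))
  nlinarith

theorem MnA_real {η u l m N c r : ℝ} (η0 : 0 < η) (η1 : η ≤ 1 / 3) (l0 : 0 < l) (u0 : 0 < u) (N0 : 0 ≤ N)
    (u3 : (1 - η) * l ≤ m) (u4 : m ≤ (1 + η) * l) (u5 : 1 ≤ η * u)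
    (t : |c - (u + 1) / m * N| ≤ η * ((u + 1) / m * N) + r) : |c - u / l * N| ≤ u / l * N * (5 * η) + r := by
  have m0 : 0 < m := by nlinarith
  have e4 : (u + 1) / m ≤ (1 + 3 * η) * (u / l) := by
    rw [← mul_div_assoc, div_le_div_iff₀ m0 l0]
    nlinarith [mul_le_mul_of_nonneg_left u3 (show 0 ≤ (1 + 3 * η) * u by positivity),
      mul_le_mul_of_nonneg_right u5 l0.le,
      mul_nonneg (mul_nonneg η0.le (show 0 ≤ 1 - 3 * η by linarith)) (show 0 ≤ u * l by positivity)]
  have e5 : (1 - η) * (u / l) ≤ (u + 1) / m := by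
    rw [← mul_div_assoc, div_le_div_iff₀ l0 m0]
    nlinarith [mul_le_mul_of_nonneg_left u4 (show 0 ≤ (1 - η) * u from mul_nonneg (by linarith) u0.le),
      mul_nonneg (sq_nonneg η) (show 0 ≤ u * l by positivity)]
  have e6 := mul_le_mul_of_nonneg_right e4 N0
  have e7 := mul_le_mul_of_nonneg_right e5 N0
  have e8 := mul_le_mul_of_nonneg_left e6 η0.le
  have e9 := mul_nonneg (mul_nonneg η0.le (show 0 ≤ 1 - 3 * η by linarith)) (show 0 ≤ u / l * N by positivity)
  have e10 := mul_nonneg η0.le (show 0 ≤ u / l * N by positivity)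
  rw [abs_le] at t ⊢
  constructor <;> nlinarith

theorem MnA_mu {y : ℝ} (W : Finset ℕ) {s : ℕ} (hs : s ≠ 0) : DD W s * (Py y / (2 * s)) ≤ mu y W s := by
  rw [DD, ← nsmul_eq_mul]
  refine card_nsmul_le_sum _ _ _ fun w hw => ?_
  obtain ⟨d, rfl⟩ := (mem_filter.1 hw).2
  have w0 := Nat.pos_of_ne_zero (left_ne_zero_of_mul hs)
  rw [Nat.mul_div_cancel_left _ w0]
  refine le_trans (le_of_eq ?_) (div_le_div_of_nonneg_right (nu_ge y (right_ne_zero_of_mul hs)) w.cast_nonneg)
  push_cast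
  ring

theorem prs_card {a ε : ℝ} (ha : 0 < a) (hε : 0 < ε) : ∀ᶠ x in atTop, ∀ S : Finset ℕ,
    S ⊆ SS (yy x) (YY x) →
    |((Prs x a S).card : ℝ) - a * (x / ll x) * ∑ s ∈ S, mu (yy x) (WW x) s| ≤
      ε * (x / ll x) * ∑ s ∈ S, mu (yy x) (WW x) s + ε * (x / ll x) := by
  obtain ⟨η, η0, η1, η2⟩ : ∃ η : ℝ, 0 < η ∧ η ≤ 1 / 3 ∧ 5 * η * a ≤ ε :=
    ⟨min (1 / 3) (ε / (5 * a)), by positivity, min_le_left _ _, by
      rw [mul_right_comm, ← le_div_iff₀' (by positivity)]; exact min_le_right _ _⟩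
  obtain ⟨X0, hX⟩ := eventually_atTop.1 (tv η0 3)
  obtain ⟨C, hC⟩ := sum_inv_smooth
  filter_upwards [ev_par, ev_LL (2 / η), ev_ll (2 * (|log a| + log (a + 1)) / η), ev_ll (16 * a * C / ε),
    (tendsto_sqrt_atTop.const_mul_atTop ha).eventually_ge_atTop (max X0 (1 / η))] with x h b1 b2 b3 b4 S hS
  have l := MnA_ll h
  have L := h.L100
  have x0 := h.x16
  have y := MnA_yy h
  have key : ∀ w ∈ WW x, |(((PP (a * x + 1)).filter fun p => (((p - 1) * w : ℕ) : ℝ) ≤ a * x ∧
      w * dd (yy x) p ∈ S).card : ℝ) - a * (x / ll x) * ∑ s ∈ S.filter (w ∣ ·), nu (yy x) (s / w) / w| ≤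
      ε * (x / ll x) * ∑ s ∈ S.filter (w ∣ ·), nu (yy x) (s / w) / w + 16 * a * x / ll x ^ 3 * (1 / w) := by
    intro w hw
    obtain ⟨⟨w1, w2⟩, -⟩ := mem_WW.1 hw
    have w0 : (1 : ℝ) ≤ w := by exact_mod_cast Nat.one_le_iff_ne_zero.2 w1.1
    have u1 : a * √x ≤ a * x / w := by
      rw [mul_div_assoc]
      exact mul_le_mul_of_nonneg_left ((le_div_iff₀ (by linarith)).2 (MnA_mul h (by linarith [h.yy_YY]))) ha.le
    have u2 : a * x / w ≤ a * x := div_le_self (by positivity) w0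
    have u3 : (1 - η) * ll x ≤ log (a * x / w + 1) := by
      refine le_trans ?_ (log_le_log (by positivity) (le_add_of_nonneg_right zero_le_one))
      rw [log_div (by positivity) (by positivity), log_mul ha.ne' (by positivity), show log x = ll x from rfl]
      have c1 := log_le_log (by linarith) w2
      rw [YY, log_exp] at c1
      have c2 : ll x / LL x ^ 2 ≤ η / 2 * ll x := by
        rw [div_le_iff₀ (by positivity), mul_right_comm]
        rw [div_le_iff₀ η0] at b1
        exact le_mul_of_one_le_left (by linarith) (by nlinarith)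
      rw [div_le_iff₀ η0] at b2
      linarith [neg_abs_le (log a), log_nonneg (show 1 ≤ a + 1 by linarith)]
    have u4 : log (a * x / w + 1) ≤ (1 + η) * ll x := by
      refine (log_le_log (by positivity) (show _ ≤ (a + 1) * x by linarith)).trans ?_
      rw [log_mul (by positivity) (by positivity), show log x = ll x from rfl]
      rw [div_le_iff₀ η0] at b2
      linarith [abs_nonneg (log a), log_nonneg (show 1 ≤ a + 1 by linarith)]
    have u5 : 1 ≤ η * (a * x / w) := (div_le_iff₀' η0).1 ((le_max_right _ _).trans (b4.trans u1))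
    have t := hX (a * x / w + 1) (by linarith [le_max_left X0 (1 / η)]) (yy x) y (MnA_cond h (by nlinarith)
      (by nlinarith)) ((S.filter (w ∣ ·)).image (· / w)) (fun d hd => by
        obtain ⟨s, hs, rfl⟩ := mem_image.1 hd
        exact (mem_SS.1 (hS (mem_filter.1 hs).1)).1.of_dvd (Nat.div_dvd_of_dvd (mem_filter.1 hs).2))
      (fun _ => 1) fun _ => ⟨zero_le_one, le_rfl⟩
    rw [sum_image fun s hs s' hs' e => by
      rw [← Nat.mul_div_cancel' (mem_filter.1 hs).2, ← Nat.mul_div_cancel' (mem_filter.1 hs').2]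
      exact congrArg _ e, sum_const, nsmul_eq_mul, mul_one, show filter _ (PP (a * x / w + 1)) =
      (PP (a * x + 1)).filter fun p => (((p - 1) * w : ℕ) : ℝ) ≤ a * x ∧ w * dd (yy x) p ∈ S by
        ext p
        simp only [mem_filter, mem_PP, mem_image, and_assoc]
        refine and_congr_right fun hp => ?_
        rw [Nat.cast_mul, Nat.cast_pred hp.pos, ← le_div_iff₀ (by linarith), sub_le_iff_le_add]
        refine ⟨fun ⟨c, s, c1, c2, c3⟩ => ⟨by linarith, c, by rwa [← c3, Nat.mul_div_cancel' c2]⟩,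
          fun ⟨_, c, c1⟩ => ⟨c, _, c1, dvd_mul_right _ _, Nat.mul_div_cancel_left _ (Nat.pos_of_ne_zero w1.1)⟩⟩] at t
    simp only [mul_one] at t
    rw [← sum_div]
    have N0 : 0 ≤ ∑ s ∈ S.filter (w ∣ ·), nu (yy x) (s / w) := sum_nonneg fun _ _ => nu_nonneg _ _
    generalize ∑ s ∈ S.filter (w ∣ ·), nu (yy x) (s / w) = N at *
    generalize log (a * x / w + 1) = m at *
    have m0 : 0 < m := by nlinarith
    have e1 : a * (x / ll x) * (N / w) = a * x / w / ll x * N := by ring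
    have e2 : a * x / w / ll x * N * (5 * η) ≤ ε * (x / ll x) * (N / w) := by
      rw [← e1]
      nlinarith [mul_le_mul_of_nonneg_right η2 (show 0 ≤ x / ll x * (N / w) by positivity)]
    have e3 : (a * x / w + 1) / m ^ 3 ≤ 16 * a * x / ll x ^ 3 * (1 / w) := by
      rw [show 16 * a * x / ll x ^ 3 * (1 / w) = 2 * (a * x / w) / (ll x / 2) ^ 3 by field_simp; norm_num]
      gcongr <;> nlinarith
    rw [e1]
    exact (MnA_real η0 η1 (by linarith) (by positivity) N0 u3 u4 u5 t).trans (add_le_add e2 e3)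
  have e : ∑ s ∈ S, mu (yy x) (WW x) s = ∑ w ∈ WW x, ∑ s ∈ S.filter (w ∣ ·), nu (yy x) (s / w) / w := by
    simp only [mu, sum_filter]
    exact sum_comm
  rw [Prs, card_filter, sum_product_right, e, mul_sum, Nat.cast_sum, ← sum_sub_distrib, mul_sum]
  simp only [← card_filter]
  refine (abs_sum_le_sum_abs _ _).trans ((sum_le_sum key).trans ?_)
  rw [sum_add_distrib, ← mul_sum _ _ (16 * a * x / _)]
  have c1 := hC (yy x) (by linarith) (WW x) fun w hw => (mem_WW.1 hw).1.1
  have c2 : 0 ≤ C := nonneg_of_mul_nonneg_left ((sum_nonneg fun _ _ => by positivity).trans c1)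
    (log_pos (by linarith))
  rw [yy, log_exp] at c1
  have c3 := c1.trans (mul_le_mul_of_nonneg_left (div_le_self (by linarith) (one_le_pow₀ (by linarith))) c2)
  refine add_le_add_right ((mul_le_mul_of_nonneg_left c3 (by positivity)).trans ?_) _
  rw [div_le_iff₀ hε] at b3
  rw [show 16 * a * x / ll x ^ 3 * (C * ll x) = 16 * a * C / ll x * (x / ll x) by field_simp]
  exact mul_le_mul_of_nonneg_right ((div_le_iff₀' (by linarith)).2 b3) (by positivity)

theorem sat_card {a : ℝ} (ha : 1 ≤ a) : ∃ C : ℝ, ∀ᶠ x in atTop, ∀ s ∈ SS (yy x) (YY x),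
    ∀ T : Finset ℕ, (∀ v ∈ T, v ≠ 0 ∧ (v : ℝ) ≤ a * x ∧ sm (yy x) v = 2 * s) →
    (T.card : ℝ) * DD (WW x) s ≤ C * x * mu (yy x) (WW x) s := by
  obtain ⟨C, hC⟩ := prod_le
  obtain ⟨c, c0, hc⟩ := Py_ge
  refine ⟨2 * a * |C| / c, ?_⟩
  filter_upwards [ev_par, tendsto_sqrt_atTop.eventually rough_card] with x h r s hs T hT
  obtain ⟨s1, s2⟩ := mem_SS.1 hs
  have y := MnA_yy h
  have x0 := h.x16
  have s0 : (0 : ℝ) < s := by exact_mod_cast Nat.pos_of_ne_zero s1.1
  have ly : 0 < log (yy x) := log_pos (by linarith)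
  have a1 := r (yy x) (a * x / (2 * s)) (by linarith) (MnA_sqrt h).2 ((le_div_iff₀ (by positivity)).2
    ((MnA_mul h (by linarith)).trans (le_mul_of_one_le_left (by linarith) ha))) (T.image (· / (2 * s)))
    fun r hr => by
      obtain ⟨v, hv, rfl⟩ := mem_image.1 hr
      obtain ⟨v1, v2, v3⟩ := hT v hv
      have d := v3 ▸ sm_dvd (yy x) v1
      refine ⟨(Nat.div_pos (Nat.le_of_dvd (Nat.pos_of_ne_zero v1) d) (by have := s1.1; omega)).ne',
        Nat.cast_div_le.trans ?_, v3 ▸ rough_div_sm _ v1⟩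
      push_cast
      gcongr
  rw [card_image_of_injOn fun v hv v' hv' e => by
    have d := sm_dvd (yy x) (hT v hv).1
    have d' := sm_dvd (yy x) (hT v' hv').1
    rw [(hT _ hv).2.2] at d
    rw [(hT _ hv').2.2] at d'
    rw [← Nat.mul_div_cancel' d, ← Nat.mul_div_cancel' d']
    exact congrArg _ e] at a1
  have a2 := a1.trans (mul_le_mul_of_nonneg_left ((hC _ (by linarith)).trans
    (div_le_div_of_nonneg_right (le_abs_self C) ly.le)) (by positivity))
  have a3 := (mul_le_mul_of_nonneg_left (div_le_div_of_nonneg_right (hc _ (by linarith)) (by positivity))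
    (Nat.cast_nonneg _)).trans (MnA_mu (y := yy x) (WW x) s1.1)
  refine (mul_le_mul_of_nonneg_right a2 (Nat.cast_nonneg _)).trans
    (le_trans (le_of_eq ?_) (mul_le_mul_of_nonneg_left a3 (by positivity)))
  field_simp

end Vale.Agent.P031
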