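import Vale.Agent.P031.D2
import Vale.Agent.P031.Mer

namespace Vale.Agent.P031

open Finset Real Filter

/-- elementary relations between the parameters -/
structure Par (x : ℝ) : Prop where
  x16 : 16 ≤ x
  L100 : 100 ≤ LL x
  ll_eq : ll x = exp (LL x)
  z1_ge : 8 ≤ z1 x
  ll_z1 : ll x ^ 2 ≤ z1 x
  z1_zz : z1 x ≤ zz x
  zz_ZZ : zz x ≤ ZZ x
  ZZ_z2 : 4 * ZZ x + 2 ≤ z2 x
  z2_z3 : z2 x ≤ z3 x
  z3_y8 : z3 x ≤ y8 x
  y8_yy : y8 x ≤ yy x
  yy_YY : yy x ≤ YY x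
  YY_x : (YY x + 2) ^ 20 ≤ x
  rs_yy : 99 / 100 * LL x ≤ rs (PP (yy x)) ∧ rs (PP (yy x)) ≤ LL x
  rs_zz : 899 / 1000 * LL x ≤ rs (PP (zz x)) ∧ rs (PP (zz x)) ≤ 901 / 1000 * LL x
  rs_S1 : 849 / 1000 * LL x ≤ rs (S1 x) ∧ rs (S1 x) ≤ LL x
  rs_S2 : 9 / 100 * LL x ≤ rs (S2 x) ∧ rs (S2 x) ≤ 101 / 1000 * LL x
  rs_S3 : rs (S3 x) ≤ 2 * √(LL x)
  rho : ∀ n : ℕ, n ≠ 0 → (n : ℝ) ≤ x → exp (3 * rs n.primeFactors) ≤ LL x ^ 4

theorem par_ll_yy {x : ℝ} (h : ll x = exp (LL x)) (hL : 0 < LL x) (k : ℕ) :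
    log (log (exp (ll x / LL x ^ k))) = LL x - k * log (LL x) := by
  rw [log_exp, h, log_div (exp_pos _).ne' (pow_pos hL k).ne', log_exp, log_pow]

theorem par_rs_filter {y z : ℝ} (hzy : z ≤ y) :
    rs ((PP y).filter fun q : ℕ => z < q) = rs (PP y) - rs (PP z) := by
  have h : PP z = (PP y).filter fun q : ℕ => ¬ z < q := by
    ext q
    simp only [mem_filter, mem_PP, not_lt]
    exact ⟨fun h => ⟨⟨h.1, h.2.trans hzy⟩, h.2⟩, fun h => ⟨h.1.1, h.2⟩⟩
  rw [h, rs, rs, rs, ← sum_filter_add_sum_filter_not (PP y) (fun q : ℕ => z < q)]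
  ring

theorem par_rs_five (y : ℝ) :
    rs (PP y) - 1 ≤ rs ((PP y).filter (5 ≤ ·)) ∧ rs ((PP y).filter (5 ≤ ·)) ≤ rs (PP y) := by
  have h := sum_filter_add_sum_filter_not (PP y) (5 ≤ ·) (fun q : ℕ => (1 : ℝ) / q)
  have h1 : ∑ q ∈ (PP y).filter (fun q => ¬ 5 ≤ q), (1 : ℝ) / q ≤ ∑ q ∈ ({2, 3} : Finset ℕ), (1 : ℝ) / q := by
    refine sum_le_sum_of_subset_of_nonneg (fun q hq => ?_) fun _ _ _ => by positivity
    have h2 := mem_filter.1 hq
    have h3 := (mem_PP.1 h2.1).1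
    have h4 := h2.2
    have h5 := h3.two_le
    have h6 : q ≠ 4 := by rintro rfl; exact absurd h3 (by norm_num)
    simp only [mem_insert, mem_singleton]; omega
  have h2 : 0 ≤ ∑ q ∈ (PP y).filter (fun q => ¬ 5 ≤ q), (1 : ℝ) / q := sum_nonneg fun _ _ => by positivity
  rw [sum_pair (by norm_num)] at h1
  norm_num at h1
  simp only [rs]
  simp only [one_div, not_le] at h h1 h2 ⊢
  constructor <;> linarith

theorem par_YY {x : ℝ} (hx : 16 ≤ x) (hL : 100 ≤ LL x) (hl : ll x = exp (LL x)) :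
    (YY x + 2) ^ 20 ≤ x := by
  have b5 : 100 ≤ ll x := by have := add_one_le_exp (LL x); linarith
  have b1 : 1 ≤ YY x := one_le_exp (by positivity)
  have b2 : (3 : ℝ) ≤ exp 2 := by have := add_one_le_exp (2 : ℝ); linarith
  have b3 : YY x + 2 ≤ exp (ll x / LL x ^ 2 + 2) := by
    rw [exp_add, ← YY]
    nlinarith
  have b4 : ll x / LL x ^ 2 ≤ ll x / 100 :=
    div_le_div_of_nonneg_left (by linarith) (by norm_num) (by nlinarith)
  calc (YY x + 2) ^ 20 ≤ exp (ll x / LL x ^ 2 + 2) ^ 20 := pow_le_pow_left₀ (by linarith) b3 20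
    _ = exp (20 * (ll x / LL x ^ 2 + 2)) := by rw [← exp_nat_mul]; norm_num
    _ ≤ exp (ll x) := exp_le_exp.2 (by linarith)
    _ = x := exp_ll (by linarith)

theorem par_ZZ {x : ℝ} (hL : 100 ≤ LL x) : 4 * ZZ x + 2 ≤ z2 x := by
  have E9 : 1 ≤ exp (9 / 10 * LL x) := one_le_exp (by positivity)
  have ZZ1 : 1 ≤ ZZ x := one_le_exp (by positivity)
  have b0 : 100 ≤ LL x ^ 2 := by nlinarith
  have b1 : exp (9 / 10 * LL x) * LL x ^ 2 + 5 ≤ exp (9 / 10 * LL x) * LL x ^ 4 := by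
    have : LL x ^ 2 + 5 ≤ LL x ^ 4 := by nlinarith
    nlinarith
  have b2 : (6 : ℝ) ≤ exp 5 := by have := add_one_le_exp (5 : ℝ); linarith
  have b3 : ZZ x * exp 5 ≤ z2 x := by
    rw [ZZ, z2, ← exp_add]; exact exp_le_exp.2 b1
  nlinarith

theorem par_85 {L : ℝ} (hL : 100 ≤ L) : 2 * L ≤ exp (17 / 20 * L) := by
  have := Real.quadratic_le_exp_of_nonneg (x := 17 / 20 * L) (by positivity)
  nlinarith

theorem ev_par : ∀ᶠ x in atTop, Par x := by
  obtain ⟨C, hC⟩ := mertens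
  obtain ⟨C', hC'⟩ := rs_primeFactors
  have e1 : ∀ᶠ L : ℝ in atTop, 1 * L ^ 4 * exp (0 * √L) ≤ exp (√L) := by
    have h := ev_log_pow 4 1 (κ := 1) (b := 1 / 2) one_pos (by norm_num)
    filter_upwards [h, eventually_gt_atTop 0] with L h1 h2
    rw [pow_one, one_mul, ← sqrt_eq_rpow] at h1
    rw [zero_mul, exp_zero, mul_one, one_mul]
    calc L ^ 4 = exp (4 * log L) := by
          rw [show (4 : ℝ) = ((4 : ℕ) : ℝ) by norm_num, exp_nat_mul, exp_log h2]
      _ ≤ _ := exp_le_exp.2 h1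
  have e2 := ev_pow_exp 1 1 8 (κ := 1 / 10) (by norm_num)
  have e3 := ev_log_pow 8 1 (κ := 1 / 200) (b := 1) (by norm_num) one_pos
  have e4 : ∀ᶠ L : ℝ in atTop, |C| + 1 ≤ log L := tendsto_log_atTop.eventually_ge_atTop _
  have e5 : ∀ᶠ L : ℝ in atTop, 2 * |C| ≤ √L := tendsto_sqrt_atTop.eventually_ge_atTop _
  filter_upwards [eventually_ge_atTop 16, ev_LL 100, ev_LL (2000 * (|C| + 1)), ev_LL (exp (3 * C')),
    tendsto_LL.eventually e1, tendsto_LL.eventually e2, tendsto_LL.eventually e3,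
    tendsto_LL.eventually e4, tendsto_LL.eventually e5] with x hx hL hLC hLC' h1 h2 h3 h4 h5
  have hl : ll x = exp (LL x) := (exp_LL (by linarith)).symm
  set L := LL x with hLdef
  have hL0 : 0 < L := by linarith
  have hCa := le_abs_self C
  have hC0 := abs_nonneg C
  rw [pow_one, rpow_one] at h3
  rw [zero_mul, exp_zero, mul_one, one_mul] at h1
  simp only [one_mul] at h2
  have a85 := par_85 hL
  have a9 : exp (17 / 20 * L) ≤ exp (9 / 10 * L) := exp_le_exp.2 (by linarith)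
  have E9 : 1 ≤ exp (9 / 10 * L) := one_le_exp (by positivity)
  have L2 : 1 ≤ L ^ 2 := one_le_pow₀ (by linarith)
  have z18 : 8 ≤ z1 x := by
    have := add_one_le_exp (exp (17 / 20 * L))
    rw [z1, ← hLdef]; linarith
  have z1zz : z1 x ≤ zz x := exp_le_exp.2 a9
  have zzZZ : zz x ≤ ZZ x := exp_le_exp.2 (le_mul_of_one_le_right (exp_pos _).le L2)
  have ZZ1 : 1 ≤ ZZ x := by linarith
  have ZZz2 : 4 * ZZ x + 2 ≤ z2 x := par_ZZ hL
  have z2z3 : z2 x ≤ z3 x := exp_le_exp.2 (mul_le_mul_of_nonneg_left h1 (exp_pos _).le)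
  have z3y8 : z3 x ≤ y8 x := by
    refine exp_le_exp.2 ?_
    rw [hl, le_div_iff₀ (by positivity)]
    have : exp L = exp (9 / 10 * L) * exp (1 / 10 * L) := by rw [← exp_add]; congr 1; ring
    rw [this, mul_assoc]
    exact mul_le_mul_of_nonneg_left (by linarith) (exp_pos _).le
  have hl0 : 0 < ll x := by rw [hl]; exact exp_pos _
  have y8yy : y8 x ≤ yy x := exp_le_exp.2
    (div_le_div_of_nonneg_left hl0.le (by positivity) (pow_le_pow_right₀ (by linarith) (by norm_num)))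
  have yyYY : yy x ≤ YY x := exp_le_exp.2
    (div_le_div_of_nonneg_left hl0.le (by positivity) (pow_le_pow_right₀ (by linarith) (by norm_num)))
  have m1 := abs_le.1 (hC (yy x) (by linarith))
  have m2 := abs_le.1 (hC (zz x) (by linarith))
  have m3 := abs_le.1 (hC (z1 x) (by linarith))
  have m4 := abs_le.1 (hC (y8 x) (by linarith))
  have m5 := abs_le.1 (hC (z3 x) (by linarith))
  rw [yy, par_ll_yy hl hL0, ← yy] at m1
  rw [y8, par_ll_yy hl hL0, ← y8] at m4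
  have q2 : log (log (zz x)) = 9 / 10 * L := by rw [zz, log_exp, log_exp]
  have q3 : log (log (z1 x)) = 17 / 20 * L := by rw [z1, log_exp, log_exp]
  have q5 : log (log (z3 x)) = 9 / 10 * L + √L := by rw [z3, log_exp, ← exp_add, log_exp]
  rw [q2] at m2
  rw [q3] at m3
  rw [q5] at m5
  push_cast at m1 m4
  rw [← hLdef] at m1 m4
  have f5 := par_rs_five (z1 x)
  have f2 : rs (S2 x) = rs (PP (y8 x)) - rs (PP (zz x)) := par_rs_filter (by linarith)
  have f3 : rs (S3 x) = rs (PP (z3 x)) - rs (PP (zz x)) := par_rs_filter (by linarith)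
  refine ⟨hx, hL, hl, z18, ?_, z1zz, zzZZ, ZZz2, z2z3, z3y8, y8yy, yyYY, ?_, ⟨by linarith, by linarith⟩,
    ⟨by linarith, by linarith⟩, ⟨by rw [S1]; linarith, by rw [S1]; linarith⟩,
    ⟨by linarith, by linarith⟩, by linarith, fun n hn hnx => ?_⟩
  · rw [hl, ← exp_nat_mul, z1]
    exact exp_le_exp.2 (by push_cast; linarith)
  · exact par_YY hx hL hl
  · have b1 := hC' x hx n hn hnx
    have b2 : log (log (log x)) = log L := rfl
    rw [b2] at b1
    calc exp (3 * rs n.primeFactors) ≤ exp (3 * log L + 3 * C') := exp_le_exp.2 (by linarith)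
      _ = L ^ 3 * exp (3 * C') := by
          rw [exp_add, show (3 : ℝ) * log L = ((3 : ℕ) : ℝ) * log L by norm_num, exp_nat_mul,
            exp_log hL0]
      _ ≤ L ^ 3 * L := mul_le_mul_of_nonneg_left hLC' (by positivity)
      _ = L ^ 4 := by ring

end Vale.Agent.P031
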