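import Vale.Agent.P031.D

namespace Vale.Agent.P031

open Finset Real Filter

/-- partial sums tend to `α` with a power saving -/
def Asy (f : ℕ → ℝ) (α A κ : ℝ) : Prop :=
  ∀ u : ℝ, 1 ≤ u → |∑ n ∈ Icc 1 ⌊u⌋₊, f n - α| ≤ A * u ^ (-κ)

/-- bound for the absolute sums -/
def Abs (f : ℕ → ℝ) (A η : ℝ) : Prop :=
  ∀ u : ℝ, 1 ≤ u → ∑ n ∈ Icc 1 ⌊u⌋₊, |f n| ≤ A * u ^ η

/-- Dirichlet convolution -/
def cv (f g : ℕ → ℝ) (n : ℕ) : ℝ := ∑ p ∈ n.divisorsAntidiagonal, f p.1 * g p.2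

theorem Asy.nonneg {f : ℕ → ℝ} {α A κ : ℝ} (h : Asy f α A κ) : 0 ≤ A := by
  have := (abs_nonneg _).trans (h 1 le_rfl)
  simpa using this

theorem Abs.nonneg {f : ℕ → ℝ} {A η : ℝ} (h : Abs f A η) : 0 ≤ A := by
  have := (sum_nonneg fun _ _ => abs_nonneg _).trans (h 1 le_rfl)
  simpa using this

theorem Asy.mono {f : ℕ → ℝ} {α A κ A' κ' : ℝ} (h : Asy f α A κ) (hA : A ≤ A') (hκ : κ' ≤ κ) :
    Asy f α A' κ' := fun u hu =>
  (h u hu).trans (mul_le_mul hA (rpow_le_rpow_of_exponent_le hu (by linarith)) (by positivity)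
    (h.nonneg.trans hA))

theorem Abs.mono {f : ℕ → ℝ} {A η A' η' : ℝ} (h : Abs f A η) (hA : A ≤ A') (hη : η ≤ η') :
    Abs f A' η' := fun u hu =>
  (h u hu).trans (mul_le_mul hA (rpow_le_rpow_of_exponent_le hu hη) (by positivity)
    (h.nonneg.trans hA))

theorem SgA_sum_ite (g : ℕ → ℝ) {M N : ℕ} (h : M ≤ N) :
    ∑ b ∈ Icc 1 M, g b = ∑ b ∈ Icc 1 N, if b ≤ M then g b else 0 := by
  rw [← sum_filter]
  congr 1
  ext b
  simp only [mem_Icc, mem_filter]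
  omega

theorem SgA_cv_sum (f g : ℕ → ℝ) (N : ℕ) : ∑ n ∈ Icc 1 N, cv f g n =
    ∑ a ∈ Icc 1 N, ∑ b ∈ Icc 1 N, if a * b ≤ N then f a * g b else 0 := by
  rw [← sum_product', ← sum_filter]
  simp only [cv]
  rw [sum_sigma']
  refine sum_bij' (fun x _ => x.2) (fun p _ => ⟨p.1 * p.2, p⟩) ?_ ?_ ?_ ?_ ?_
  · rintro ⟨n, a, b⟩ h
    simp only [mem_sigma, mem_Icc, Nat.mem_divisorsAntidiagonal, mem_filter, mem_product] at h ⊢
    obtain ⟨⟨h1, h2⟩, h3, h4⟩ := h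
    have ha : 0 < a := Nat.pos_of_ne_zero (by rintro rfl; omega)
    have hb : 0 < b := Nat.pos_of_ne_zero (by rintro rfl; omega)
    have := Nat.le_mul_of_pos_right a hb
    have := Nat.le_mul_of_pos_left b ha
    omega
  · rintro ⟨a, b⟩ h
    simp only [mem_sigma, mem_Icc, Nat.mem_divisorsAntidiagonal, mem_filter, mem_product] at h ⊢
    have := Nat.mul_pos h.1.1.1 h.1.2.1
    exact ⟨⟨this, h.2⟩, trivial, this.ne'⟩
  · rintro ⟨n, a, b⟩ h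
    simp only [mem_sigma, Nat.mem_divisorsAntidiagonal] at h
    obtain ⟨-, rfl, -⟩ := h
    rfl
  · exact fun _ _ => rfl
  · exact fun _ _ => rfl

theorem SgA_nat (f g : ℕ → ℝ) {N Z : ℕ} (h1 : Z * Z ≤ N) (h2 : N < (Z + 1) * (Z + 1)) :
    ∑ n ∈ Icc 1 N, cv f g n = ∑ a ∈ Icc 1 Z, f a * ∑ b ∈ Icc 1 (N / a), g b +
      ∑ b ∈ Icc 1 Z, g b * ∑ a ∈ Icc 1 (N / b), f a -
        (∑ a ∈ Icc 1 Z, f a) * ∑ b ∈ Icc 1 Z, g b := by
  have hZ : Z ≤ N := by nlinarith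
  have e1 : ∀ f g : ℕ → ℝ, ∑ a ∈ Icc 1 Z, f a * ∑ b ∈ Icc 1 (N / a), g b =
      ∑ a ∈ Icc 1 N, ∑ b ∈ Icc 1 N, if a ≤ Z ∧ a * b ≤ N then f a * g b else 0 := by
    intro f g
    rw [SgA_sum_ite _ hZ]
    refine sum_congr rfl fun a ha => ?_
    have ha0 : 0 < a := (mem_Icc.1 ha).1
    by_cases h : a ≤ Z
    · rw [if_pos h, SgA_sum_ite g (Nat.div_le_self N a), mul_sum]
      refine sum_congr rfl fun b _ => ?_
      simp only [h, true_and, Nat.le_div_iff_mul_le ha0, mul_comm b a, mul_ite, mul_zero]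
    · simp [h]
  rw [SgA_cv_sum, e1 f g, e1 g f, sum_comm (f := fun a b =>
    if a ≤ Z ∧ a * b ≤ N then g a * f b else 0), SgA_sum_ite f hZ, SgA_sum_ite g hZ, sum_mul_sum,
    ← sum_add_distrib, ← sum_sub_distrib]
  refine sum_congr rfl fun a _ => ?_
  rw [← sum_add_distrib, ← sum_sub_distrib]
  refine sum_congr rfl fun b _ => ?_
  rw [mul_comm b a]
  by_cases ha : a ≤ Z <;> by_cases hb : b ≤ Z <;> by_cases hab : a * b ≤ N <;>
    simp [ha, hb, hab, mul_comm]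
  · exact absurd ((Nat.mul_le_mul ha hb).trans h1) hab
  · exact absurd ((Nat.mul_le_mul (not_le.1 ha) (not_le.1 hb)).trans hab) (not_le.2 h2)

theorem SgA_id (f g : ℕ → ℝ) {z : ℝ} (hz : 1 ≤ z) :
    ∑ n ∈ Icc 1 ⌊z * z⌋₊, cv f g n = ∑ a ∈ Icc 1 ⌊z⌋₊, f a * ∑ b ∈ Icc 1 ⌊z * z / a⌋₊, g b +
      ∑ b ∈ Icc 1 ⌊z⌋₊, g b * ∑ a ∈ Icc 1 ⌊z * z / b⌋₊, f a -
        (∑ a ∈ Icc 1 ⌊z⌋₊, f a) * ∑ b ∈ Icc 1 ⌊z⌋₊, g b := by
  simp only [Nat.floor_div_natCast]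
  have h1 := Nat.floor_le (show 0 ≤ z by linarith)
  have h2 := Nat.lt_floor_add_one z
  refine SgA_nat f g (Nat.le_floor ?_) ((Nat.floor_lt (by positivity)).2 ?_)
  · push_cast; exact mul_self_le_mul_self (by positivity) h1
  · push_cast; exact mul_self_lt_mul_self (by positivity) h2

theorem SgA_div {z : ℝ} (hz : 1 ≤ z) {a : ℕ} (ha : a ∈ Icc 1 ⌊z⌋₊) : z ≤ z * z / a := by
  have h1 : (1 : ℝ) ≤ a := by exact_mod_cast (mem_Icc.1 ha).1
  have h2 : (a : ℝ) ≤ z := (Nat.le_floor_iff (by linarith)).1 (mem_Icc.1 ha).2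
  rw [le_div_iff₀ (by linarith)]
  gcongr

theorem SgA_term {f g : ℕ → ℝ} {γ B A' κ η z : ℝ} (hg : Asy g γ B κ) (hf' : Abs f A' η)
    (hκ : 0 ≤ κ) (hz : 1 ≤ z) :
    |∑ a ∈ Icc 1 ⌊z⌋₊, f a * (∑ b ∈ Icc 1 ⌊z * z / a⌋₊, g b - γ)| ≤ B * A' * z ^ (η - κ) := by
  refine (abs_sum_le_sum_abs _ _).trans ?_
  have h : ∀ a ∈ Icc 1 ⌊z⌋₊, |f a * (∑ b ∈ Icc 1 ⌊z * z / a⌋₊, g b - γ)| ≤
      |f a| * (B * z ^ (-κ)) := fun a ha => by
    rw [abs_mul]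
    refine mul_le_mul_of_nonneg_left ((hg _ (hz.trans (SgA_div hz ha))).trans ?_) (abs_nonneg _)
    exact mul_le_mul_of_nonneg_left
      (rpow_le_rpow_of_nonpos (by linarith) (SgA_div hz ha) (by linarith)) hg.nonneg
  refine (sum_le_sum h).trans ?_
  rw [← sum_mul]
  refine (mul_le_mul_of_nonneg_right (hf' z hz) (mul_nonneg hg.nonneg (by positivity))).trans
    (le_of_eq ?_)
  rw [sub_eq_add_neg, rpow_add (by linarith)]
  ring

theorem hyperbola {f g : ℕ → ℝ} {α γ A B A' B' κ η : ℝ} (hf : Asy f α A κ) (hg : Asy g γ B κ)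
    (hf' : Abs f A' η) (hg' : Abs g B' η) (hη : 0 ≤ η) (hκ : 0 ≤ κ) :
    Asy (cv f g) (α * γ) (B * A' + A * B' + A * B) ((κ - η) / 2) ∧
      Abs (cv f g) (A' * B') (2 * η) := by
  refine ⟨fun u hu => ?_, fun u hu => ?_⟩
  · obtain ⟨z, hz, rfl⟩ : ∃ z, 1 ≤ z ∧ z * z = u :=
      ⟨√u, one_le_sqrt.2 hu, mul_self_sqrt (by linarith)⟩
    have h1 := SgA_term hg hf' hκ hz
    have h2 := SgA_term hf hg' hκ hz
    have h3 := mul_le_mul (hf z hz) (hg z hz) (abs_nonneg _) (mul_nonneg hf.nonneg (by positivity))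
    have e : (z * z) ^ (-((κ - η) / 2)) = z ^ (η - κ) := by
      rw [mul_rpow (by linarith) (by linarith), ← rpow_add (by linarith)]
      congr 1; ring
    have h4 : z ^ (-κ) * z ^ (-κ) ≤ z ^ (η - κ) := by
      rw [← rpow_add (by linarith)]
      exact rpow_le_rpow_of_exponent_le hz (by linarith)
    have h5 := mul_le_mul_of_nonneg_left h4 (mul_nonneg hf.nonneg hg.nonneg)
    rw [← abs_mul] at h3
    simp only [mul_sub, sum_sub_distrib, ← sum_mul] at h1 h2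
    rw [SgA_id f g hz, e]
    rw [abs_le] at h1 h2 h3 ⊢
    constructor <;> nlinarith [h1.1, h1.2, h2.1, h2.2, h3.1, h3.2]
  · calc ∑ n ∈ Icc 1 ⌊u⌋₊, |cv f g n| ≤ ∑ n ∈ Icc 1 ⌊u⌋₊, cv (fun a => |f a|) (fun a => |g a|) n :=
          sum_le_sum fun n _ => (abs_sum_le_sum_abs _ _).trans
            (le_of_eq (sum_congr rfl fun p _ => abs_mul _ _))
      _ ≤ (∑ a ∈ Icc 1 ⌊u⌋₊, |f a|) * ∑ b ∈ Icc 1 ⌊u⌋₊, |g b| := by
          rw [SgA_cv_sum, sum_mul_sum]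
          refine sum_le_sum fun a _ => sum_le_sum fun b _ => ?_
          split_ifs
          · rfl
          · positivity
      _ ≤ (A' * u ^ η) * (B' * u ^ η) :=
          mul_le_mul (hf' u hu) (hg' u hu) (sum_nonneg fun _ _ => abs_nonneg _)
            (mul_nonneg hf'.nonneg (by positivity))
      _ = _ := by rw [two_mul, rpow_add (by linarith)]; ring

theorem cv_rpow (f g : ℕ → ℝ) (β : ℝ) (n : ℕ) :
    cv (fun m => f m * (m : ℝ) ^ (-β)) (fun m => g m * (m : ℝ) ^ (-β)) n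
      = cv f g n * (n : ℝ) ^ (-β) := by
  simp only [cv, sum_mul]
  refine sum_congr rfl fun p hp => ?_
  rw [← (Nat.mem_divisorsAntidiagonal.1 hp).1, Nat.cast_mul,
    mul_rpow (Nat.cast_nonneg _) (Nat.cast_nonneg _)]
  ring

theorem SgA_tang {x y p : ℝ} (hx : 0 < x) (hy : 0 ≤ y) (h0 : 0 ≤ p) (h1 : p ≤ 1) :
    y ^ p ≤ x ^ p + p * x ^ (p - 1) * (y - x) := by
  have h := rpow_one_add_le_one_add_mul_self (s := y / x - 1)
    (by have := div_nonneg hy hx.le; linarith) h0 h1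
  rw [add_sub_cancel, div_rpow hy hx.le, div_le_iff₀ (by positivity)] at h
  refine h.trans (le_of_eq ?_)
  rw [rpow_sub_one hx.ne']
  field_simp

theorem SgA_sum_le {β : ℝ} (h0 : 0 ≤ β) (h1 : β < 1) (N : ℕ) :
    ∑ n ∈ Icc 1 N, (n : ℝ) ^ (-β) ≤ (N : ℝ) ^ (1 - β) / (1 - β) := by
  induction N with
  | zero => simp; positivity
  | succ N ih =>
    rw [sum_Icc_succ_top (by omega)]
    have := SgA_tang (x := ((N + 1 : ℕ) : ℝ)) (y := N) (p := 1 - β) (by positivity) (by positivity)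
      (by linarith) (by linarith)
    rw [show 1 - β - 1 = -β by ring] at this
    rw [le_div_iff₀ (by linarith)] at ih ⊢
    push_cast at this ⊢
    nlinarith

theorem abs_rpow {β : ℝ} (hβ : 99 / 100 ≤ β) (f : ℕ → ℝ) (hf : ∀ n, |f n| ≤ 1) :
    Abs (fun n => f n * (n : ℝ) ^ (-β)) 101 (1 / 50) := fun u hu => by
  have h1 : ∀ n ∈ Icc 1 ⌊u⌋₊, |f n * (n : ℝ) ^ (-β)| ≤ (n : ℝ) ^ (-(99 / 100 : ℝ)) := fun n hn => by
    rw [abs_mul, abs_of_nonneg (by positivity : 0 ≤ (n : ℝ) ^ (-β))]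
    refine (mul_le_of_le_one_left (by positivity) (hf n)).trans ?_
    exact rpow_le_rpow_of_exponent_le (by exact_mod_cast (mem_Icc.1 hn).1) (by linarith)
  refine (sum_le_sum h1).trans ((SgA_sum_le (by norm_num) (by norm_num) _).trans ?_)
  have h2 : (⌊u⌋₊ : ℝ) ^ (1 - 99 / 100 : ℝ) ≤ u ^ (1 / 50 : ℝ) :=
    (rpow_le_rpow (by positivity) (Nat.floor_le (by linarith)) (by norm_num)).trans
      (rpow_le_rpow_of_exponent_le hu (by norm_num))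
  have : 0 ≤ u ^ (1 / 50 : ℝ) := by positivity
  rw [div_le_iff₀ (by norm_num)]
  linarith

theorem SgA_zeta {β : ℝ} (h0 : 0 ≤ β) (h1 : β < 1) : ∃ ζ : ℝ, ζ ≤ 0 ∧ ∀ t : ℝ, 1 ≤ t →
    |∑ n ∈ Icc 1 ⌊t⌋₊, (n : ℝ) ^ (-β) - t ^ (1 - β) / (1 - β) - ζ| ≤ 2 * t ^ (-β) := by
  have hp : 0 < 1 - β := by linarith
  set D : ℕ → ℝ := fun N => ∑ n ∈ Icc 1 (N + 1), (n : ℝ) ^ (-β) -
    ((N + 1 : ℕ) : ℝ) ^ (1 - β) / (1 - β) with hD
  have hstep : ∀ N, D (N + 1) - D N = ((N + 2 : ℕ) : ℝ) ^ (-β) -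
      (((N + 2 : ℕ) : ℝ) ^ (1 - β) - ((N + 1 : ℕ) : ℝ) ^ (1 - β)) / (1 - β) := fun N => by
    simp only [hD]
    rw [sum_Icc_succ_top (by omega)]
    ring
  have hanti : Antitone D := antitone_nat_of_succ_le fun N => by
    have := SgA_tang (x := ((N + 2 : ℕ) : ℝ)) (y := ((N + 1 : ℕ) : ℝ)) (p := 1 - β)
      (by positivity) (by positivity) hp.le (by linarith)
    rw [show 1 - β - 1 = -β by ring] at this
    rw [← sub_nonpos, hstep, sub_nonpos, le_div_iff₀ hp]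
    push_cast at this ⊢
    nlinarith
  have hmono : Monotone fun N => D N - ((N + 1 : ℕ) : ℝ) ^ (-β) := monotone_nat_of_le_succ fun N => by
    have := SgA_tang (x := ((N + 1 : ℕ) : ℝ)) (y := ((N + 2 : ℕ) : ℝ)) (p := 1 - β)
      (by positivity) (by positivity) hp.le (by linarith)
    rw [show 1 - β - 1 = -β by ring] at this
    have h2 : (((N + 2 : ℕ) : ℝ) ^ (1 - β) - ((N + 1 : ℕ) : ℝ) ^ (1 - β)) / (1 - β) ≤
        ((N + 1 : ℕ) : ℝ) ^ (-β) := by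
      rw [div_le_iff₀ hp]
      push_cast at this ⊢
      nlinarith
    have h3 := hstep N
    show D N - _ ≤ D (N + 1) - ((N + 2 : ℕ) : ℝ) ^ (-β)
    linarith
  have hle : ∀ N M, D N - ((N + 1 : ℕ) : ℝ) ^ (-β) ≤ D M := fun N M => by
    rcases le_total N M with h | h
    · exact (hmono h).trans (sub_le_self _ (by positivity))
    · exact (sub_le_self _ (by positivity)).trans (hanti h)
  have hb : BddBelow (Set.range D) := ⟨_, by rintro _ ⟨M, rfl⟩; exact hle 0 M⟩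
  refine ⟨⨅ N, D N, (ciInf_le hb 0).trans ?_, fun t ht => ?_⟩
  · simp only [hD, zero_add, Icc_self, sum_singleton, Nat.cast_one, one_rpow]
    rw [sub_nonpos, le_div_iff₀ hp]; linarith
  obtain ⟨N, hN⟩ : ∃ N, ⌊t⌋₊ = N + 1 := ⟨⌊t⌋₊ - 1, by have := Nat.floor_pos.2 ht; omega⟩
  have a1 := ciInf_le hb N
  have a2 := le_ciInf (hle N)
  have b1 : ((N + 1 : ℕ) : ℝ) ≤ t := hN ▸ Nat.floor_le (by linarith)
  have b2 : t < ((N + 1 : ℕ) : ℝ) + 1 := hN ▸ Nat.lt_floor_add_one t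
  have b3 : (1 : ℝ) ≤ ((N + 1 : ℕ) : ℝ) := by exact_mod_cast Nat.le_add_left 1 N
  have c1 := SgA_tang (x := ((N + 1 : ℕ) : ℝ)) (y := t) (p := 1 - β) (by positivity) (by linarith)
    hp.le (by linarith)
  rw [show 1 - β - 1 = -β by ring] at c1
  have c2 : ((N + 1 : ℕ) : ℝ) ^ (1 - β) ≤ t ^ (1 - β) := rpow_le_rpow (by positivity) b1 hp.le
  have c3 : ((N + 1 : ℕ) : ℝ) ^ (-β) ≤ 2 * t ^ (-β) := by
    refine (rpow_le_rpow_of_nonpos (x := t / 2) (by linarith) (by linarith) (by linarith)).trans ?_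
    rw [div_rpow (by linarith) (by norm_num), div_eq_mul_inv, ← rpow_neg (by norm_num), neg_neg,
      mul_comm]
    gcongr
    exact (rpow_le_rpow_of_exponent_le one_le_two h1.le).trans_eq (rpow_one 2)
  have c4 : (t ^ (1 - β) - ((N + 1 : ℕ) : ℝ) ^ (1 - β)) / (1 - β) ≤ ((N + 1 : ℕ) : ℝ) ^ (-β) := by
    rw [div_le_iff₀ hp]
    have : 0 ≤ (1 - β) * ((N + 1 : ℕ) : ℝ) ^ (-β) := by positivity
    nlinarith
  have c5 : 0 ≤ (t ^ (1 - β) - ((N + 1 : ℕ) : ℝ) ^ (1 - β)) / (1 - β) :=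
    div_nonneg (by linarith) hp.le
  rw [sub_div] at c4 c5
  simp only [hD] at a1 a2
  rw [hN, abs_le]
  constructor <;> linarith

theorem SgA_fin {E B L U γ ζ A w y y' l p C S1 S2 : ℝ} (hp : 0 < p) (hC : C = 1 / p - ζ + 204)
    (hζ : ζ ≤ 0) (hγ : 0 ≤ γ) (hA : 1 ≤ A) (hU0 : 0 < U) (hy : 0 ≤ y)
    (t4 : |L - l| ≤ A * y) (t5 : |B - γ| ≤ A * y) (t6 : E ≤ 101 * y') (t7 : 0 ≤ E)
    (u1 : y ≤ w) (u2 : y' * y = w) (u3 : U ≤ y') (v4 : C * (A * w) ≤ 1 / 2)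
    (t1 : S1 - E * γ ≤ A * 101 * w) (t2 : S2 - U / p * L - B * ζ ≤ 2 * A * w)
    (hone : 1 ≤ S1 + S2 - E * B) : 1 / 2 ≤ U / p * l := by
  have t4' := abs_le.1 t4
  have t5' := abs_le.1 t5
  have hA0 : 0 ≤ A := by linarith
  have hAy : 0 ≤ A * y := mul_nonneg hA0 hy
  have v1 : E * (γ - B) ≤ 101 * A * w := by
    calc E * (γ - B) ≤ E * (A * y) := mul_le_mul_of_nonneg_left (by linarith [t5'.1]) t7
      _ ≤ 101 * y' * (A * y) := mul_le_mul_of_nonneg_right t6 hAy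
      _ = _ := by rw [← u2]; ring
  have v2 : B * ζ ≤ -ζ * (A * w) := by
    have h1 : -ζ * (A * y) ≤ -ζ * (A * w) :=
      mul_le_mul_of_nonneg_left (mul_le_mul_of_nonneg_left u1 hA0) (by linarith)
    have h2 : -ζ * (-B) ≤ -ζ * (A * y) :=
      mul_le_mul_of_nonneg_left (by linarith [t5'.1]) (by linarith)
    linarith
  have v3 : U / p * L ≤ U / p * l + 1 / p * (A * w) := by
    have : U * (A * y) ≤ A * w := by
      calc U * (A * y) ≤ y' * (A * y) := mul_le_mul_of_nonneg_right u3 hAy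
        _ = _ := by rw [← u2]; ring
    calc U / p * L ≤ U / p * (l + A * y) :=
          mul_le_mul_of_nonneg_left (by linarith [t4'.2]) (by positivity)
      _ = U / p * l + 1 / p * (U * (A * y)) := by ring
      _ ≤ _ := by gcongr
  rw [hC] at v4
  linarith

/-- the Estermann-type key lemma -/
theorem siegel_key {β : ℝ} (h0 : 99 / 100 ≤ β) (h1 : β < 1) : ∃ c : ℝ, 0 < c ∧
    ∀ (b : ℕ → ℝ) (A γ l : ℝ), 1 ≤ A → 0 ≤ γ →
      Asy (fun n => b n * (n : ℝ) ^ (-β)) γ A (1 / 5) →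
      Asy (fun n => b n * (n : ℝ) ^ (-(1 : ℝ))) l A (1 / 5) →
      Abs (fun n => b n * (n : ℝ) ^ (-β)) A (2 / 25) →
      (∀ n, 0 ≤ cv (fun _ => 1) b n) → b 1 = 1 →
      c * A ^ (-(12 * (1 - β))) ≤ l := by
  obtain ⟨ζ, hζ, hH⟩ := SgA_zeta (β := β) (by linarith) h1
  have hp : 0 < 1 - β := by linarith
  obtain ⟨C, hC⟩ : ∃ C, C = 1 / (1 - β) - ζ + 204 := ⟨_, rfl⟩
  have hC1 : 204 ≤ C := by have : 0 < 1 / (1 - β) := by positivity
                           linarith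
  have hC0 : 0 < C := by linarith
  refine ⟨(1 - β) / 2 * (2 * C) ^ (-(12 * (1 - β))), by positivity,
    fun b A γ l hA hγ hb hl hb' hpos hb1 => ?_⟩
  have hw : 1 ≤ 2 * C * A := one_le_mul_of_one_le_of_one_le (by linarith) hA
  obtain ⟨z, hzdef⟩ : ∃ z, z = (2 * C * A) ^ (6 : ℝ) := ⟨_, rfl⟩
  have hz : 1 ≤ z := hzdef ▸ one_le_rpow hw (by norm_num)
  have hz0 : 0 < z := by linarith
  obtain ⟨w, hwdef⟩ : ∃ w, w = z ^ (-(9 / 50) : ℝ) := ⟨_, rfl⟩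
  have hw1 : w ≤ (2 * C * A)⁻¹ := by
    rw [hwdef, hzdef, ← rpow_mul (by linarith), ← rpow_neg_one]
    exact rpow_le_rpow_of_exponent_le hw (by norm_num)
  have hzz : 1 ≤ z * z := one_le_mul_of_one_le_of_one_le hz hz
  have hid := SgA_id (fun m => 1 * (m : ℝ) ^ (-β)) (fun n => b n * (n : ℝ) ^ (-β)) hz
  have hone : 1 ≤ ∑ n ∈ Icc 1 ⌊z * z⌋₊,
      cv (fun m => 1 * (m : ℝ) ^ (-β)) (fun n => b n * (n : ℝ) ^ (-β)) n := by
    simp only [cv_rpow (fun _ => 1) b]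
    refine le_trans ?_ (single_le_sum (f := fun n : ℕ => cv (fun _ => 1) b n * (n : ℝ) ^ (-β))
      (fun n _ => mul_nonneg (hpos n) (by positivity))
      (mem_Icc.2 ⟨le_rfl, Nat.floor_pos.2 hzz⟩))
    simp [cv, hb1]
  have he := abs_rpow h0 (fun _ => 1) (by simp)
  have t1 := SgA_term hb he (by norm_num) hz
  have t2 : |∑ n ∈ Icc 1 ⌊z⌋₊, b n * (n : ℝ) ^ (-β) * (∑ m ∈ Icc 1 ⌊z * z / n⌋₊, (m : ℝ) ^ (-β) -
      (z * z / n) ^ (1 - β) / (1 - β) - ζ)| ≤ 2 * A * w := by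
    refine (abs_sum_le_sum_abs _ _).trans ?_
    have h : ∀ n ∈ Icc 1 ⌊z⌋₊, |b n * (n : ℝ) ^ (-β) * (∑ m ∈ Icc 1 ⌊z * z / n⌋₊, (m : ℝ) ^ (-β) -
        (z * z / n) ^ (1 - β) / (1 - β) - ζ)| ≤ |b n * (n : ℝ) ^ (-β)| * (2 * z ^ (-β)) :=
      fun n hn => by
        rw [abs_mul]
        refine mul_le_mul_of_nonneg_left ((hH _ (hz.trans (SgA_div hz hn))).trans ?_) (abs_nonneg _)
        gcongr 2 * ?_
        exact rpow_le_rpow_of_nonpos hz0 (SgA_div hz hn) (by linarith)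
    refine (sum_le_sum h).trans ?_
    rw [← sum_mul]
    refine (mul_le_mul_of_nonneg_right (hb' z hz) (by positivity)).trans ?_
    have : z ^ (2 / 25 : ℝ) * z ^ (-β) ≤ w := by
      rw [← rpow_add hz0, hwdef]; exact rpow_le_rpow_of_exponent_le hz (by linarith)
    calc A * z ^ (2 / 25 : ℝ) * (2 * z ^ (-β)) = 2 * A * (z ^ (2 / 25 : ℝ) * z ^ (-β)) := by ring
      _ ≤ _ := mul_le_mul_of_nonneg_left this (by linarith)
  have t3 : ∑ n ∈ Icc 1 ⌊z⌋₊, b n * (n : ℝ) ^ (-β) * ((z * z / n) ^ (1 - β) / (1 - β)) =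
      (z * z) ^ (1 - β) / (1 - β) * ∑ n ∈ Icc 1 ⌊z⌋₊, b n * (n : ℝ) ^ (-(1 : ℝ)) := by
    rw [mul_sum]
    refine sum_congr rfl fun n hn => ?_
    have hn0 : (0 : ℝ) < n := by exact_mod_cast (mem_Icc.1 hn).1
    have e : (n : ℝ) ^ (-(1 : ℝ)) = (n : ℝ) ^ (-β) / (n : ℝ) ^ (1 - β) := by
      rw [← rpow_sub hn0]; congr 1; ring
    rw [div_rpow (by positivity) hn0.le, e]
    ring
  have t6 := (le_abs_self _).trans ((abs_sum_le_sum_abs _ _).trans (he z hz))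
  have t7 : 0 ≤ ∑ m ∈ Icc 1 ⌊z⌋₊, 1 * (m : ℝ) ^ (-β) := sum_nonneg fun _ _ => by positivity
  have u1 : z ^ (-(1 / 5) : ℝ) ≤ w := hwdef ▸ rpow_le_rpow_of_exponent_le hz (by norm_num)
  have u2 : z ^ (1 / 50 : ℝ) * z ^ (-(1 / 5) : ℝ) = w := by
    rw [← rpow_add hz0, hwdef]; norm_num
  have u3 : (z * z) ^ (1 - β) ≤ z ^ (1 / 50 : ℝ) := by
    rw [mul_rpow hz0.le hz0.le, ← rpow_add hz0]
    exact rpow_le_rpow_of_exponent_le hz (by linarith)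
  have u4 : z ^ (1 / 50 - 1 / 5 : ℝ) = w := by rw [hwdef]; norm_num
  rw [u4] at t1
  simp only [one_mul] at hid hone t1 t6 t7
  simp only [mul_sub, sum_sub_distrib, ← sum_mul] at t1 t2
  rw [t3] at t2
  rw [hid] at hone
  have hU0 : 0 < (z * z) ^ (1 - β) := by positivity
  have v4 : C * (A * w) ≤ 1 / 2 := by
    have := mul_le_mul_of_nonneg_left hw1 (show 0 ≤ 2 * C * A by linarith)
    rw [mul_inv_cancel₀ (by linarith)] at this
    linarith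
  have v5 := SgA_fin hp hC hζ hγ hA hU0 (by positivity) (hl z hz) (hb z hz) t6 t7 u1 u2 u3 v4
    (abs_le.1 t1).2 (abs_le.1 t2).2 hone
  have e : (z * z) ^ (1 - β) = ((2 * C) ^ (-(12 * (1 - β))) * A ^ (-(12 * (1 - β))))⁻¹ := by
    rw [← mul_rpow (by linarith) (by linarith), ← rpow_neg (by linarith), neg_neg, hzdef,
      ← rpow_add (by linarith), ← rpow_mul (by linarith)]
    norm_num
  rw [mul_assoc, ← inv_inv ((2 * C) ^ (-(12 * (1 - β))) * A ^ (-(12 * (1 - β)))), ← e,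
    ← div_eq_mul_inv, div_le_iff₀ hU0]
  rw [div_mul_eq_mul_div, le_div_iff₀ hp] at v5
  linarith

end Vale.Agent.P031
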