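import Vale.Agent.P031.SgA
import Vale.Agent.P031.LU1

namespace Vale.Agent.P031

open Finset Real Filter Topology

theorem SgB_real {r : ℕ} {χ : DirichletCharacter ℂ r} (h2 : χ ^ 2 = 1) (a : ZMod r) :
    (((χ a).re : ℝ) : ℂ) = χ a := by
  rcases MulChar.isQuadratic_iff_sq_eq_one.2 h2 a with h | h | h <;> simp [h]

theorem SgB_lim (f : ℕ → ℝ) {K : ℝ} (hf : ∀ M N, |∑ n ∈ Ico M N, f n| ≤ K) {β : ℝ} (hβ : 0 < β) :
    ∃ l : ℝ, ∀ N : ℕ, |∑ n ∈ Icc 1 N, f n * (n : ℝ) ^ (-β) - l| ≤ K * ((N + 1 : ℕ) : ℝ) ^ (-β) := by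
  have h1 : ∀ N M : ℕ, N ≤ M → |∑ n ∈ Icc 1 N, f n * (n : ℝ) ^ (-β) -
      ∑ n ∈ Icc 1 M, f n * (n : ℝ) ^ (-β)| ≤ K * ((N + 1 : ℕ) : ℝ) ^ (-β) := fun N M h => by
    rw [← Ico_add_one_right_eq_Icc, ← Ico_add_one_right_eq_Icc,
      ← sum_Ico_consecutive _ (show 1 ≤ N + 1 by omega) (show N + 1 ≤ M + 1 by omega),
      sub_add_cancel_left, abs_neg]
    refine LU_abel_anti f (fun n => (n : ℝ) ^ (-β)) (hf _) (fun n => by positivity) (fun n hn => ?_) _
    exact rpow_le_rpow_of_nonpos (by exact_mod_cast (by omega : 0 < n)) (by push_cast; linarith)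
      (by linarith)
  have h2 : Tendsto (fun N : ℕ => K * ((N + 1 : ℕ) : ℝ) ^ (-β)) atTop (𝓝 0) := by
    have := ((tendsto_rpow_neg_atTop hβ).comp (tendsto_natCast_atTop_atTop.comp
      (tendsto_add_atTop_nat 1))).const_mul K
    simpa using this
  have h3 : CauchySeq fun N : ℕ => ∑ n ∈ Icc 1 N, f n * (n : ℝ) ^ (-β) :=
    cauchySeq_of_le_tendsto_0' _ (fun N M h => h1 N M h) h2
  obtain ⟨l, hl⟩ := cauchySeq_tendsto_of_complete h3
  refine ⟨l, fun N => ?_⟩
  exact le_of_tendsto ((hl.const_sub _).abs) ((eventually_ge_atTop N).mono fun M h => h1 N M h)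

/-- the real-variable `L`-function of a real character -/
theorem exists_ell {r : ℕ} [NeZero r] (χ : DirichletCharacter ℂ r) (h1 : χ ≠ 1) (h2 : χ ^ 2 = 1) :
    ∃ ell : ℝ → ℝ, (∀ β : ℝ, 0 < β → Asy (fun n => (χ n).re * (n : ℝ) ^ (-β)) (ell β) (2 * r) β) ∧
      ContinuousOn ell (Set.Ioi 0) ∧ ((ell 1 : ℝ) : ℂ) = DirichletCharacter.LFunction χ 1 ∧
      0 < ell 1 ∧ ell 1 ≤ 3 + log r := by
  have hr : r ≠ 0 := NeZero.ne r
  have hr0 : (0 : ℝ) < r := by positivity
  have hf : ∀ M N : ℕ, |∑ n ∈ Ico M N, (χ n).re| ≤ r := fun M N => by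
    rw [← Complex.re_sum]
    exact (Complex.abs_re_le_norm _).trans (LU_char_sum hr χ h1 M N)
  choose! ell hell using fun β (hβ : 0 < β) => SgB_lim _ hf hβ
  have hlim : ∀ δ : ℝ, 0 < δ → TendstoUniformlyOn
      (fun (N : ℕ) (β : ℝ) => ∑ n ∈ Icc 1 N, (χ n).re * (n : ℝ) ^ (-β)) ell atTop (Set.Ici δ) := by
    intro δ hδ
    rw [Metric.tendstoUniformlyOn_iff]
    intro ε hε
    have h2 : Tendsto (fun N : ℕ => (r : ℝ) * ((N + 1 : ℕ) : ℝ) ^ (-δ)) atTop (𝓝 0) := by
      have := ((tendsto_rpow_neg_atTop hδ).comp (tendsto_natCast_atTop_atTop.comp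
        (tendsto_add_atTop_nat 1))).const_mul (r : ℝ)
      simpa using this
    refine (h2.eventually (gt_mem_nhds hε)).mono fun N hN β hβ => ?_
    rw [dist_comm, Real.dist_eq]
    refine ((hell β (hδ.trans_le hβ) N).trans ?_).trans_lt hN
    exact mul_le_mul_of_nonneg_left (rpow_le_rpow_of_exponent_le
      (by exact_mod_cast Nat.le_add_left 1 N) (neg_le_neg hβ)) hr0.le
  have hcont : ContinuousOn ell (Set.Ioi 0) := fun β hβ => by
    have hβ' : 0 < β := hβ
    have h := (hlim (β / 2) (by linarith)).continuousOn (Frequently.of_forall fun N =>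
      (continuous_finsetSum _ fun n hn => continuous_const.mul
        (continuous_const.rpow continuous_neg fun _ => Or.inl
          (by exact_mod_cast (by have := (mem_Icc.1 hn).1; omega : n ≠ 0)))).continuousOn)
    exact (h.continuousAt (Ici_mem_nhds (by linarith))).continuousWithinAt
  have hL : ∀ β : ℝ, 1 < β → ((ell β : ℝ) : ℂ) = DirichletCharacter.LFunction χ β := by
    intro β hβ
    have hβ' : 1 < (β : ℂ).re := by simpa using hβ
    rw [DirichletCharacter.LFunction_eq_LSeries χ hβ']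
    have a1 := (Complex.continuous_ofReal.tendsto _).comp
      ((hlim β (by linarith)).tendsto_at (Set.self_mem_Ici))
    have a2 := ((DirichletCharacter.LSeriesSummable_of_one_lt_re χ hβ').hasSum.tendsto_sum_nat).comp
      (tendsto_add_atTop_nat 1)
    refine tendsto_nhds_unique a1 (a2.congr fun N => ?_)
    simp only [Function.comp]
    rw [range_eq_Ico, sum_eq_sum_Ico_succ_bot (Nat.add_one_pos N), LSeries.term_zero, zero_add,
      zero_add, Ico_add_one_right_eq_Icc, Complex.ofReal_sum]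
    refine sum_congr rfl fun n hn => ?_
    rw [LSeries.term_of_ne_zero (by have := (mem_Icc.1 hn).1; omega), Complex.ofReal_mul,
      SgB_real h2, Complex.ofReal_cpow (by positivity), Complex.ofReal_neg, Complex.cpow_neg,
      Complex.ofReal_natCast, div_eq_mul_inv]
  have hL1 : ((ell 1 : ℝ) : ℂ) = DirichletCharacter.LFunction χ 1 := by
    have a1 : Tendsto (fun β : ℝ => ((ell β : ℝ) : ℂ)) (𝓝[>] 1) (𝓝 (ell 1 : ℝ)) :=
      (Complex.continuous_ofReal.tendsto _).comp
        ((hcont.continuousAt (Ioi_mem_nhds one_pos)).tendsto.mono_left nhdsWithin_le_nhds)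
    have a2 : Tendsto (fun β : ℝ => DirichletCharacter.LFunction χ β) (𝓝[>] 1)
        (𝓝 (DirichletCharacter.LFunction χ (1 : ℝ))) :=
      (((DirichletCharacter.differentiable_LFunction h1).continuous.comp
        Complex.continuous_ofReal).tendsto _).mono_left nhdsWithin_le_nhds
    exact tendsto_nhds_unique a1 (a2.congr' (eventually_nhdsWithin_of_forall fun β hβ =>
      (hL β hβ).symm))
  refine ⟨ell, fun β hβ u hu => (hell β hβ _).trans ?_, hcont, hL1, ?_, ?_⟩
  · refine mul_le_mul (by linarith) (rpow_le_rpow_of_nonpos (by linarith) ?_ (by linarith))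
      (by positivity) (by positivity)
    push_cast; exact (Nat.lt_floor_add_one u).le
  · by_contra hc
    have b1 : 0 < ell (r + 1) := by
      have := (abs_le.1 (hell (r + 1) (by positivity) 1)).2
      simp only [Icc_self, sum_singleton, Nat.cast_one, map_one, Complex.one_re, one_rpow,
        mul_one] at this
      have h3 : (r : ℝ) * ((1 + 1 : ℕ) : ℝ) ^ (-((r : ℝ) + 1)) < 1 := by
        rw [rpow_neg (by positivity), ← div_eq_mul_inv, div_lt_one (by positivity),
          ← Nat.cast_succ, rpow_natCast]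
        exact_mod_cast (Nat.lt_succ_self r).trans (Nat.lt_two_pow_self)
      linarith
    obtain ⟨β, hβ, h0⟩ := intermediate_value_Icc (show (1 : ℝ) ≤ r + 1 by linarith)
      (hcont.mono fun x hx => lt_of_lt_of_le one_pos hx.1) ⟨not_lt.1 hc, b1.le⟩
    refine DirichletCharacter.LFunction_ne_zero_of_one_le_re χ (s := β) (Or.inl h1)
      (by simpa using hβ.1) ?_
    rcases hβ.1.eq_or_lt with h | h
    · subst h; rw [Complex.ofReal_one, ← hL1, h0, Complex.ofReal_zero]
    · rw [← hL β h, h0, Complex.ofReal_zero]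
  · have a1 := (abs_le.1 (hell 1 one_pos r)).1
    have a2 : (r : ℝ) * ((r + 1 : ℕ) : ℝ) ^ (-(1 : ℝ)) ≤ 1 := by
      rw [rpow_neg_one, ← div_eq_mul_inv, div_le_one (by positivity)]; push_cast; linarith
    have a3 : ∑ n ∈ Icc 1 r, (χ n).re * (n : ℝ) ^ (-(1 : ℝ)) ≤ (harmonic r : ℝ) := by
      rw [harmonic_eq_sum_Icc]
      push_cast
      refine sum_le_sum fun n _ => ?_
      rw [rpow_neg_one]
      exact mul_le_of_le_one_left (by positivity)
        ((Complex.re_le_norm _).trans (χ.norm_le_one _))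
    have a4 := harmonic_le_one_add_log r
    linarith

theorem SgB_T (f : ℕ → ℝ) (n : ℕ) : toArithmeticFunction f n = if n = 0 then 0 else f n := rfl

open ArithmeticFunction in
/-- the logarithmic derivative of `a` is `w` -/
def SgB_LD (a w : ArithmeticFunction ℝ) : Prop := pmul a log = a * w

open ArithmeticFunction in
theorem SgB_LD.mul {a b v w : ArithmeticFunction ℝ} (ha : SgB_LD a v) (hb : SgB_LD b w) :
    SgB_LD (a * b) (v + w) := by
  have : pmul (a * b) log = pmul a log * b + a * pmul b log := by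
    ext n
    simp only [pmul_apply, ArithmeticFunction.mul_apply, ArithmeticFunction.add_apply, sum_mul,
      ← sum_add_distrib, log_apply]
    refine sum_congr rfl fun p hp => ?_
    obtain ⟨h, hn⟩ := Nat.mem_divisorsAntidiagonal.1 hp
    rw [← h, Nat.cast_mul, Real.log_mul (by exact_mod_cast left_ne_zero_of_mul (h ▸ hn))
      (by exact_mod_cast right_ne_zero_of_mul (h ▸ hn))]
    ring
  unfold SgB_LD at *
  rw [this, ha, hb]; ring

open ArithmeticFunction in
theorem SgB_LD_cm (f : ℕ → ℝ) (hf : ∀ m n, f (m * n) = f m * f n) :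
    SgB_LD (toArithmeticFunction f) (pmul (toArithmeticFunction f) vonMangoldt) := by
  unfold SgB_LD
  ext n
  rcases eq_or_ne n 0 with rfl | hn
  · simp
  rw [pmul_apply, mul_apply, log_apply, ← vonMangoldt_sum,
    ← Nat.sum_divisorsAntidiagonal' (f := fun _ e => vonMangoldt e), mul_sum]
  refine sum_congr rfl fun p hp => ?_
  obtain ⟨h, -⟩ := Nat.mem_divisorsAntidiagonal.1 hp
  have h1 := left_ne_zero_of_mul (h ▸ hn)
  have h2 := right_ne_zero_of_mul (h ▸ hn)
  rw [pmul_apply, SgB_T, SgB_T, SgB_T, if_neg hn, if_neg h1, if_neg h2, ← h, hf, mul_assoc]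

open ArithmeticFunction in
theorem SgB_LD.nonneg {a w : ArithmeticFunction ℝ} (h : SgB_LD a w) (h1 : 0 ≤ a 1) (hw1 : w 1 = 0)
    (hw : ∀ n, 0 ≤ w n) (n : ℕ) : 0 ≤ a n := by
  induction n using Nat.strong_induction_on with
  | _ n ih =>
    rcases le_or_gt n 1 with hn | hn
    · interval_cases n
      · simp
      · exact h1
    have e : a n * Real.log n = ∑ p ∈ n.divisorsAntidiagonal, a p.1 * w p.2 := by
      rw [← mul_apply, ← h, pmul_apply, log_apply]
    refine nonneg_of_mul_nonneg_left ?_ (Real.log_pos (show (1 : ℝ) < n by exact_mod_cast hn))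
    rw [e]
    refine sum_nonneg fun p hp => ?_
    obtain ⟨h2, h3⟩ := Nat.mem_divisorsAntidiagonal.1 hp
    rcases eq_or_ne p.2 1 with h4 | h4
    · rw [h4, hw1, mul_zero]
    · refine mul_nonneg (ih _ ?_) (hw _)
      have h5 := left_ne_zero_of_mul (h2 ▸ h3)
      have h6 := right_ne_zero_of_mul (h2 ▸ h3)
      rw [← h2]
      exact lt_mul_of_one_lt_right (Nat.pos_of_ne_zero h5) (by omega)

theorem SgB_cv (f g : ℕ → ℝ) (n : ℕ) :
    cv f g n = (toArithmeticFunction f * toArithmeticFunction g) n := by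
  rw [ArithmeticFunction.mul_apply, cv]
  refine sum_congr rfl fun p hp => ?_
  obtain ⟨h2, h3⟩ := Nat.mem_divisorsAntidiagonal.1 hp
  rw [SgB_T, SgB_T, if_neg (left_ne_zero_of_mul (h2 ▸ h3)), if_neg (right_ne_zero_of_mul (h2 ▸ h3))]

theorem SgB_cv' (f g : ℕ → ℝ) :
    toArithmeticFunction (cv f g) = toArithmeticFunction f * toArithmeticFunction g := by
  rw [← ArithmeticFunction.toArithmeticFunction_eq_self
    (toArithmeticFunction f * toArithmeticFunction g)]
  exact toArithmeticFunction_congr fun _ => SgB_cv f g _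

theorem cv_one_nonneg (f : ℕ → ℝ) (hf1 : f 1 = 1) (hf : ∀ m n, f (m * n) = f m * f n)
    (hb : ∀ n, |f n| ≤ 1) (n : ℕ) : 0 ≤ cv (fun _ => 1) f n := by
  rw [SgB_cv]
  refine ((SgB_LD_cm (fun _ => 1) (by simp)).mul (SgB_LD_cm f hf)).nonneg ?_ (by simp)
    (fun m => ?_) n
  · simp [SgB_T, hf1]
  · have := ArithmeticFunction.vonMangoldt_nonneg (n := m)
    have := abs_le.1 (hb m)
    simp only [ArithmeticFunction.add_apply, ArithmeticFunction.pmul_apply, SgB_T]
    split_ifs <;> nlinarith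

theorem cv_four_nonneg (f g : ℕ → ℝ) (hf1 : f 1 = 1) (hg1 : g 1 = 1)
    (hf : ∀ m n, f (m * n) = f m * f n) (hg : ∀ m n, g (m * n) = g m * g n)
    (hfb : ∀ n, |f n| ≤ 1) (hgb : ∀ n, |g n| ≤ 1) (n : ℕ) :
    0 ≤ cv (fun _ => 1) (cv (cv f g) (fun m => f m * g m)) n := by
  rw [SgB_cv, SgB_cv', SgB_cv']
  refine ((SgB_LD_cm (fun _ => 1) (by simp)).mul (((SgB_LD_cm f hf).mul (SgB_LD_cm g hg)).mul
    (SgB_LD_cm (fun m => f m * g m) fun a b => by rw [hf, hg]; ring))).nonneg ?_ (by simp)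
    (fun m => ?_) n
  · simp [SgB_T, hf1, hg1]
  · have h0 := ArithmeticFunction.vonMangoldt_nonneg (n := m)
    have h1 := abs_le.1 (hfb m)
    have h2 := abs_le.1 (hgb m)
    have := mul_nonneg (mul_nonneg (show 0 ≤ 1 + f m by linarith) (show 0 ≤ 1 + g m by linarith)) h0
    simp only [ArithmeticFunction.add_apply, ArithmeticFunction.pmul_apply, SgB_T]
    split_ifs <;> nlinarith

end Vale.Agent.P031
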