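import Vale.Agent.P031.BVb

namespace Vale.Agent.P031

open Finset Real Filter

theorem tva_phi (m : ℕ) (T : Finset ℕ) (hT : ∀ q ∈ T, q.Prime) :
    (Nat.totient (m * ∏ q ∈ T, q) : ℝ) =
      Nat.totient m * ∏ q ∈ T, (if q ∣ m then (q : ℝ) else q - 1) := by
  induction T using Finset.induction_on with
  | empty => simp
  | insert p T hp ih =>
    have hpp := hT p (mem_insert_self _ _)
    have hT' : ∀ q ∈ T, q.Prime := fun q hq => hT q (mem_insert_of_mem hq)
    rw [prod_insert hp, prod_insert hp, mul_left_comm, mul_left_comm (Nat.totient m : ℝ), ← ih hT']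
    split_ifs with h
    · rw [Nat.totient_mul_of_prime_of_dvd hpp (h.mul_right _)]
      push_cast
      rfl
    · rw [Nat.totient_mul_of_prime_of_not_dvd hpp fun hd => ?_]
      · push_cast [hpp.one_le]
        rfl
      · rcases (Nat.Prime.dvd_mul hpp).1 hd with h1 | h1
        · exact h h1
        · obtain ⟨q, hq, h2⟩ := (Prime.dvd_finsetProd_iff hpp.prime _).1 h1
          exact hp (((Nat.prime_dvd_prime_iff_eq hpp (hT' q hq)).1 h2) ▸ hq)

theorem tva_tot (m : ℕ) : (Nat.totient m : ℝ) = m * ∏ q ∈ m.primeFactors, (1 - 1 / (q : ℝ)) := by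
  have := congrArg (Rat.cast : ℚ → ℝ) (Nat.totient_eq_mul_prod_factors m)
  simpa using this

theorem tva_pf {y : ℝ} {m : ℕ} (hm : Smooth y m) : (PP y).filter (· ∣ m) = m.primeFactors := by
  ext q
  rw [mem_filter, mem_PP, Nat.mem_primeFactors]
  exact ⟨fun h => ⟨h.1.1, h.2, hm.1⟩, fun h => ⟨⟨h.1, hm.2 q h.1 h.2.1⟩, h.2.1⟩⟩

theorem tva_two {y : ℝ} (hy : 2 ≤ y) : Smooth y 2 := ⟨two_ne_zero, fun q hq hd => by
  rw [(Nat.prime_dvd_prime_iff_eq hq Nat.prime_two).1 hd]; exact_mod_cast hy⟩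

theorem nu_eq {y : ℝ} (hy : 2 ≤ y) {d : ℕ} (hd : Smooth y d) :
    nu y d = ∑ T ∈ (PP y).powerset, (-1 : ℝ) ^ T.card / Nat.totient (2 * d * ∏ q ∈ T, q) := by
  have hm := (tva_two hy).mul hd
  have h0 : (0 : ℝ) < Nat.totient (2 * d) := by
    exact_mod_cast Nat.totient_pos.2 (Nat.pos_of_ne_zero hm.1)
  have e1 : ∀ T ∈ (PP y).powerset, (-1 : ℝ) ^ T.card / Nat.totient (2 * d * ∏ q ∈ T, q) =
      1 / Nat.totient (2 * d) * ∏ q ∈ T, -(1 / (if q ∣ 2 * d then (q : ℝ) else q - 1)) :=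
    fun T hT => by
    rw [tva_phi _ T fun q hq => (mem_PP.1 (mem_powerset.1 hT hq)).1, prod_neg]
    simp only [one_div, prod_inv_distrib]
    ring
  rw [sum_congr rfl e1, ← mul_sum, ← prod_one_add,
    ← prod_filter_mul_prod_filter_not (PP y) (· ∣ 2 * d), tva_pf hm, nu]
  have e2 : ∏ q ∈ (2 * d).primeFactors, (1 + -(1 / (if q ∣ 2 * d then (q : ℝ) else q - 1))) =
      ∏ q ∈ (2 * d).primeFactors, (1 - 1 / (q : ℝ)) :=
    prod_congr rfl fun q hq => by rw [if_pos (Nat.dvd_of_mem_primeFactors hq), sub_eq_add_neg]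
  have e3 : (PP y).filter (fun q => ¬ q ∣ 2 * d) = ((PP y).erase 2).filter fun q => ¬ q ∣ d := by
    ext q
    simp only [mem_filter, mem_erase]
    constructor
    · rintro ⟨h1, h2⟩
      exact ⟨⟨fun h => h2 (h ▸ dvd_mul_right _ _), h1⟩, fun h => h2 (h.mul_left _)⟩
    · rintro ⟨⟨h1, h2⟩, h3⟩
      have hq := (mem_PP.1 h2).1
      exact ⟨h2, fun h => ((Nat.Prime.dvd_mul hq).1 h).elim
        (fun h => h1 ((Nat.prime_dvd_prime_iff_eq hq Nat.prime_two).1 h)) h3⟩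
  have e4 : ∏ q ∈ (PP y).filter (fun q => ¬ q ∣ 2 * d),
      (1 + -(1 / (if q ∣ 2 * d then (q : ℝ) else q - 1))) =
      ∏ q ∈ (PP y).filter (fun q => ¬ q ∣ 2 * d), (1 - 1 / ((q : ℝ) - 1)) :=
    prod_congr rfl fun q hq => by rw [if_neg (mem_filter.1 hq).2, ← sub_eq_add_neg]
  rw [e2, e4, e3, ← mul_assoc]
  congr 1
  have hd0 : (0 : ℝ) < d := by exact_mod_cast Nat.pos_of_ne_zero hd.1
  have := tva_tot (2 * d)
  push_cast at this
  field_simp
  linarith

theorem tva_ie {y : ℝ} {m v : ℕ} (hm : Smooth y m) (hv : v ≠ 0) :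
    (if sm y v = m then (1 : ℝ) else 0) =
      ∑ T ∈ (PP y).powerset, (-1 : ℝ) ^ T.card * if m * ∏ q ∈ T, q ∣ v then 1 else 0 := by
  by_cases h : m ∣ v
  · obtain ⟨w, rfl⟩ := h
    have hw := right_ne_zero_of_mul hv
    have e1 : ∀ T ∈ (PP y).powerset,
        ((-1 : ℝ) ^ T.card * if m * ∏ q ∈ T, q ∣ m * w then 1 else 0) =
        ∏ q ∈ T, -(if q ∣ w then (1 : ℝ) else 0) := fun T hT => by
      rw [prod_neg, prod_boole]
      congr 1
      refine if_congr ?_ rfl rfl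
      rw [Nat.mul_dvd_mul_iff_left (Nat.pos_of_ne_zero hm.1)]
      exact ⟨fun h q hq => (dvd_prod_of_mem _ hq).trans h, fun h =>
        Finset.prod_primes_dvd _ (fun q hq => (mem_PP.1 (mem_powerset.1 hT hq)).1.prime) h⟩
    rw [sum_congr rfl e1, ← prod_one_add, sm_mul y hm.1 hw, sm_of_smooth hm]
    split_ifs with h1
    · have h2 : sm y w = 1 := (Nat.mul_eq_left hm.1).1 h1
      have h3 := rough_div_sm y hw
      rw [h2, Nat.div_one] at h3
      refine (prod_eq_one fun q hq => ?_).symm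
      rw [if_neg fun hd => absurd (h3 q (mem_PP.1 hq).1 hd) (not_lt.2 (mem_PP.1 hq).2)]
      simp
    · by_contra hc
      refine h1 ?_
      rw [sm_of_rough fun q hq hd => ?_, mul_one]
      by_contra hlt
      exact hc (prod_eq_zero (mem_PP.2 ⟨hq, not_lt.1 hlt⟩) (by simp [hd])).symm
  · rw [if_neg fun e : sm y v = m => h (e ▸ sm_dvd y hv)]
    refine (sum_eq_zero fun T _ => ?_).symm
    rw [if_neg fun e => h ((dvd_mul_right _ _).trans e), mul_zero]

theorem tva_id {y : ℝ} (hy : 2 ≤ y) {d : ℕ} (hd : Smooth y d) (W : ℝ → ℝ) (X : ℝ) :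
    ∑ n ∈ (Icc 1 ⌊3 * X⌋₊).filter (fun n => sm y (n - 1) = 2 * d),
        ArithmeticFunction.vonMangoldt n * W (n / X) -
      nu y d * ∑ n ∈ Icc 1 ⌊3 * X⌋₊, ArithmeticFunction.vonMangoldt n * W (n / X) =
      ∑ T ∈ (PP y).powerset, (-1 : ℝ) ^ T.card * EE1 W X (2 * d * ∏ q ∈ T, q) := by
  simp only [EE1, mul_sub]
  rw [sum_sub_distrib, nu_eq hy hd, sum_mul]
  congr 1
  · simp only [sum_filter, mul_sum]
    rw [sum_comm]
    refine sum_congr rfl fun n hn => ?_
    have h1 := (mem_Icc.1 hn).1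
    rcases h1.eq_or_lt with rfl | h2
    · simp
    have := congrArg (· * (ArithmeticFunction.vonMangoldt n * W (n / X)))
      (tva_ie (v := n - 1) ((tva_two hy).mul hd) (by omega))
    simp only [sum_mul, mul_assoc, boole_mul] at this
    rw [this]
    refine sum_congr rfl fun T _ => ?_
    rw [← mul_assoc 2 d]
    congr 1
    exact if_congr ((Nat.modEq_iff_dvd' h1).symm.trans ⟨Nat.ModEq.symm, Nat.ModEq.symm⟩) rfl rfl
  · exact sum_congr rfl fun T _ => by ring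

theorem tva_group {y : ℝ} (hy : 2 ≤ y) (S : Finset ℕ) (hS : ∀ d ∈ S, Smooth y d) :
    ∃ M : Finset ℕ, (∀ m ∈ M, Smooth y m) ∧ ∀ F : ℕ → ℝ, (∀ m, 0 ≤ F m) →
      ∑ d ∈ S, ∑ T ∈ (PP y).powerset, F (2 * d * ∏ q ∈ T, q) ≤ ∑ m ∈ M, 2 ^ om m * F m := by
  have hs : ∀ z ∈ S ×ˢ (PP y).powerset, Smooth y (2 * z.1 * ∏ q ∈ z.2, q) := fun z hz => by
    obtain ⟨h1, h2⟩ := mem_product.1 hz
    refine ((tva_two hy).mul (hS _ h1)).mul ⟨prod_ne_zero_iff.2 fun q hq =>
      (mem_PP.1 (mem_powerset.1 h2 hq)).1.ne_zero, fun p hp hd => ?_⟩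
    obtain ⟨q, hq, h3⟩ := (Prime.dvd_finsetProd_iff hp.prime _).1 hd
    have h4 := mem_PP.1 (mem_powerset.1 h2 hq)
    rw [(Nat.prime_dvd_prime_iff_eq hp h4.1).1 h3]
    exact h4.2
  refine ⟨(S ×ˢ (PP y).powerset).image fun z => 2 * z.1 * ∏ q ∈ z.2, q, fun m hm => ?_,
    fun F hF => ?_⟩
  · obtain ⟨z, hz, rfl⟩ := mem_image.1 hm
    exact hs z hz
  rw [← sum_product', sum_comp F fun z : ℕ × Finset ℕ => 2 * z.1 * ∏ q ∈ z.2, q]
  refine sum_le_sum fun m _ => ?_
  rw [nsmul_eq_mul]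
  refine mul_le_mul_of_nonneg_right ?_ (hF m)
  have := card_le_card_of_injOn (s := (S ×ˢ (PP y).powerset).filter
    fun z => 2 * z.1 * ∏ q ∈ z.2, q = m) (t := m.primeFactors.powerset) Prod.snd
    (fun z hz => by
      obtain ⟨h1, rfl⟩ := mem_filter.1 hz
      refine mem_coe.2 (mem_powerset.2 fun q hq => Nat.mem_primeFactors.2
        ⟨(mem_PP.1 (mem_powerset.1 (mem_product.1 h1).2 hq)).1,
          (dvd_prod_of_mem _ hq).mul_left _, (hs z h1).1⟩))
    fun z hz z' hz' e => by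
      obtain ⟨h1, h2⟩ := mem_filter.1 hz
      have h3 := (mem_filter.1 hz').2
      rw [← h2, ← e] at h3
      have h4 := right_ne_zero_of_mul (hs z h1).1
      have h5 := Nat.eq_of_mul_eq_mul_right (Nat.pos_of_ne_zero h4) h3
      exact Prod.ext (by omega) e
  rw [card_powerset] at this
  exact_mod_cast this

theorem tva_prog {ε : ℝ} {W : ℝ → ℝ} (hW : Cut ε W) {X : ℝ} (hX : 1 ≤ X) {m : ℕ} (hm : m ≠ 0) :
    ∑ n ∈ (Icc 1 ⌊3 * X⌋₊).filter (fun n => n ≡ 1 [MOD m]),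
      ArithmeticFunction.vonMangoldt n * W (n / X) ≤ 3 * X * log (3 * X) / m := by
  have hl : 0 ≤ log (3 * X) := log_nonneg (by linarith)
  rw [← sum_erase (a := 1) _ (by simp)]
  have h1 : ∀ n ∈ ((Icc 1 ⌊3 * X⌋₊).filter (fun n => n ≡ 1 [MOD m])).erase 1,
      ArithmeticFunction.vonMangoldt n * W (n / X) ≤ log (3 * X) := fun n hn => by
    obtain ⟨a1, a2⟩ := mem_Icc.1 (mem_filter.1 (mem_of_mem_erase hn)).1
    refine (mul_le_of_le_one_right ArithmeticFunction.vonMangoldt_nonneg (hW.le _)).trans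
      (ArithmeticFunction.vonMangoldt_le_log.trans (log_le_log (by exact_mod_cast a1) ?_))
    exact (Nat.le_floor_iff (by linarith)).1 a2
  refine (sum_le_card_nsmul _ _ _ h1).trans ?_
  rw [nsmul_eq_mul, mul_div_right_comm]
  refine mul_le_mul_of_nonneg_right ?_ hl
  have := card_le_card_of_injOn
    (s := ((Icc 1 ⌊3 * X⌋₊).filter (fun n => n ≡ 1 [MOD m])).erase 1)
    (t := (Ioc 0 ⌊3 * X⌋₊).filter (m ∣ ·)) (· - 1)
    (fun n hn => by
      obtain ⟨a0, a⟩ := mem_erase.1 hn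
      obtain ⟨a1, a3⟩ := mem_filter.1 a
      obtain ⟨a1, a2⟩ := mem_Icc.1 a1
      exact mem_coe.2 (mem_filter.2 ⟨mem_Ioc.2 ⟨by simp only; omega, by simp only; omega⟩,
        (Nat.modEq_iff_dvd' a1).1 a3.symm⟩))
    fun n hn n' hn' e => by
      have a1 := (mem_Icc.1 (mem_filter.1 (mem_of_mem_erase hn)).1).1
      have a2 := (mem_Icc.1 (mem_filter.1 (mem_of_mem_erase hn')).1).1
      simp only at e
      omega
  rw [Nat.Ioc_filter_dvd_card_eq_div] at this
  refine le_trans (by exact_mod_cast this) (Nat.cast_div_le.trans ?_)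
  exact div_le_div_of_nonneg_right (Nat.floor_le (by linarith)) (Nat.cast_nonneg _)

theorem tva_EE {ε : ℝ} {W : ℝ → ℝ} (hW : Cut ε W) {X : ℝ} (hX : 1 ≤ X) {m : ℕ} (hm : m ≠ 0) :
    |EE1 W X m| ≤ 3 * X * log (3 * X) / Nat.totient m := by
  have hl : 0 ≤ log (3 * X) := log_nonneg (by linarith)
  have h0 : (0 : ℝ) < Nat.totient m := by exact_mod_cast Nat.totient_pos.2 (Nat.pos_of_ne_zero hm)
  have h1 := (tva_prog hW hX hm).trans (div_le_div_of_nonneg_left (by positivity) h0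
    (by exact_mod_cast Nat.totient_le m))
  have h2 := tva_prog hW hX one_ne_zero
  rw [filter_true_of_mem fun _ _ => Nat.modEq_one, Nat.cast_one, div_one] at h2
  have h3 : ∀ s : Finset ℕ, 0 ≤ ∑ n ∈ s, ArithmeticFunction.vonMangoldt n * W (n / X) := fun s =>
    sum_nonneg fun _ _ => mul_nonneg ArithmeticFunction.vonMangoldt_nonneg (hW.nonneg _)
  have h4 := div_le_div_of_nonneg_right h2 h0.le
  have h5 := div_nonneg (h3 (Icc 1 ⌊3 * X⌋₊)) h0.le
  rw [EE1, one_div_mul_eq_div, abs_le]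
  constructor <;> linarith [h3 ((Icc 1 ⌊3 * X⌋₊).filter (fun n => n ≡ 1 [MOD m]))]

theorem tva_inv : ∃ C : ℝ, 0 < C ∧ ∀ y : ℝ, 2 ≤ y → ∀ m : ℕ, Smooth y m →
    (1 : ℝ) / Nat.totient m ≤ C * log y * (1 / m) := by
  obtain ⟨c, hc, h⟩ := prod_ge
  refine ⟨1 / c, by positivity, fun y hy m hm => ?_⟩
  have hl : 0 < log y := log_pos (by linarith)
  have hm0 : (0 : ℝ) < m := by exact_mod_cast Nat.pos_of_ne_zero hm.1
  have h1 : ∏ q ∈ PP y, (1 - 1 / (q : ℝ)) ≤ ∏ q ∈ m.primeFactors, (1 - 1 / (q : ℝ)) := by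
    rw [← tva_pf hm]
    refine prod_le_prod_of_subset_of_le_one (filter_subset _ _) (fun q hq => ?_) fun q _ _ => ?_
    · have : (1 : ℝ) ≤ q := by exact_mod_cast (mem_PP.1 hq).1.one_le
      rw [sub_nonneg, div_le_one (by linarith)]
      exact this
    · exact sub_le_self _ (by positivity)
  calc _ ≤ 1 / (m * (c / log y)) := by
        rw [tva_tot]
        exact one_div_le_one_div_of_le (by positivity)
          (mul_le_mul_of_nonneg_left ((h y hy).trans h1) hm0.le)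
    _ = _ := by field_simp

/-- the smooth parts of shifted primes follow the model law -/
theorem tv_smooth {ε : ℝ} {W : ℝ → ℝ} (hW : Cut ε W) (B : ℕ) : ∀ᶠ X : ℝ in atTop, ∀ y : ℝ,
    8 ≤ y → log y ≤ 2 * log X / log (log X) ^ 3 → ∀ S : Finset ℕ, (∀ d ∈ S, Smooth y d) →
    ∑ d ∈ S, |∑ n ∈ (Icc 1 ⌊3 * X⌋₊).filter (fun n => sm y (n - 1) = 2 * d),
        ArithmeticFunction.vonMangoldt n * W (n / X) -
      nu y d * ∑ n ∈ Icc 1 ⌊3 * X⌋₊, ArithmeticFunction.vonMangoldt n * W (n / X)|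
      ≤ X / log X ^ B := by
  obtain ⟨C1, h1⟩ := sum_four_pow_om_div
  obtain ⟨C2, h2⟩ := smooth_tail
  obtain ⟨C3, hC3, h3⟩ := tva_inv
  have hll := tendsto_log_atTop.comp tendsto_log_atTop
  filter_upwards [bv hW (2 * B + 19), eventually_ge_atTop 3,
    tendsto_log_atTop.eventually_ge_atTop 1, hll.eventually_ge_atTop 2,
    hll.eventually_ge_atTop (40 * (2 * B + 33 : ℕ)),
    tendsto_log_atTop.eventually_ge_atTop (1 + 6 * C3 * |C2| + 6 * |C1|)]
    with X hbv hX hL hl2 hl hLC y hy hyX S hS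
  simp only [Function.comp_apply] at hl2 hl
  have hX1 : 1 ≤ X := by linarith
  set L := log X with hLdef
  set l := log L with hldef
  have hL0 : 0 < L := by linarith
  have hl0 : 0 < l := by linarith
  have hy0 : 0 < log y := log_pos (by linarith)
  have hyL : log y ≤ L := hyX.trans (by
    rw [div_le_iff₀ (by positivity)]
    have : (2 : ℝ) ≤ l ^ 3 := hl2.trans (le_self_pow₀ (by linarith) (by norm_num))
    nlinarith)
  have h3X : 3 * X * log (3 * X) ≤ 6 * X * L := by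
    rw [log_mul (by norm_num) (by linarith)]
    nlinarith [log_le_log (by norm_num) hX]
  have hE : ∀ m, Smooth y m → |EE1 W X m| ≤ 6 * X * L * (1 / Nat.totient m) := fun m hm => by
    rw [mul_one_div]
    exact (tva_EE hW hX1 hm.1).trans (div_le_div_of_nonneg_right h3X (Nat.cast_nonneg _))
  obtain ⟨M, hM, hF⟩ := tva_group (by linarith : 2 ≤ y) S hS
  set U := L ^ (B + 18) with hU
  have hU0 : 0 < U := by positivity
  set Y := X / L ^ (B + 1) with hY
  have hY0 : 0 ≤ Y := by positivity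
  have s1 : ∑ m ∈ M.filter (· ≤ ⌊X ^ (1 / 20 : ℝ)⌋₊), |EE1 W X m| ≤ Y / U := by
    refine (sum_le_sum_of_subset_of_nonneg (fun m hm => mem_Icc.2
      ⟨Nat.pos_of_ne_zero (hM m (mem_filter.1 hm).1).1, (mem_filter.1 hm).2⟩)
      fun _ _ _ => abs_nonneg _).trans (hbv.trans_eq ?_)
    rw [hY, hU]
    field_simp
    ring
  have s2 : ∑ m ∈ M.filter (fun m => ¬ m ≤ ⌊X ^ (1 / 20 : ℝ)⌋₊), |EE1 W X m|
      ≤ 6 * C3 * |C2| * (Y / U) := by
    have a1 := h2 y (X ^ (1 / 20 : ℝ)) hy (Real.one_le_rpow hX1 (by norm_num))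
      (M.filter fun m => ¬ m ≤ ⌊X ^ (1 / 20 : ℝ)⌋₊) fun m hm =>
      ⟨hM m (mem_filter.1 hm).1, Nat.lt_of_floor_lt (not_le.1 (mem_filter.1 hm).2)⟩
    have a2 : exp (-(log (X ^ (1 / 20 : ℝ)) / log y)) ≤ 1 / L ^ (2 * B + 33) := by
      rw [← exp_log (by positivity : 0 < L ^ (2 * B + 33)), one_div (exp _), ← exp_neg, exp_le_exp,
        neg_le_neg_iff, log_pow, log_rpow (by linarith), le_div_iff₀ hy0]
      refine (mul_le_mul_of_nonneg_left hyX (by positivity)).trans ?_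
      rw [← hldef, ← hLdef, ← mul_div_assoc, div_le_iff₀ (by positivity)]
      have : 40 * ((2 * B + 33 : ℕ) : ℝ) ≤ l ^ 2 := hl.trans (le_self_pow₀ (by linarith) two_ne_zero)
      nlinarith [mul_le_mul_of_nonneg_left this (mul_pos hL0 hl0).le]
    calc _ ≤ ∑ m ∈ M.filter (fun m => ¬ m ≤ ⌊X ^ (1 / 20 : ℝ)⌋₊),
          6 * X * L * (C3 * L) * ((1 : ℝ) / m) := by
          refine sum_le_sum fun m hm => ?_
          have b1 := hM m (mem_filter.1 hm).1
          refine (hE m b1).trans ?_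
          rw [mul_assoc (6 * X * L)]
          refine mul_le_mul_of_nonneg_left ((h3 y (by linarith) m b1).trans ?_) (by positivity)
          gcongr
      _ ≤ 6 * X * L * (C3 * L) * (|C2| * L ^ 12 * (1 / L ^ (2 * B + 33))) := by
          rw [← mul_sum]
          refine mul_le_mul_of_nonneg_left (a1.trans ?_) (by positivity)
          gcongr
          exact le_abs_self _
      _ = _ := by
          rw [hY, hU]
          field_simp
          ring
  have s3 : ∑ m ∈ M, 4 ^ om m * |EE1 W X m| / U ≤ 6 * |C1| * Y := by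
    calc _ ≤ ∑ m ∈ M, 6 * X * L / U * ((4 : ℝ) ^ om m / Nat.totient m) := by
          refine sum_le_sum fun m hm => ?_
          refine (div_le_div_of_nonneg_right (mul_le_mul_of_nonneg_left (hE m (hM m hm))
            (by positivity)) hU0.le).trans_eq ?_
          ring
      _ ≤ 6 * X * L / U * (|C1| * L ^ 16) := by
          rw [← mul_sum]
          refine mul_le_mul_of_nonneg_left ((h1 y (by linarith) M hM).trans ?_) (by positivity)
          gcongr
          exact le_abs_self _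
      _ = _ := by
          rw [hY, hU]
          field_simp
          ring
  calc _ ≤ ∑ d ∈ S, ∑ T ∈ (PP y).powerset, |EE1 W X (2 * d * ∏ q ∈ T, q)| := by
        refine sum_le_sum fun d hd => ?_
        rw [tva_id (by linarith) (hS d hd)]
        refine (abs_sum_le_sum_abs _ _).trans_eq (sum_congr rfl fun T _ => ?_)
        rw [abs_mul, abs_neg_one_pow, one_mul]
    _ ≤ ∑ m ∈ M, 2 ^ om m * |EE1 W X m| := hF (fun m => |EE1 W X m|) fun _ => abs_nonneg _
    _ ≤ ∑ m ∈ M, (U * |EE1 W X m| + 4 ^ om m * |EE1 W X m| / U) := by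
        refine sum_le_sum fun m _ => ?_
        rw [mul_div_right_comm, ← add_mul]
        refine mul_le_mul_of_nonneg_right ?_ (abs_nonneg _)
        rw [show (4 : ℝ) ^ om m = (2 ^ om m) ^ 2 by rw [← pow_mul, mul_comm, pow_mul]; norm_num,
          ← sub_le_iff_le_add', le_div_iff₀ hU0]
        nlinarith [sq_nonneg ((2 : ℝ) ^ om m - U), mul_pos hU0 (pow_pos two_pos (om m))]
    _ ≤ U * (Y / U + 6 * C3 * |C2| * (Y / U)) + 6 * |C1| * Y := by
        rw [sum_add_distrib, ← mul_sum, ← sum_filter_add_sum_filter_not M (· ≤ ⌊X ^ (1 / 20 : ℝ)⌋₊)]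
        exact add_le_add (mul_le_mul_of_nonneg_left (add_le_add s1 s2) hU0.le) s3
    _ = (1 + 6 * C3 * |C2| + 6 * |C1|) * Y := by field_simp
    _ ≤ L * Y := mul_le_mul_of_nonneg_right hLC hY0
    _ = _ := by rw [hY]; field_simp; ring

end Vale.Agent.P031
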