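import Vale.Agent.P031.Four

namespace Vale.Agent.P031

open Finset Real Filter

/-- `∑_{d ∣ n, d > U} Λ(d)` -/
noncomputable def bV (U n : ℕ) : ℝ :=
  ∑ d ∈ n.divisors.filter (fun d => U < d), ArithmeticFunction.vonMangoldt d

/-- the type II sum in Vaughan's identity -/
noncomputable def II (W : ℝ → ℝ) (X : ℝ) (U : ℕ) {r : ℕ} (χ : DirichletCharacter ℂ r) : ℂ :=
  ∑ m ∈ Ioc U ⌊3 * X⌋₊, ∑ n ∈ Ioc U ⌊3 * X⌋₊,
    ((ArithmeticFunction.moebius m : ℤ) : ℂ) * (bV U n : ℂ) * χ m * χ n * (W (m * n / X) : ℂ)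

namespace VauA

open ArithmeticFunction

variable {r : ℕ} {χ : DirichletCharacter ℂ r}

theorem period (hr : r ≠ 0) (h : χ ≠ 1) (b : ℕ) : ∑ i ∈ range r, χ ((b + i : ℕ) : ZMod r) = 0 := by
  haveI : NeZero r := ⟨hr⟩
  rw [← MulChar.sum_eq_zero_of_ne_one h, ← Equiv.sum_comp (Equiv.addLeft (b : ZMod r))]
  refine sum_nbij' (fun i => (i : ZMod r)) ZMod.val (fun _ _ => mem_univ _)
    (fun x _ => mem_range.2 (ZMod.val_lt x)) (fun i hi => ZMod.val_cast_of_lt (mem_range.1 hi))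
    (fun x _ => ZMod.natCast_zmod_val x) fun i _ => by simp

theorem sum_le (hr : r ≠ 0) (h : χ ≠ 1) (N : ℕ) : ‖∑ n ∈ Ioc 0 N, χ (n : ZMod r)‖ ≤ r := by
  induction N using Nat.strong_induction_on with
  | _ N ih =>
    rcases le_or_gt N r with hN | hN
    · refine (norm_sum_le _ _).trans ((sum_le_card_nsmul _ _ 1 fun n _ => χ.norm_le_one _).trans ?_)
      simpa using hN
    · obtain ⟨M, rfl⟩ : ∃ M, N = M + r := ⟨N - r, by omega⟩
      have h1 : ∑ n ∈ Ioc M (M + r), χ (n : ZMod r) = 0 := by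
        rw [← period hr h (M + 1), ← Ico_add_one_add_one_eq_Ioc, sum_Ico_eq_sum_range,
          show M + r + 1 - (M + 1) = r by omega]
      rw [← sum_Ioc_consecutive _ (Nat.zero_le M) (Nat.le_add_right M r), h1, add_zero]
      exact ih M (by omega)

theorem abel (hr : r ≠ 0) (h : χ ≠ 1) (N : ℕ) : ∀ (v : ℕ → ℝ) (K : ℝ), 0 ≤ K → v 1 ≤ K →
    (∀ a b, 1 ≤ a → a ≤ b → b ≤ N → v b ≤ v a) → (∀ a, 1 ≤ a → a ≤ N → 0 ≤ v a) →
    ‖∑ n ∈ Ioc 0 N, χ (n : ZMod r) * (v n : ℂ)‖ ≤ r * K := by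
  induction N with
  | zero => intro v K hK _ _ _; simpa using by positivity
  | succ N ih =>
    intro v K hK h1 ha h0
    have e : ∑ n ∈ Ioc 0 (N + 1), χ (n : ZMod r) * (v n : ℂ) =
        ∑ n ∈ Ioc 0 N, χ (n : ZMod r) * ((v n - v (N + 1) : ℝ) : ℂ) +
          (∑ n ∈ Ioc 0 (N + 1), χ (n : ZMod r)) * (v (N + 1) : ℂ) := by
      rw [sum_mul, sum_Ioc_succ_top (Nat.zero_le N), sum_Ioc_succ_top (Nat.zero_le N), ← add_assoc,
        ← sum_add_distrib]
      congr 1
      exact sum_congr rfl fun n _ => by push_cast; ring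
    have h2 := h0 (N + 1) (by omega) le_rfl
    have h3 := ha 1 (N + 1) le_rfl (by omega) le_rfl
    have h4 := ih (fun n => v n - v (N + 1)) (K - v (N + 1)) (by linarith) (by linarith)
      (fun a b h1 h2 h3 => by linarith [ha a b h1 h2 (by omega)])
      (fun a h1 h2 => by linarith [ha a (N + 1) h1 (by omega) le_rfl])
    rw [e]
    refine (norm_add_le _ _).trans ?_
    rw [norm_mul, Complex.norm_real, Real.norm_of_nonneg h2]
    nlinarith [mul_le_mul_of_nonneg_right (sum_le hr h (N + 1)) h2]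

/-- the twisted weighted sum of an arithmetic function -/
noncomputable def Ph (χ : DirichletCharacter ℂ r) (N : ℕ) (w : ℕ → ℝ) (f : ArithmeticFunction ℝ) :
    ℂ := ∑ n ∈ Ioc 0 N, (f n : ℂ) * χ (n : ZMod r) * (w n : ℂ)

theorem Ph_add (N : ℕ) (w : ℕ → ℝ) (f g : ArithmeticFunction ℝ) :
    Ph χ N w (f + g) = Ph χ N w f + Ph χ N w g := by
  simp only [Ph, ← sum_add_distrib, ArithmeticFunction.add_apply]
  exact sum_congr rfl fun n _ => by push_cast; ring

theorem Ph_sub (N : ℕ) (w : ℕ → ℝ) (f g : ArithmeticFunction ℝ) :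
    Ph χ N w (f - g) = Ph χ N w f - Ph χ N w g := by
  rw [eq_sub_iff_add_eq, ← Ph_add, sub_add_cancel]

theorem Ph_mul {N : ℕ} {w : ℕ → ℝ} (hw : ∀ n, N < n → w n = 0) (f g : ArithmeticFunction ℝ) :
    Ph χ N w (f * g) =
      ∑ m ∈ Ioc 0 N, (f m : ℂ) * χ (m : ZMod r) * Ph χ N (fun k => w (m * k)) g := by
  simp only [Ph, mul_apply, mul_sum]
  rw [← sum_product']
  trans ∑ n ∈ Ioc 0 N, ∑ x ∈ Ioc 0 N ×ˢ Ioc 0 N, if x.1 * x.2 = n then
    (f x.1 : ℂ) * χ (x.1 : ZMod r) * ((g x.2 : ℂ) * χ (x.2 : ZMod r) * (w (x.1 * x.2) : ℂ)) else 0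
  · refine sum_congr rfl fun n hn => ?_
    rw [mem_Ioc] at hn
    rw [Nat.divisorsAntidiagonal_eq_prod_filter_of_le hn.1.ne' hn.2, ← sum_filter,
      Complex.ofReal_sum, sum_mul, sum_mul]
    refine sum_congr rfl fun x hx => ?_
    rw [← (mem_filter.1 hx).2]
    push_cast
    rw [map_mul]
    ring
  · rw [sum_comm]
    refine sum_congr rfl fun x hx => ?_
    rw [sum_ite_eq]
    split_ifs with h
    · rfl
    · have h1 := mem_product.1 hx
      rw [mem_Ioc, mem_Ioc] at h1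
      have h2 : 0 < x.1 * x.2 := Nat.mul_pos h1.1.1 h1.2.1
      rw [mem_Ioc] at h
      rw [hw (x.1 * x.2) (by omega)]
      simp

/-- truncation to `n ≤ U` -/
def lo (U : ℕ) (f : ArithmeticFunction ℝ) : ArithmeticFunction ℝ :=
  ⟨fun n => if n ≤ U then f n else 0, by simp⟩

/-- truncation to `n > U` -/
def hi (U : ℕ) (f : ArithmeticFunction ℝ) : ArithmeticFunction ℝ :=
  ⟨fun n => if U < n then f n else 0, by simp⟩

theorem lo_apply (U : ℕ) (f : ArithmeticFunction ℝ) (n : ℕ) :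
    lo U f n = if n ≤ U then f n else 0 := rfl

theorem hi_apply (U : ℕ) (f : ArithmeticFunction ℝ) (n : ℕ) :
    hi U f n = if U < n then f n else 0 := rfl

theorem lo_add_hi (U : ℕ) (f : ArithmeticFunction ℝ) : lo U f + hi U f = f := by
  ext n
  rw [ArithmeticFunction.add_apply, lo_apply, hi_apply]
  split_ifs <;> first | omega | simp

theorem ident (U : ℕ) : vonMangoldt = lo U vonMangoldt + lo U (moebius : ArithmeticFunction ℝ) *
    (ArithmeticFunction.log - lo U vonMangoldt * (zeta : ArithmeticFunction ℝ)) +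
    hi U (moebius : ArithmeticFunction ℝ) * (hi U vonMangoldt * (zeta : ArithmeticFunction ℝ)) := by
  have h1 := lo_add_hi U vonMangoldt
  have h2 := lo_add_hi U (moebius : ArithmeticFunction ℝ)
  have h3 : ((moebius : ArithmeticFunction ℝ) * (zeta : ArithmeticFunction ℝ)) = 1 :=
    coe_moebius_mul_coe_zeta
  rw [← vonMangoldt_mul_zeta]
  linear_combination (-1 + lo U (moebius : ArithmeticFunction ℝ) * (zeta : ArithmeticFunction ℝ)) * h1
    - hi U vonMangoldt * (zeta : ArithmeticFunction ℝ) * h2 - hi U vonMangoldt * h3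

theorem hi_mul (U n : ℕ) : (hi U vonMangoldt * (zeta : ArithmeticFunction ℝ)) n = bV U n := by
  rw [coe_mul_zeta_apply, bV, sum_filter]
  rfl

theorem bV_eq_zero {U n : ℕ} (h : n ≤ U) : bV U n = 0 := by
  refine sum_eq_zero fun d hd => ?_
  have h1 := mem_filter.1 hd
  have := Nat.divisor_le h1.1
  omega

theorem sum_lo {U N : ℕ} {f : ArithmeticFunction ℝ} {A B : ℝ} (hA : 0 ≤ A) (hB : 0 ≤ B)
    (hf : ∀ n, n ≤ U → |f n| ≤ A) {c : ℕ → ℂ} (hc : ∀ n, 0 < n → ‖c n‖ ≤ B) :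
    ‖∑ n ∈ Ioc 0 N, (lo U f n : ℂ) * χ (n : ZMod r) * c n‖ ≤ U * (A * B) := by
  refine (norm_sum_le _ _).trans ?_
  calc _ ≤ ∑ n ∈ Ioc 0 N, if n ≤ U then A * B else 0 := by
        refine sum_le_sum fun n hn => ?_
        rw [lo_apply]
        split_ifs with h
        · rw [norm_mul, norm_mul, Complex.norm_real, Real.norm_eq_abs]
          exact mul_le_mul ((mul_le_of_le_one_right (abs_nonneg _) (χ.norm_le_one _)).trans
            (hf n h)) (hc n (mem_Ioc.1 hn).1) (norm_nonneg _) hA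
        · simp
    _ ≤ _ := by
        rw [← sum_filter, sum_const, nsmul_eq_mul]
        refine mul_le_mul_of_nonneg_right ?_ (mul_nonneg hA hB)
        have : ((Ioc 0 N).filter (· ≤ U)).card ≤ (Ioc 0 U).card := card_le_card fun n hn => by
          rw [mem_filter, mem_Ioc] at hn
          exact mem_Ioc.2 ⟨hn.1.1, hn.2⟩
        rw [Nat.card_Ioc] at this
        exact_mod_cast this

theorem Ph_zeta (hr : r ≠ 0) (h : χ ≠ 1) (N : ℕ) {w : ℕ → ℝ} (ha : Antitone w)
    (h0 : ∀ n, 0 ≤ w n) (h1 : ∀ n, w n ≤ 1) : ‖Ph χ N w (zeta : ArithmeticFunction ℝ)‖ ≤ r := by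
  have := abel hr h N w 1 zero_le_one (h1 1) (fun a b _ hab _ => ha hab) fun a _ _ => h0 a
  rw [mul_one] at this
  refine le_of_eq_of_le (congrArg _ (sum_congr rfl fun n hn => ?_)) this
  rw [natCoe_apply, zeta_apply_ne (mem_Ioc.1 hn).1.ne']
  simp

theorem Ph_log (hr : r ≠ 0) (h : χ ≠ 1) {N : ℕ} {w : ℕ → ℝ} (ha : Antitone w)
    (h0 : ∀ n, 0 ≤ w n) (h1 : ∀ n, w n ≤ 1) {L : ℝ} (hL0 : 0 ≤ L) (hL : Real.log N ≤ L) :
    ‖Ph χ N w ArithmeticFunction.log‖ ≤ 2 * (r * L) := by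
  have hl : ∀ a b : ℕ, 1 ≤ a → a ≤ b → Real.log a ≤ Real.log b := fun a b h1 h2 =>
    Real.log_le_log (by exact_mod_cast h1) (by exact_mod_cast h2)
  have e1 := abel hr h N (fun n => L * w n) L hL0 (mul_le_of_le_one_right hL0 (h1 1))
    (fun a b _ hab _ => mul_le_mul_of_nonneg_left (ha hab) hL0) fun a _ _ => mul_nonneg hL0 (h0 a)
  have e2 := abel hr h N (fun n => (L - Real.log n) * w n) L hL0
    (by simpa using mul_le_of_le_one_right hL0 (h1 1))
    (fun a b h2 hab h3 => mul_le_mul (by linarith [hl a b h2 hab]) (ha hab) (h0 b)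
      (by linarith [hl a N h2 (hab.trans h3)]))
    fun a h2 h3 => mul_nonneg (by linarith [hl a N h2 h3]) (h0 a)
  have e : Ph χ N w ArithmeticFunction.log = ∑ n ∈ Ioc 0 N, χ (n : ZMod r) * ((L * w n : ℝ) : ℂ) -
      ∑ n ∈ Ioc 0 N, χ (n : ZMod r) * (((L - Real.log n) * w n : ℝ) : ℂ) := by
    rw [Ph, ← sum_sub_distrib]
    refine sum_congr rfl fun n _ => ?_
    rw [log_apply, Complex.ofReal_mul, Complex.ofReal_mul, Complex.ofReal_sub]
    ring
  rw [e]
  linarith [norm_sub_le_of_le e1 e2]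

end VauA

open VauA ArithmeticFunction in
/-- Vaughan's identity and the type I bounds -/
theorem vaughan {ε : ℝ} {W : ℝ → ℝ} (hW : Cut ε W) : ∃ C : ℝ, ∀ (X : ℝ) (U r : ℕ)
    (χ : DirichletCharacter ℂ r), 1 ≤ X → 1 ≤ U → (U : ℝ) ≤ X → r ≠ 0 → χ ≠ 1 →
    ‖SW W X (lamChi χ) - II W X U χ‖ ≤ C * r * (U : ℝ) ^ 2 * log (3 * X) ^ 2 := by
  refine ⟨4, fun X U r χ hX hU hUX hr hχ => ?_⟩
  set N := ⌊3 * X⌋₊ with hN
  set L := Real.log (3 * X) with hL
  set w : ℕ → ℝ := fun n => W (n / X) with hw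
  have hX0 : 0 < X := by linarith
  have hL1 : 1 ≤ L := by
    rw [hL, Real.le_log_iff_exp_le (by linarith)]
    linarith [Real.exp_one_lt_three]
  have hUN : U ≤ N := Nat.le_floor (by linarith)
  have hU1 : (1 : ℝ) ≤ U := by exact_mod_cast hU
  have hr1 : (1 : ℝ) ≤ r := by exact_mod_cast Nat.one_le_iff_ne_zero.2 hr
  have hNL : Real.log N ≤ L :=
    Real.log_le_log (by exact_mod_cast (by omega : 0 < N)) (Nat.floor_le (by linarith))
  have hw0 : ∀ n, N < n → w n = 0 := fun n hn => hW.zero _ (by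
    have := (Nat.floor_lt (by linarith)).1 hn
    rw [le_div_iff₀ hX0]
    nlinarith [hW.le_one])
  have hwa : Antitone w := fun a b hab => hW.anti (by
    have : (a : ℝ) ≤ b := by exact_mod_cast hab
    gcongr)
  have hLam : ∀ n, n ≤ U → |vonMangoldt n| ≤ L := fun n hn => by
    rw [abs_of_nonneg vonMangoldt_nonneg]
    refine vonMangoldt_le_log.trans ?_
    rcases Nat.eq_zero_or_pos n with rfl | h0
    · simpa using by linarith
    · exact (Real.log_le_log (by exact_mod_cast h0) (by exact_mod_cast hn.trans hUN)).trans hNL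
  have e1 : SW W X (lamChi χ) = Ph χ N w vonMangoldt := rfl
  have e2 : II W X U χ = Ph χ N w (hi U (moebius : ArithmeticFunction ℝ) *
      (hi U vonMangoldt * (zeta : ArithmeticFunction ℝ))) := by
    rw [Ph_mul hw0, II, ← sum_Ioc_consecutive _ (Nat.zero_le U) hUN, sum_eq_zero (s := Ioc 0 U),
      zero_add]
    · refine sum_congr rfl fun m hm => ?_
      rw [Ph, ← sum_Ioc_consecutive _ (Nat.zero_le U) hUN, sum_eq_zero (s := Ioc 0 U), zero_add,
        mul_sum]
      · refine sum_congr rfl fun n _ => ?_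
        rw [hi_mul, hi_apply, if_pos (mem_Ioc.1 hm).1, intCoe_apply, hw]
        push_cast
        ring
      · intro n hn
        rw [hi_mul, bV_eq_zero (mem_Ioc.1 hn).2]
        simp
    · intro m hm
      rw [hi_apply, if_neg (not_lt.2 (mem_Ioc.1 hm).2)]
      simp
  have b1 : ‖Ph χ N w (lo U vonMangoldt)‖ ≤ U * (L * 1) :=
    sum_lo (by linarith) zero_le_one hLam fun n _ => by
      rw [Complex.norm_real, Real.norm_of_nonneg (hW.nonneg _)]
      exact hW.le _
  have b2 : ‖Ph χ N w (lo U (moebius : ArithmeticFunction ℝ) *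
      (ArithmeticFunction.log - lo U vonMangoldt * (zeta : ArithmeticFunction ℝ)))‖ ≤
      U * (1 * (2 * (r * L) + U * (L * r))) := by
    rw [Ph_mul hw0]
    refine sum_lo zero_le_one (by positivity) (fun n _ => ?_) fun m hm => ?_
    · rw [intCoe_apply, ← Int.cast_abs]
      exact_mod_cast abs_moebius_le_one
    · have ha : Antitone fun k => w (m * k) := fun a b hab => hwa (Nat.mul_le_mul_left m hab)
      rw [Ph_sub, Ph_mul fun n hn => hw0 _ (hn.trans_le (Nat.le_mul_of_pos_left n hm))]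
      refine norm_sub_le_of_le (Ph_log hr hχ ha (fun _ => hW.nonneg _) (fun _ => hW.le _)
        (by linarith) hNL) (sum_lo (by linarith) (by linarith) hLam fun d _ => ?_)
      exact Ph_zeta hr hχ N (fun a b hab => ha (Nat.mul_le_mul_left d hab)) (fun _ => hW.nonneg _)
        fun _ => hW.le _
  rw [e1, e2, congrArg (Ph χ N w) (ident U), Ph_add, add_sub_cancel_right, Ph_add]
  refine (norm_add_le_of_le b1 b2).trans ?_
  have p1 : (U : ℝ) * L ≤ U * (r * L) := by gcongr; exact le_mul_of_one_le_left (by linarith) hr1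
  have p2 : (U : ℝ) * (r * L) ≤ U * (U * (r * L)) :=
    mul_le_mul_of_nonneg_left (le_mul_of_one_le_left (by positivity) hU1) (by positivity)
  have p3 : (U : ℝ) * (U * (r * L)) ≤ U * (U * (r * L)) * L :=
    le_mul_of_one_le_right (by positivity) hL1
  nlinarith

end Vale.Agent.P031
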